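import Vale.Agent.P221X.RIG.Spec
import Vale.Agent.P221X.Base.Spec

/-!
# P221X, block RIG: from (J) to rigidity, statements

`GDX D` : Moebius coordinates on `G / (1 + p W)`; `RA D A` : a ring `A` (either `R` or its
opposite) acting on `K` through a twisted action. See notes/P221/h88-rig.md.
-/

noncomputable section

namespace Vale.Agent.P221X.RIG

open PowerSeries

variable {p : ℕ} [hp : Fact p.Prime] {F : Type} [Field F]

/-- Moebius coordinates: `W = Z_p[delta]`, `delta^2 = Dd`, `delta` the Teichmueller lift of an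
element with `w^p = -w`, `γ₂ = 1 + delta Π`, `g = 1 + p delta`;
`π (b + c Π) = c / bbar` for `b ∈ 1 + p W`, `c ∈ W`. -/
structure GDX (D : GD p F) where
  Dd : ℤ_[p]
  nonsq : ∀ t : ℤ_[p], IsUnit (t ^ 2 - Dd)
  π : D.G → Lam p Dd
  π_one : π 1 = 0
  /-- `a = 1 + c Π` -/
  mob : ∀ c : Lam p Dd, ∃ a, ∀ b, π (a * b) = mob 1 c (π b)
  /-- `a = 1 + p^(m+1) delta` -/
  rot : ∀ m : ℕ, ∃ a, ∀ b, π (a * b) = rot m (π b)
  mob₁ : ∀ b, π (D.γ₁ * b) = RIG.mob 1 1 (π b)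
  mob₂ : ∀ b, π (D.γ₂ * b) = RIG.mob 1 (om Dd) (π b)
  /-- locally constant functions which are right invariant under `g` and `ψ` descend -/
  desc : ∀ (n : ℕ) (f : D.G → F), (∀ a, f (a * D.g) = f a) → (∀ a, f (a * D.ψ) = f a) →
    (∀ a, ∀ b ∈ D.Gf n, f (a * b) = f a) → ∃ f' ∈ Per F Dd, ∀ a, f a = f' (π a)

/-- the invariants of `G` on `K` are the constants. -/
def KFix (D : GD p F) : Prop :=
  ∀ z : KK F, (∀ a, D.actK a z = z) → ∃ c : F, z = algebraMap F (KK F) c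

/-- row KFIX -/
def KFixStmt (D : GD p F) : Prop := RowDEP D → KFix D

/-- A filtered ring generated by `O` and `G` with a twisted action on `K` and an element `θ`. -/
structure RA (D : GD p F) (A : Type) [Ring A] [Algebra F A] extends FRing F (Fin 4) wt4 A where
  sc : PowerSeries F →ₐ[F] A
  gr : D.G →* A
  skew : ∀ a f, gr a * sc f = sc (D.act a f) * gr a
  gr_ψ : gr D.ψ = 1
  u_mem : sc X ∈ fil 4
  u_sym : sym 4 (sc X) = MvPolynomial.X 0
  ε : F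
  ε_ne : ε ≠ 0
  e₁_sym : sym 1 (gr D.γ₁ - 1) = MvPolynomial.C ε * MvPolynomial.X 1
  e₂_sym : sym 1 (gr D.γ₂ - 1) = MvPolynomial.C ε * MvPolynomial.X 2
  wt_odd : ∀ (l : ℕ) (a : D.G), a ∈ D.Gf (2 * l + 1) → gr a - 1 ∈ fil (p ^ l)
  dense : ∀ (r : A) (w : ℕ), ∃ c : D.G →₀ PowerSeries F,
    r - c.sum (fun a f => sc f * gr a) ∈ fil w
  u_normal : ∀ r : A, ∃ r' : A, r * sc X = sc X * r'
  u_normal' : ∀ r : A, ∃ r' : A, sc X * r = r' * sc X
  op : A →ₐ[F] Module.End F (KK F)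
  op_sc : ∀ f z, op (sc f) z = algebraMap (PowerSeries F) (KK F) f * z
  op_gr : ∀ a f z, op (gr a) (f * z) = D.actK a f * op (gr a) z
  op_one : ∀ a, op (gr a) 1 - 1 ∈ KK.ge 1
  gain : ∀ {n : ℕ} {r : A} {m : ℤ} {z : KK F}, r ∈ fil (4 * n) → z ∈ KK.ge m →
    op r z ∈ KK.ge (m + n)
  θ : A
  θ_mem : θ ∈ fil 3
  θ_sym : sym 3 θ = MvPolynomial.X 3
  θ_mod : ∃ r, θ = gr D.g - 1 + sc X * r ∨ θ = gr D.g⁻¹ - 1 + sc X * r

/-- rigidity for `RA`. -/
def RA.Rig {D : GD p F} {A : Type} [Ring A] [Algebra F A] (S : RA D A) : Prop :=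
  ∀ s : A, (∀ x : A, s ≠ x * S.θ) → ∃ W : Submodule F (KK F), FiniteDimensional F W ∧
    ∀ z, S.op S.θ z = 0 → S.op s z = 0 → z ∈ W

/-- row RA -/
def RAStmt [CharP F p] (D : GD p F) : Prop :=
  5 ≤ p → JStmt p F → MobStmt p F → SpanStmt p F → KFix D → Nonempty (GDX D) →
    ∀ (A : Type) [Ring A] [Algebra F A] (S : RA D A), RowSB S.toFRing → S.Rig

/-- row LR: the two instances of `RA`. -/
def LRStmt (D : GD p F) : Prop :=
  ∀ (R : Type) [Ring R] [Algebra F R] (S : RD D R), RowSB S.toFRing → RowSB S.toFRing.opp →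
    (∀ (A : Type) [Ring A] [Algebra F A] (S' : RA D A), RowSB S'.toFRing → S'.Rig) →
    RowRIGL S ∧ RowRIGR S

end Vale.Agent.P221X.RIG
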