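import Vale.Agent.P221X.RIG.Main
import Vale.Agent.P221X.KA.All

/-!
# P221X: the output `AlgA` of all algebraic blocks
-/

namespace Vale.Agent.P221X.RIG

variable {p : ℕ} [Fact p.Prime] {F : Type} [Field F] [CharP F p] [Finite F] {D : GD p F}
  {R : Type} [Ring R] [Algebra F R]

/-- all algebraic blocks together. -/
theorem algAll (S : RD D R) (h5 : 5 ≤ p) (X : Nonempty (GDX D)) : Nonempty (AlgA S) :=
  algA S h5 (rowRIG S h5 X).1 (rowRIG S h5 X).2

end Vale.Agent.P221X.RIG
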