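import Vale.Agent.P221X.RIG.Quat
import Vale.Agent.P221X.RIG.Spec2

/-!
# P221X, block RIG: the Moebius coordinates `GDX` of a group of principal units
-/

noncomputable section

namespace Vale.Agent.P221X.RIG

open Vale.Agent.P251.F

variable {p : ℕ} [hp : Fact p.Prime] {F : Type} [Field F] {O k : Type*} [Ring O] [Field k]

/-- The group of `D` is the group of principal units of `O`. -/
structure Emb (D : GD p F) (C : CSRing p 2 O k) extends QD C where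
  j : D.G →* O
  j_inj : Function.Injective j
  j_surj : ∀ x, C.r x = 1 → ∃ a, j a = x
  mem : ∀ i a, a ∈ D.Gf i ↔ j a - 1 ∈ C.I i
  j_γ₁ : j D.γ₁ = 1 + C.S
  j_γ₂ : j D.γ₂ = 1 + δ * C.S
  j_g : j D.g = 1 + p * δ
  j_ψ : j D.ψ = 1 + p

namespace Emb

variable {D : GD p F} {C : CSRing p 2 O k} (E : Emb D C)

theorem r_j (a : D.G) : C.r (E.j a) = 1 := by
  have h := C.mem_I_one.1 ((E.mem 1 a).1 (D.Gf_one a))
  rwa [map_sub, map_one, sub_eq_zero] at h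

theorem exists_S (c : Lam p E.Dd) : ∃ a, E.j a = 1 + E.lam c * C.S :=
  E.j_surj _ (by rw [map_add, map_one, map_mul, C.r_S, mul_zero, add_zero])

theorem exists_W (v : Lam p E.Dd) : ∃ a, E.j a = E.lam (1 + (p : ℤ_[p]) • v) :=
  E.j_surj _ (by rw [map_add, map_one, QD.lam_p, map_add, map_one, map_mul, QD.r_p, zero_mul,
    add_zero])

/-- the section `c ↦ 1 + c S`. -/
def sec (c : Lam p E.Dd) : D.G := (E.exists_S c).choose

theorem j_sec (c : Lam p E.Dd) : E.j (E.sec c) = 1 + E.lam c * C.S := (E.exists_S c).choose_spec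

theorem sec_mem (n : ℕ) (c v : Lam p E.Dd) :
    (E.sec c)⁻¹ * E.sec (c + (p : ℤ_[p]) ^ n • v) ∈ D.Gf n := by
  rw [E.mem]
  have h1 : E.j ((E.sec c)⁻¹ * E.sec (c + (p : ℤ_[p]) ^ n • v)) - 1 =
      E.j (E.sec c)⁻¹ * (E.lam ((p : ℤ_[p]) ^ n • v) * C.S) := by
    have h2 : E.j (E.sec c)⁻¹ * E.j (E.sec c) = 1 := by rw [← map_mul, inv_mul_cancel, map_one]
    rw [map_mul, ← h2, ← mul_sub, j_sec, j_sec, map_add, add_mul]
    congr 1
    abel
  rw [h1]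
  exact C.I_anti (by omega : n ≤ 2 * n)
    (C.mul_mem_I_left _ (C.mul_mem_I_right (E.lam_pow_mem n v) _))

variable [CharP k p]

/-- the elements of `1 + p W`. -/
def W (h2 : p ≠ 2) : Subgroup D.G where
  carrier := {a | ∃ w, E.j a = E.lam w}
  one_mem' := ⟨1, by rw [map_one, map_one]⟩
  mul_mem' := by
    rintro a b ⟨v, hv⟩ ⟨w, hw⟩
    exact ⟨v * w, by rw [map_mul, map_mul, hv, hw]⟩
  inv_mem' := by
    rintro a ⟨w, hw⟩
    have h1 : C.r (E.lam (w - 1)) = 0 := by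
      rw [map_sub, map_sub, ← hw, E.r_j, map_one, map_one, sub_self]
    obtain ⟨v, hv⟩ := E.dvd_of_r h2 h1
    have h3 : w = 1 + (p : ℤ_[p]) • v := by rw [← hv]; abel
    have hu : IsUnit w := by rw [h3]; exact isUnit_one_add v
    refine ⟨Ring.inverse w, ?_⟩
    have h4 : E.j a⁻¹ * E.j a = 1 := by rw [← map_mul, inv_mul_cancel, map_one]
    calc E.j a⁻¹ = E.j a⁻¹ * E.lam (w * Ring.inverse w) := by
          rw [Ring.mul_inverse_cancel _ hu, map_one, mul_one]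
      _ = E.lam (Ring.inverse w) := by rw [map_mul, ← hw, ← mul_assoc, h4, one_mul]

theorem g_mem (h2 : p ≠ 2) : D.g ∈ E.W h2 :=
  ⟨1 + (p : ℤ_[p]) • om E.Dd, by rw [E.j_g, map_add, map_one, QD.lam_p, QD.lam_om]⟩

theorem ψ_mem (h2 : p ≠ 2) : D.ψ ∈ E.W h2 :=
  ⟨1 + (p : ℤ_[p]) • 1, by rw [E.j_ψ, map_add, map_one, QD.lam_p, map_one, mul_one]⟩

theorem W_succ (h2 : p ≠ 2) {n : ℕ} {a : D.G} (ha : a ∈ E.W h2) (h : a ∈ D.Gf (2 * n + 1)) :
    a ∈ D.Gf (2 * n + 2) := by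
  obtain ⟨w, hw⟩ := ha
  rw [E.mem, hw, ← map_one E.lam, ← map_sub] at h ⊢
  exact E.mem_succ h2 h

/-- a subgroup containing `g`, `ψ` and a congruence subgroup contains `1 + p W`. -/
theorem W_le (h2 : p ≠ 2) (H : Subgroup D.G) (hg : D.g ∈ H) (hψ : D.ψ ∈ H) (n : ℕ)
    (hn : D.Gf n ≤ H) : E.W h2 ≤ H := by
  have key : ∀ m l, n ≤ m + l → ∀ a ∈ E.W h2, a ∈ D.Gf (2 * l + 2) → a ∈ H := by
    intro m
    induction m with
    | zero => intro l hl a _ ha; exact hn (D.Gf_anti (by omega) ha)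
    | succ m ih =>
      intro l hl a haW ha
      obtain ⟨i, j, hij⟩ := D.even_span l a ha
      have h1 : (D.g ^ p ^ l) ^ i * (D.ψ ^ p ^ l) ^ j ∈ H :=
        H.mul_mem (H.pow_mem (H.pow_mem hg _) _) (H.pow_mem (H.pow_mem hψ _) _)
      have h3 : ((D.g ^ p ^ l) ^ i * (D.ψ ^ p ^ l) ^ j)⁻¹ * a ∈ E.W h2 :=
        (E.W h2).mul_mem ((E.W h2).inv_mem ((E.W h2).mul_mem
          ((E.W h2).pow_mem ((E.W h2).pow_mem (E.g_mem h2) _) _)
          ((E.W h2).pow_mem ((E.W h2).pow_mem (E.ψ_mem h2) _) _))) haW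
      have h4 := ih (l + 1) (by omega) _ h3 (E.W_succ h2 (n := l + 1) h3 hij)
      have h5 := H.mul_mem h1 h4
      rwa [mul_inv_cancel_left] at h5
  intro a ha
  exact key n 0 (by omega) a ha (E.W_succ h2 (n := 0) ha (D.Gf_one a))

/-- the Moebius coordinate. -/
def π (h2 : p ≠ 2) (a : D.G) : Lam p E.Dd := (E.decomp h2 (E.r_j a)).choose

theorem π_spec (h2 : p ≠ 2) (a : D.G) : ∃ v : Lam p E.Dd,
    E.j a = (1 + E.lam (E.π h2 a) * C.S) * E.lam (1 + (p : ℤ_[p]) • v) :=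
  (E.decomp h2 (E.r_j a)).choose_spec

theorem π_eq (h2 : p ≠ 2) {a : D.G} {x u : Lam p E.Dd}
    (h : E.j a = (1 + E.lam x * C.S) * E.lam u) : E.π h2 a = x := by
  obtain ⟨v, hv⟩ := E.π_spec h2 a
  exact E.unique h2 (isUnit_one_add v) (hv.symm.trans h)

theorem π_mob (h2 : p ≠ 2) {a : D.G} {c : Lam p E.Dd} (h : E.j a = 1 + E.lam c * C.S) (b : D.G) :
    E.π h2 (a * b) = mob 1 c (E.π h2 b) := by
  obtain ⟨v, hv⟩ := E.π_spec h2 b
  refine E.π_eq h2 (u := (1 + (p : ℤ_[p]) • (c * star (E.π h2 b))) * (1 + (p : ℤ_[p]) • v)) ?_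
  rw [map_mul, h, map_mul E.lam, ← mul_assoc, ← QD.mob_mul, mul_assoc, ← hv]

theorem π_rot (h2 : p ≠ 2) {a : D.G} {m : ℕ}
    (h : E.j a = E.lam (1 + (p : ℤ_[p]) • ((p : ℤ_[p]) ^ m • om E.Dd))) (b : D.G) :
    E.π h2 (a * b) = rot m (E.π h2 b) := by
  obtain ⟨v, hv⟩ := E.π_spec h2 b
  refine E.π_eq h2
    (u := (1 + (p : ℤ_[p]) • ((p : ℤ_[p]) ^ m • om E.Dd)) * (1 + (p : ℤ_[p]) • v)) ?_
  rw [map_mul, h, map_mul E.lam, ← mul_assoc, ← QD.rot_mul, mul_assoc, ← hv]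

theorem desc (h2 : p ≠ 2) (n : ℕ) (f : D.G → F) (hg : ∀ a, f (a * D.g) = f a)
    (hψ : ∀ a, f (a * D.ψ) = f a) (hn : ∀ a, ∀ b ∈ D.Gf n, f (a * b) = f a) :
    ∃ f' ∈ Per F E.Dd, ∀ a, f a = f' (E.π h2 a) := by
  let H : Subgroup D.G :=
    { carrier := {b | ∀ a, f (a * b) = f a}
      one_mem' := fun a => by rw [mul_one]
      mul_mem' := fun {b c} hb hc a => by rw [← mul_assoc, hc, hb]
      inv_mem' := fun {b} hb a => by rw [← hb (a * b⁻¹), inv_mul_cancel_right] }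
  have hW : E.W h2 ≤ H := E.W_le h2 H hg hψ n fun b hb a => hn a b hb
  refine ⟨fun c => f (E.sec c), ⟨n, fun c v => ?_⟩, fun a => ?_⟩
  · have h1 := hn (E.sec c) _ (E.sec_mem n c v)
    rwa [mul_inv_cancel_left] at h1
  · obtain ⟨v, hv⟩ := E.π_spec h2 a
    obtain ⟨b, hb⟩ := E.exists_W v
    have h1 : a = E.sec (E.π h2 a) * b := E.j_inj (by rw [map_mul, j_sec, hb, hv])
    have h3 := hW (show b ∈ E.W h2 from ⟨_, hb⟩) (E.sec (E.π h2 a))
    rwa [← h1] at h3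

/-- the Moebius coordinates. -/
def toGDX (h2 : p ≠ 2) : GDX D where
  Dd := E.Dd
  nonsq := E.nonsq h2
  π := E.π h2
  π_one := E.π_eq h2 (u := 1) (by rw [map_one, map_zero, map_one, zero_mul, add_zero, mul_one])
  mob c := ⟨E.sec c, E.π_mob h2 (E.j_sec c)⟩
  rot m := by
    obtain ⟨a, ha⟩ := E.exists_W ((p : ℤ_[p]) ^ m • om E.Dd)
    exact ⟨a, E.π_rot h2 ha⟩
  mob₁ := E.π_mob h2 (by rw [E.j_γ₁, map_one, one_mul])
  mob₂ := E.π_mob h2 (by rw [E.j_γ₂, QD.lam_om])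
  desc := E.desc h2

include E in
/-- row RIG-GDX -/
theorem gdx (h2 : p ≠ 2) : Nonempty (GDX D) := ⟨E.toGDX h2⟩

end Emb

end Vale.Agent.P221X.RIG
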