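import Vale.Agent.P221X.RIG.Defs
import Mathlib.RingTheory.PowerSeries.Expand
import Mathlib.RingTheory.MvPowerSeries.Expand

/-!
# P221X, block RIG: binomial coefficients of `p`-adic integers modulo `p`
-/

namespace Vale.Agent.P221X.RIG

open Module

noncomputable section

variable {p : ℕ} [hp : Fact p.Prime] {k : Type*} [Field k] [CharP k p]

theorem rho_pow_p (x : ℤ_[p]) : rho k x ^ p = rho k x := by
  unfold rho
  rw [RingHom.comp_apply, ← map_pow, ZMod.pow_card]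

theorem rho_eq_zero_iff (x : ℤ_[p]) : rho k x = 0 ↔ (p : ℤ_[p]) ∣ x := by
  unfold rho
  rw [RingHom.comp_apply, map_eq_zero_iff _ (ZMod.castHom (dvd_refl p) k).injective,
    ← RingHom.mem_ker, PadicInt.ker_toZMod, PadicInt.maximalIdeal_eq_span_p,
    Ideal.mem_span_singleton]

theorem rho_p : rho k (p : ℤ_[p]) = 0 := (rho_eq_zero_iff _).2 dvd_rfl

theorem rho_p_mul (x : ℤ_[p]) : rho k ((p : ℤ_[p]) * x) = 0 := by
  rw [map_mul, rho_p, zero_mul]

@[simp] theorem ch_zero_right (x : ℤ_[p]) : ch k x 0 = 1 := by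
  unfold ch; rw [Ring.choose_zero_right, map_one]

@[simp] theorem ch_one_right (x : ℤ_[p]) : ch k x 1 = rho k x := by
  unfold ch; rw [Ring.choose_one_right]

theorem ch_natCast (n j : ℕ) : ch k (n : ℤ_[p]) j = (n.choose j : k) := by
  unfold ch; rw [Ring.choose_natCast, map_natCast]

theorem ch_zero_left (j : ℕ) : ch k (0 : ℤ_[p]) j = if j = 0 then 1 else 0 := by
  have h := ch_natCast (p := p) (k := k) 0 j
  rw [Nat.cast_zero] at h
  rw [h]
  rcases j with _ | j <;> simp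

theorem ch_add (x y : ℤ_[p]) (n : ℕ) :
    ch k (x + y) n = ∑ ij ∈ Finset.antidiagonal n, ch k x ij.1 * ch k y ij.2 := by
  unfold ch
  rw [Ring.add_choose_eq n (Commute.all x y), map_sum]
  simp only [map_mul]

theorem ch_add_one (x : ℤ_[p]) (n : ℕ) : ch k (x + 1) (n + 1) = ch k x (n + 1) + ch k x n := by
  unfold ch
  rw [Ring.choose_succ_succ, map_add, add_comm]

theorem ch_pow_p (x : ℤ_[p]) (j : ℕ) : ch k x j ^ p = ch k x j := rho_pow_p _

variable (k) in
/-- the binomial series `(1 + T)^x` modulo `p`. -/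
def Bs (x : ℤ_[p]) : PowerSeries k := PowerSeries.mk (ch k x)

theorem coeff_Bs (x : ℤ_[p]) (j : ℕ) : PowerSeries.coeff j (Bs k x) = ch k x j :=
  PowerSeries.coeff_mk _ _

theorem Bs_add (x y : ℤ_[p]) : Bs k (x + y) = Bs k x * Bs k y := by
  ext n
  rw [coeff_Bs, ch_add, PowerSeries.coeff_mul]
  simp only [coeff_Bs]

theorem Bs_zero : Bs k (0 : ℤ_[p]) = 1 := by
  ext n
  rw [coeff_Bs, ch_zero_left, PowerSeries.coeff_one]

theorem Bs_natCast_mul (n : ℕ) (x : ℤ_[p]) : Bs k ((n : ℤ_[p]) * x) = Bs k x ^ n := by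
  induction n with
  | zero => rw [Nat.cast_zero, zero_mul, Bs_zero, pow_zero]
  | succ n ih => rw [Nat.cast_succ, add_mul, one_mul, Bs_add, ih, pow_succ]

theorem ch_p_mul (x : ℤ_[p]) (j : ℕ) :
    ch k ((p : ℤ_[p]) * x) j = if p ∣ j then ch k x (j / p) else 0 := by
  have hp0 : p ≠ 0 := hp.out.ne_zero
  have h1 := MvPowerSeries.map_frobenius_expand p hp0 (f := (Bs k x : MvPowerSeries Unit k))
  have h2 : Bs k x ^ p = PowerSeries.map (frobenius k p) (PowerSeries.expand p hp0 (Bs k x)) :=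
    h1.symm
  rw [← coeff_Bs, Bs_natCast_mul, h2, PowerSeries.coeff_map, PowerSeries.coeff_expand]
  split_ifs
  · rw [coeff_Bs, frobenius_def, ch_pow_p]
  · rw [map_zero]

theorem ch_pow_mul (v : ℕ) (x : ℤ_[p]) (j : ℕ) :
    ch k ((p : ℤ_[p]) ^ v * x) j = if p ^ v ∣ j then ch k x (j / p ^ v) else 0 := by
  induction v generalizing j with
  | zero => simp
  | succ v ih =>
    rw [pow_succ', mul_assoc, ch_p_mul]
    by_cases h1 : p ∣ j
    · obtain ⟨j, rfl⟩ := h1
      rw [if_pos (dvd_mul_right _ _), Nat.mul_div_cancel_left _ hp.out.pos, ih, pow_succ',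
        Nat.mul_div_mul_left _ _ hp.out.pos]
      simp only [Nat.mul_dvd_mul_iff_left hp.out.pos]
    · rw [if_neg h1, if_neg]
      intro h2
      exact h1 (Dvd.dvd.trans (dvd_pow_self p (Nat.succ_ne_zero v)) h2)

theorem ch_pow_mul_mul (v : ℕ) (x : ℤ_[p]) (j : ℕ) :
    ch k ((p : ℤ_[p]) ^ v * x) (p ^ v * j) = ch k x j := by
  rw [ch_pow_mul, if_pos (dvd_mul_right _ _), Nat.mul_div_cancel_left _ (pow_pos hp.out.pos v)]

/-- `ch x j` only depends on `x` modulo `p^n` if `j < p^n`. -/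
theorem ch_add_pow_mul {n j : ℕ} (hj : j < p ^ n) (x y : ℤ_[p]) :
    ch k (x + (p : ℤ_[p]) ^ n * y) j = ch k x j := by
  rw [ch_add, Finset.sum_eq_single (j, 0)]
  · simp
  · rintro ⟨a, b⟩ hab hne
    rw [Finset.mem_antidiagonal] at hab
    simp only at hab
    have hb : b ≠ 0 := by
      rintro rfl
      exact hne (by simp only [add_zero] at hab; rw [hab])
    rw [ch_pow_mul, if_neg, mul_zero]
    intro hd
    have := Nat.le_of_dvd (Nat.pos_of_ne_zero hb) hd
    omega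
  · intro h
    exact absurd (Finset.mem_antidiagonal.2 (by simp)) h

theorem ch_congr {n j : ℕ} (hj : j < p ^ n) {x y : ℤ_[p]} (h : (p : ℤ_[p]) ^ n ∣ x - y) :
    ch k x j = ch k y j := by
  obtain ⟨z, hz⟩ := h
  rw [show x = y + (p : ℤ_[p]) ^ n * z by rw [← hz]; ring, ch_add_pow_mul hj]

theorem lt_p_pow (j : ℕ) : j < p ^ j := Nat.lt_pow_self hp.out.one_lt

theorem exists_nat_lt (x : ℤ_[p]) (n : ℕ) :
    ∃ (x0 : ℕ) (y : ℤ_[p]), x0 < p ^ n ∧ x = x0 + (p : ℤ_[p]) ^ n * y := by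
  obtain ⟨y, hy⟩ := Ideal.mem_span_singleton.1 (PadicInt.appr_spec n x)
  exact ⟨x.appr n, y, PadicInt.appr_lt x n, by rw [← hy]; ring⟩

theorem coeff_pow_eq_zero {f : PowerSeries k} (hf : PowerSeries.constantCoeff f = 0) {i j : ℕ}
    (h : j < i) : PowerSeries.coeff j (f ^ i) = 0 := by
  obtain ⟨g, rfl⟩ := PowerSeries.X_dvd_iff.2 hf
  rw [mul_pow, PowerSeries.coeff_X_pow_mul', if_neg (by omega)]

theorem constantCoeff_Bs_sub (x : ℤ_[p]) : PowerSeries.constantCoeff (Bs k x - 1) = 0 := by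
  rw [map_sub, map_one, ← PowerSeries.coeff_zero_eq_constantCoeff_apply, coeff_Bs, ch_zero_right,
    sub_self]

/-- the binomial coefficient of a product. -/
theorem ch_mul (x y : ℤ_[p]) (n : ℕ) :
    ch k (x * y) n =
      ∑ j ∈ Finset.range (n + 1), ch k y j * PowerSeries.coeff n ((Bs k x - 1) ^ j) := by
  obtain ⟨y0, z, -, rfl⟩ := exists_nat_lt y n
  have hn := lt_p_pow (p := p) n
  have h1 : ch k (x * ((y0 : ℤ_[p]) + (p : ℤ_[p]) ^ n * z)) n = ch k ((y0 : ℤ_[p]) * x) n :=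
    ch_congr hn ⟨x * z, by ring⟩
  have h2 : ∀ j ∈ Finset.range (n + 1),
      ch k ((y0 : ℤ_[p]) + (p : ℤ_[p]) ^ n * z) j * PowerSeries.coeff n ((Bs k x - 1) ^ j) =
        (y0.choose j : k) * PowerSeries.coeff n ((Bs k x - 1) ^ j) := by
    intro j hj
    rw [Finset.mem_range] at hj
    rw [ch_add_pow_mul (by omega), ch_natCast]
  rw [h1, Finset.sum_congr rfl h2, ← coeff_Bs, Bs_natCast_mul]
  have h3 : Bs k x ^ y0 = ∑ j ∈ Finset.range (y0 + 1), (Bs k x - 1) ^ j * (y0.choose j : ℕ) := by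
    conv_lhs => rw [show Bs k x = (Bs k x - 1) + 1 by ring, add_pow]
    simp only [one_pow, mul_one]
  have h4 : ∀ j, PowerSeries.coeff n ((Bs k x - 1) ^ j * ((y0.choose j : ℕ) : PowerSeries k)) =
      (y0.choose j : k) * PowerSeries.coeff n ((Bs k x - 1) ^ j) := by
    intro j
    rw [← map_natCast (PowerSeries.C (R := k)), PowerSeries.coeff_mul_C, mul_comm]
  rw [h3, map_sum]
  simp only [h4]
  have h5 : ∀ m, y0 ≤ m → n ≤ m → ∀ l, l = y0 ∨ l = n →
      ∑ j ∈ Finset.range (l + 1), (y0.choose j : k) * PowerSeries.coeff n ((Bs k x - 1) ^ j) =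
      ∑ j ∈ Finset.range (m + 1), (y0.choose j : k) * PowerSeries.coeff n ((Bs k x - 1) ^ j) := by
    intro m h6 h7 l hl
    refine Finset.sum_subset (Finset.range_mono (by omega)) fun j _ hj => ?_
    rw [Finset.mem_range] at hj
    rcases hl with rfl | rfl
    · rw [Nat.choose_eq_zero_of_lt (by omega), Nat.cast_zero, zero_mul]
    · rw [coeff_pow_eq_zero (constantCoeff_Bs_sub x) (by omega), mul_zero]
  rw [h5 (y0 + n) (by omega) (by omega) y0 (Or.inl rfl),
    h5 (y0 + n) (by omega) (by omega) n (Or.inr rfl)]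

theorem LipZ.per {E : ℤ_[p]} {φ : Lam p E → ℤ_[p]} (h : LipZ φ) (j : ℕ) :
    (fun a => ch k (φ a) j) ∈ Per k E :=
  ⟨j, fun a v => ch_congr (lt_p_pow j) (h j a v)⟩

theorem lipZ_re {E : ℤ_[p]} : LipZ (fun a : Lam p E => a.re) := fun n a v =>
  ⟨v.re, by simp⟩

theorem lipZ_im {E : ℤ_[p]} : LipZ (fun a : Lam p E => a.im) := fun n a v =>
  ⟨v.im, by simp⟩

variable (k) in
/-- the Mahler basis. -/
def Bf (E : ℤ_[p]) (i j : ℕ) : Per k E :=
  ⟨fun a => ch k a.re i * ch k a.im j, (Per k E).mul_mem (lipZ_re.per i) (lipZ_im.per j)⟩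

theorem Bf_apply (E : ℤ_[p]) (i j : ℕ) (a : Lam p E) :
    (Bf k E i j).1 a = ch k a.re i * ch k a.im j := rfl

variable (k) in
/-- the reduction modulo `p` of a congruence preserving function. -/
def red {E : ℤ_[p]} (φ : Lam p E → ℤ_[p]) (h : LipZ φ) : Per k E :=
  ⟨fun a => rho k (φ a), by simpa only [ch_one_right] using h.per (k := k) 1⟩

theorem red_apply {E : ℤ_[p]} (φ : Lam p E → ℤ_[p]) (h : LipZ φ) (a : Lam p E) :
    (red k φ h).1 a = rho k (φ a) := rfl

end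

end Vale.Agent.P221X.RIG
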