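import Mathlib.NumberTheory.Padics.MahlerBasis
import Mathlib.NumberTheory.Padics.RingHoms
import Mathlib.Algebra.QuadraticAlgebra.Basic
import Mathlib.LinearAlgebra.Dual.Lemmas
import Mathlib.Tactic

/-!
# P221X, block RIG: definitions for the theorem (J)

`Lam p E = Z_p[w]/(w^2 - E)`. Periodic functions `Per k E`, difference operators, the degree
filtrations `Pol`, the Moebius maps `mob` and rotations `rot`, stable subspaces of measures.
See notes/P221/h88-rig.md.
-/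

namespace Vale.Agent.P221X.RIG

open Module

noncomputable section

variable {p : ℕ} [hp : Fact p.Prime]

/-- The lattice `Z_p[w]/(w^2 - E)`. -/
abbrev Lam (p : ℕ) [Fact p.Prime] (E : ℤ_[p]) : Type := QuadraticAlgebra ℤ_[p] E 0

/-- the generator `w`. -/
def om (E : ℤ_[p]) : Lam p E := ⟨0, 1⟩

variable (k : Type*) [Field k] [CharP k p]

/-- reduction modulo `p`. -/
def rho : ℤ_[p] →+* k := (ZMod.castHom (dvd_refl p) k).comp PadicInt.toZMod

/-- binomial coefficients modulo `p`. -/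
def ch (x : ℤ_[p]) (j : ℕ) : k := rho k (Ring.choose x j)

variable {k}

/-- congruence preserving maps. -/
def Lip {E E' : ℤ_[p]} (γ : Lam p E' → Lam p E) : Prop :=
  ∀ (n : ℕ) (a v : Lam p E'), ∃ w : Lam p E, γ (a + (p : ℤ_[p]) ^ n • v) = γ a + (p : ℤ_[p]) ^ n • w

/-- congruence preserving functions. -/
def LipZ {E : ℤ_[p]} (φ : Lam p E → ℤ_[p]) : Prop :=
  ∀ (n : ℕ) (a v : Lam p E), (p : ℤ_[p]) ^ n ∣ φ (a + (p : ℤ_[p]) ^ n • v) - φ a

variable (k) in
omit [CharP k p] in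
/-- functions which are periodic modulo some power of `p`. -/
def Per (E : ℤ_[p]) : Subalgebra k (Lam p E → k) where
  carrier := {F | ∃ n : ℕ, ∀ a v : Lam p E, F (a + (p : ℤ_[p]) ^ n • v) = F a}
  mul_mem' := by
    rintro F G ⟨m, hm⟩ ⟨n, hn⟩
    refine ⟨m + n, fun a v => ?_⟩
    have h1 := hm a ((p : ℤ_[p]) ^ n • v)
    have h2 := hn a ((p : ℤ_[p]) ^ m • v)
    rw [smul_smul, ← pow_add] at h1
    rw [smul_smul, ← pow_add, add_comm n m] at h2
    simp only [Pi.mul_apply, h1, h2]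
  add_mem' := by
    rintro F G ⟨m, hm⟩ ⟨n, hn⟩
    refine ⟨m + n, fun a v => ?_⟩
    have h1 := hm a ((p : ℤ_[p]) ^ n • v)
    have h2 := hn a ((p : ℤ_[p]) ^ m • v)
    rw [smul_smul, ← pow_add] at h1
    rw [smul_smul, ← pow_add, add_comm n m] at h2
    simp only [Pi.add_apply, h1, h2]
  algebraMap_mem' c := ⟨0, fun _ _ => rfl⟩

variable (k) in
omit [CharP k p] in
/-- the shift by `v` on all functions. -/
def sh {E : ℤ_[p]} (v : Lam p E) : Module.End k (Lam p E → k) :=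
  LinearMap.funLeft k k (fun a => a + v)

variable (k) in
omit [CharP k p] in
/-- the difference operator on all functions. -/
def dif {E : ℤ_[p]} (v : Lam p E) : Module.End k (Lam p E → k) := sh k v - 1

variable (k) in
omit [CharP k p] in
/-- functions of weighted degree `< r` (weights `1` and `ω`). -/
def PolF (E : ℤ_[p]) (ω r : ℕ) : Submodule k (Lam p E → k) where
  carrier := {F | ∀ i j : ℕ, r ≤ i + ω * j → (dif k (1 : Lam p E) ^ i * dif k (om E) ^ j : Module.End k (Lam p E → k)) F = 0}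
  add_mem' := fun {F G} hF hG i j h => by rw [map_add, hF i j h, hG i j h, add_zero]
  zero_mem' := fun i j _ => map_zero _
  smul_mem' := fun c F hF i j h => by rw [map_smul, hF i j h, smul_zero]

variable (k) in
/-- growth at most `e`. -/
def Gr {E : ℤ_[p]} (ω e : ℕ) (φ : Lam p E → ℤ_[p]) : Prop :=
  LipZ φ ∧ ∀ j : ℕ, (fun a => ch k (φ a) j) ∈ PolF k E ω (e * j + 1)

variable (k) in
omit [CharP k p] in
/-- composition with a congruence preserving map. -/
def cmp {E E' : ℤ_[p]} (γ : Lam p E' → Lam p E) (h : Lip γ) : Per k E →ₗ[k] Per k E' where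
  toFun F := ⟨fun a => F.1 (γ a), by
    obtain ⟨n, hn⟩ := F.2
    refine ⟨n, fun a v => ?_⟩
    obtain ⟨w, hw⟩ := h n a v
    simp only [hw, hn]⟩
  map_add' _ _ := rfl
  map_smul' _ _ := rfl

omit [CharP k p] in
@[simp] theorem cmp_apply {E E' : ℤ_[p]} (γ : Lam p E' → Lam p E) (h : Lip γ) (F : Per k E)
    (a : Lam p E') : (cmp k γ h F).1 a = F.1 (γ a) := rfl

theorem lip_add {E : ℤ_[p]} (c : Lam p E) : Lip (fun a : Lam p E => a + c) :=
  fun _ a v => ⟨v, by simp only [add_right_comm a _ c]⟩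

variable (k) in
omit [CharP k p] in
/-- the difference operator on periodic functions. -/
def Dp {E : ℤ_[p]} (v : Lam p E) : Module.End k (Per k E) := cmp k _ (lip_add v) - 1

variable (k) in
omit [CharP k p] in
/-- periodic functions of weighted degree `< r`. -/
def Pol (E : ℤ_[p]) (ω r : ℕ) : Submodule k (Per k E) :=
  (PolF k E ω r).comap (Per k E).val.toLinearMap

variable (k) in
omit [CharP k p] in
/-- measures killing the functions of weighted degree `< e`. -/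
def Fil (E : ℤ_[p]) (ω e : ℕ) : Submodule k (Dual k (Per k E)) := (Pol k E ω e).dualAnnihilator

variable (k) in
omit [CharP k p] in
/-- `T` lowers the weighted degree by `m`. -/
def Low {E : ℤ_[p]} (ω m : ℕ) (T : Module.End k (Per k E)) : Prop :=
  ∀ (r : ℕ) (F : Per k E), F ∈ Pol k E ω (r + m) → T F ∈ Pol k E ω r

theorem isUnit_one_add {E : ℤ_[p]} (x : Lam p E) : IsUnit (1 + (p : ℤ_[p]) • x) := by
  rw [QuadraticAlgebra.isUnit_iff_norm_isUnit, QuadraticAlgebra.norm_def]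
  have h : ∃ y : ℤ_[p], (1 + (p : ℤ_[p]) • x).re * (1 + (p : ℤ_[p]) • x).re +
      0 * (1 + (p : ℤ_[p]) • x).re * (1 + (p : ℤ_[p]) • x).im -
      E * (1 + (p : ℤ_[p]) • x).im * (1 + (p : ℤ_[p]) • x).im = 1 + p * y := by
    refine ⟨2 * x.re + p * x.re * x.re - E * p * x.im * x.im, ?_⟩
    simp only [QuadraticAlgebra.re_add, QuadraticAlgebra.im_add, QuadraticAlgebra.re_one,
      QuadraticAlgebra.im_one, QuadraticAlgebra.re_smul, QuadraticAlgebra.im_smul, smul_eq_mul]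
    ring
  obtain ⟨y, hy⟩ := h
  rw [hy]
  have h2 : (p : ℤ_[p]) * y ∈ nonunits ℤ_[p] :=
    mul_mem_nonunits_left (PadicInt.irreducible_p.not_isUnit)
  have h3 := IsLocalRing.isUnit_one_sub_self_of_mem_nonunits (-((p : ℤ_[p]) * y))
    (by rwa [mem_nonunits_iff, IsUnit.neg_iff])
  rwa [sub_neg_eq_add] at h3

/-- the Moebius map `a -> (a + c) / (1 + p r cbar a)`. -/
def mob {E : ℤ_[p]} (r : ℤ_[p]) (c a : Lam p E) : Lam p E :=
  (a + c) * Ring.inverse (1 + (p : ℤ_[p]) • (r • star c * a))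

/-- the rotation `a -> a (1 + p^(m+1) w) / (1 - p^(m+1) w)`. -/
def rot {E : ℤ_[p]} (m : ℕ) (a : Lam p E) : Lam p E :=
  a * ((1 + (p : ℤ_[p]) • ((p : ℤ_[p]) ^ m • om E)) *
    Ring.inverse (1 + (p : ℤ_[p]) • (-((p : ℤ_[p]) ^ m • om E))))

theorem lip_mul {E : ℤ_[p]} (c : Lam p E) : Lip (fun a : Lam p E => a * c) :=
  fun _ a v => ⟨v * c, by simp only [add_mul, smul_mul_assoc]⟩

theorem lip_rot {E : ℤ_[p]} (m : ℕ) : Lip (rot (E := E) m) := lip_mul _

theorem lip_mob {E : ℤ_[p]} (r : ℤ_[p]) (c : Lam p E) : Lip (mob r c) := by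
  intro n a v
  obtain ⟨x, hx⟩ : ∃ x, x = r • star c := ⟨_, rfl⟩
  obtain ⟨q, hq⟩ : ∃ q : Lam p E, q = (p : ℤ_[p]) ^ n • (1 : Lam p E) := ⟨_, rfl⟩
  obtain ⟨π, hπ⟩ : ∃ π : Lam p E, π = (p : ℤ_[p]) • (1 : Lam p E) := ⟨_, rfl⟩
  have e1 : ∀ y : Lam p E, (p : ℤ_[p]) ^ n • y = q * y := fun y => by
    rw [hq, smul_mul_assoc, one_mul]
  have e2 : ∀ y : Lam p E, (p : ℤ_[p]) • y = π * y := fun y => by
    rw [hπ, smul_mul_assoc, one_mul]
  have h1 := Ring.mul_inverse_cancel _ (isUnit_one_add (x * a))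
  have h2 := Ring.mul_inverse_cancel _ (isUnit_one_add (x * (a + (p : ℤ_[p]) ^ n • v)))
  unfold mob
  rw [← hx]
  generalize Ring.inverse (1 + (p : ℤ_[p]) • (x * a)) = i1 at h1 ⊢
  generalize Ring.inverse (1 + (p : ℤ_[p]) • (x * (a + (p : ℤ_[p]) ^ n • v))) = i2 at h2 ⊢
  refine ⟨v * i2 - (a + c) * (π * x * v * i1 * i2), ?_⟩
  rw [e1, e2] at h2
  rw [e2] at h1
  rw [e1, e1]
  linear_combination (a + c) * i1 * h2 - (a + c) * i2 * h1

variable (k) in
omit [CharP k p] in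
/-- subspaces of measures preserved by the Moebius maps and the deep rotations. -/
structure Stab {E : ℤ_[p]} (r : ℤ_[p]) (N : Submodule k (Dual k (Per k E))) : Prop where
  mob : ∀ (c : Lam p E), ∀ μ ∈ N, μ ∘ₗ cmp k _ (lip_mob r c) ∈ N
  rot : ∃ m0 : ℕ, ∀ m, m0 ≤ m → ∀ μ ∈ N, μ ∘ₗ cmp k _ (lip_rot m) ∈ N

omit [CharP k p] in
/-- the closure of `N` has finite codimension. -/
def Big {E : ℤ_[p]} (N : Submodule k (Dual k (Per k E))) : Prop :=
  FiniteDimensional k N.dualCoannihilator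

end

end Vale.Agent.P221X.RIG
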