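import Vale.Agent.P221X.RIG.DescB

/-!
# P221X, block RIG, row DESC: the descent
-/

namespace Vale.Agent.P221X.RIG

open Module

noncomputable section

namespace Desc

variable {p : ℕ} [hp : Fact p.Prime] {k : Type*} [Field k] [CharP k p] {E E' : ℤ_[p]}

theorem lin_apply (t1 t2 : ℤ_[p]) (x : Lam p E) :
    (lin (k := k) t1 t2 : Per k E).1 x = rho k (t1 * x.re + t2 * x.im) := by
  rw [map_add, map_mul, map_mul]
  rfl

theorem lin_mob (t1 t2 r : ℤ_[p]) (c x : Lam p E) :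
    (lin (k := k) t1 t2 : Per k E).1 (mob r c x) =
      (lin (k := k) t1 t2 : Per k E).1 x + (lin (k := k) t1 t2 : Per k E).1 c := by
  obtain ⟨z, hz⟩ := mob_eq r c x
  rw [hz, lin_apply, lin_apply, lin_apply, ← map_add, ← sub_eq_zero, ← map_sub, rho_eq_zero_iff]
  refine ⟨t1 * z.re + t2 * z.im, ?_⟩
  simp only [QuadraticAlgebra.re_add, QuadraticAlgebra.im_add, QuadraticAlgebra.re_smul,
    QuadraticAlgebra.im_smul, smul_eq_mul]
  ring

/-- the indicator function of `l = j`. -/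
def ind (t1 t2 : ℤ_[p]) (j : ℕ) : Per k E := 1 - (lin t1 t2 - (j : Per k E)) ^ (p - 1)

open Classical in
theorem ind_apply (t1 t2 : ℤ_[p]) (j : ℕ) (x : Lam p E) :
    (ind (k := k) t1 t2 j : Per k E).1 x =
      if (lin (k := k) t1 t2 : Per k E).1 x = j then 1 else 0 := by
  have e : (ind (k := k) t1 t2 j : Per k E).1 x =
      1 - ((lin (k := k) t1 t2 : Per k E).1 x - j) ^ (p - 1) := by
    simp [ind]
  have h2 := hp.out.two_le
  rw [e]
  split_ifs with h
  · rw [h, sub_self, zero_pow (by omega), sub_zero]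
  · have h3 : (lin (k := k) t1 t2 : Per k E).1 x - j = rho k (t1 * x.re + t2 * x.im - (j : ℤ_[p])) := by
      rw [lin_apply, map_sub, map_natCast]
    have h4 := rho_pow_p (k := k) (t1 * x.re + t2 * x.im - (j : ℤ_[p]))
    rw [← h3] at h4
    have h5 : (lin (k := k) t1 t2 : Per k E).1 x - j ≠ 0 := sub_ne_zero.2 h
    rw [sub_eq_zero]
    apply mul_left_cancel₀ h5
    rw [mul_one, ← pow_succ', Nat.sub_add_cancel (by omega), h4]

theorem exists_lin (t1 t2 : ℤ_[p]) (x : Lam p E) :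
    ∃ j, j < p ∧ (lin (k := k) t1 t2 : Per k E).1 x = (j : ℕ) := by
  obtain ⟨j, y, hj, e⟩ := exists_nat_lt (t1 * x.re + t2 * x.im) 1
  rw [pow_one] at hj e
  exact ⟨j, hj, by rw [lin_apply, e, map_add, rho_p_mul, add_zero, map_natCast]⟩

theorem sum_ind (t1 t2 : ℤ_[p]) :
    ∑ j ∈ Finset.range p, (ind (k := k) t1 t2 j : Per k E) = 1 := by
  refine per_ext fun x => ?_
  obtain ⟨j0, hj0, e⟩ := exists_lin (k := k) t1 t2 x
  rw [AddSubmonoidClass.coe_finsetSum, Finset.sum_apply, Finset.sum_eq_single j0]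
  · rw [ind_apply, if_pos e]; rfl
  · intro j hj hne
    rw [ind_apply, if_neg]
    rw [e]
    exact fun h => hne (CharP.natCast_injOn_Iio k p hj0 (Finset.mem_range.1 hj) h).symm
  · exact fun h => absurd (Finset.mem_range.2 hj0) h

theorem stab_ind {N : Submodule k (Dual k (Per k E))} {t1 t2 : ℤ_[p]}
    (h : ∀ μ ∈ N, μ ∘ₗ mulF (lin t1 t2) ∈ N) (j : ℕ) :
    ∀ μ ∈ N, μ ∘ₗ mulF (ind t1 t2 j) ∈ N := by
  have h1 : ∀ μ ∈ N, μ ∘ₗ mulF (lin t1 t2 - (j : Per k E)) ∈ N := by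
    intro μ hμ
    have e : μ ∘ₗ mulF (lin t1 t2 - (j : Per k E)) = μ ∘ₗ mulF (lin t1 t2) - j • μ := by
      refine LinearMap.ext fun F => ?_
      simp only [LinearMap.comp_apply, LinearMap.mulLeft_apply, LinearMap.sub_apply,
        LinearMap.smul_apply, sub_mul, map_sub, ← nsmul_eq_mul, map_nsmul]
    rw [e]
    exact N.sub_mem (h μ hμ) (N.smul_of_tower_mem j hμ)
  have h2 : ∀ n : ℕ, ∀ μ ∈ N, μ ∘ₗ mulF ((lin t1 t2 - (j : Per k E)) ^ n) ∈ N := by
    intro n
    induction n with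
    | zero =>
      intro μ hμ
      have e : μ ∘ₗ mulF ((lin t1 t2 - (j : Per k E)) ^ 0) = μ := by
        refine LinearMap.ext fun F => ?_
        simp only [LinearMap.comp_apply, LinearMap.mulLeft_apply, pow_zero, one_mul]
      rwa [e]
    | succ n ih =>
      intro μ hμ
      have e : μ ∘ₗ mulF ((lin t1 t2 - (j : Per k E)) ^ (n + 1)) =
          (μ ∘ₗ mulF ((lin t1 t2 - (j : Per k E)) ^ n)) ∘ₗ mulF (lin t1 t2 - (j : Per k E)) := by
        refine LinearMap.ext fun F => ?_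
        simp only [LinearMap.comp_apply, LinearMap.mulLeft_apply, pow_succ, mul_assoc]
      rw [e]
      exact h1 _ (ih μ hμ)
  intro μ hμ
  have e : μ ∘ₗ mulF (ind t1 t2 j) = μ - μ ∘ₗ mulF ((lin t1 t2 - (j : Per k E)) ^ (p - 1)) := by
    refine LinearMap.ext fun F => ?_
    simp only [ind, LinearMap.comp_apply, LinearMap.mulLeft_apply, LinearMap.sub_apply, sub_mul,
      one_mul, map_sub]
  rw [e]
  exact N.sub_mem hμ (h2 _ μ hμ)

omit [CharP k p] in
theorem fin_of {V W : Type*} [AddCommGroup V] [Module k V] [AddCommGroup W] [Module k W]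
    (U : Submodule k V) (U' : Submodule k W) (h : FiniteDimensional k U') {n : ℕ}
    (φ : Fin n → V →ₗ[k] W) (h1 : ∀ j, ∀ x ∈ U, φ j x ∈ U')
    (h2 : ∀ x, (∀ j, φ j x = 0) → x = 0) : FiniteDimensional k U := by
  refine FiniteDimensional.of_injective (LinearMap.pi fun j : Fin n =>
    LinearMap.codRestrict U' (φ j ∘ₗ U.subtype) fun x => h1 j x x.2) ?_
  rw [injective_iff_map_eq_zero]
  exact fun x hx => Subtype.ext (h2 x fun j => congrArg (fun Φ : Fin n → U' => (Φ j).1) hx)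

/-- one step of the walk. -/
theorem walk {r r' t1 t2 : ℤ_[p]} {f : Lam p E' →ₗ[ℤ_[p]] Lam p E} (hf : Emb r r' t1 t2 f)
    (c1 : Lam p E) (hc1 : t1 * c1.re + t2 * c1.im = 1)
    {N : Submodule k (Dual k (Per k E))} (hN : Stab k r N) (hb : ¬ Big N)
    (hl : ∀ μ ∈ N, μ ∘ₗ mulF (lin t1 t2) ∈ N) {ω s : ℕ}
    (hm : ∀ b : Lam p E, Low k ω 0 (cmp k _ (lip_mob r b)))
    {μ : Dual k (Per k E)} (hμ : μ ∈ N) {F : Per k E} (hF : F ∈ Pol k E ω s) (h0 : μ F ≠ 0) :
    ∃ N' : Submodule k (Dual k (Per k E')), Stab k r' N' ∧ ¬ Big N' ∧ ∃ μ' ∈ N',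
      ∃ G ∈ Pol k E ω s, μ' (cmp k f (lip_lin f) G) ≠ 0 := by
  have hcj : ∀ j : ℕ, (lin (k := k) t1 t2 : Per k E).1 (-((j : ℤ_[p]) • c1)) = -(j : k) := by
    intro j
    rw [lin_apply, ← map_natCast (rho k) j, ← map_neg]
    congr 1
    simp only [QuadraticAlgebra.re_neg, QuadraticAlgebra.im_neg, QuadraticAlgebra.re_smul,
      QuadraticAlgebra.im_smul, smul_eq_mul]
    linear_combination (-(j : ℤ_[p])) * hc1
  have hsur : ∀ (j : ℕ) (x : Lam p E), (lin (k := k) t1 t2 : Per k E).1 x = j →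
      ∃ a, f a = mob r (-((j : ℤ_[p]) • c1)) x := by
    intro j x hx
    apply hf.sur
    rw [← rho_eq_zero_iff (k := k), ← lin_apply, lin_mob, hx, hcj, add_neg_cancel]
  refine ⟨N.comap (cmp k f (lip_lin f)).dualMap, ⟨fun c ν hν => ?_, ?_⟩, fun hB => hb ?_, ?_⟩
  · have e : (cmp k f (lip_lin f)).dualMap (ν ∘ₗ cmp k _ (lip_mob r' c)) =
        (cmp k f (lip_lin f)).dualMap ν ∘ₗ cmp k _ (lip_mob r (f c)) := by
      refine LinearMap.ext fun G => congrArg ν (per_ext fun a => ?_)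
      simp only [cmp_apply, hf.mob]
    rw [Submodule.mem_comap, e]
    exact hN.mob _ _ hν
  · obtain ⟨m0, hm0⟩ := hN.rot
    refine ⟨m0 + 1, fun m hm ν hν => ?_⟩
    obtain ⟨m', hm', h'⟩ := hf.rot m (by omega)
    have e : (cmp k f (lip_lin f)).dualMap (ν ∘ₗ cmp k _ (lip_rot m)) =
        (cmp k f (lip_lin f)).dualMap ν ∘ₗ cmp k _ (lip_rot m') := by
      refine LinearMap.ext fun G => congrArg ν (per_ext fun a => ?_)
      simp only [cmp_apply, h']
    rw [Submodule.mem_comap, e]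
    exact hm0 m' (by omega) _ hν
  · refine fin_of (V := Per k E) (W := Per k E') _ _ hB (fun j : Fin p =>
      cmp k f (lip_lin f) ∘ₗ cmp k _ (lip_mob r (((j : ℕ) : ℤ_[p]) • c1))) ?_ ?_
    · intro j G hG
      rw [Submodule.mem_dualCoannihilator]
      intro ν hν
      exact (Submodule.mem_dualCoannihilator _).1 hG _ (hN.mob (((j : ℕ) : ℤ_[p]) • c1) _ hν)
    · intro G hG
      refine per_ext fun x => ?_
      obtain ⟨j, hj, e⟩ := exists_lin (k := k) t1 t2 x
      obtain ⟨a, ha⟩ := hsur j x e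
      have h1 : G.1 (mob r ((j : ℤ_[p]) • c1) (f a)) = 0 :=
        congrArg (fun Φ : Per k E' => Φ.1 a) (hG ⟨j, hj⟩)
      rw [ha, mob_mob_neg] at h1
      exact h1
  · have h1 : ∃ j : ℕ, μ (ind t1 t2 j * F) ≠ 0 := by
      by_contra h
      push Not at h
      apply h0
      rw [← one_mul F, ← sum_ind t1 t2, Finset.sum_mul, map_sum]
      exact Finset.sum_eq_zero fun j _ => h j
    obtain ⟨j, hj⟩ := h1
    obtain ⟨ν, hν⟩ : ∃ ν, ν = (μ ∘ₗ mulF (ind t1 t2 j)) ∘ₗ
      cmp k _ (lip_mob r (-((j : ℤ_[p]) • c1))) := ⟨_, rfl⟩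
    have hνN : ν ∈ N := hν ▸ hN.mob _ _ (stab_ind hl j μ hμ)
    have hker : ν ∈ (LinearMap.ker (cmp k f (lip_lin f))).dualAnnihilator := by
      rw [Submodule.mem_dualAnnihilator]
      intro G hG
      have e : ind t1 t2 j * cmp k _ (lip_mob r (-((j : ℤ_[p]) • c1))) G = 0 := by
        refine per_ext fun x => ?_
        change (ind (k := k) t1 t2 j : Per k E).1 x * G.1 (mob r (-((j : ℤ_[p]) • c1)) x) = 0
        rw [ind_apply]
        split_ifs with h
        · obtain ⟨a, ha⟩ := hsur j x h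
          have h2 : G.1 (f a) = 0 :=
            congrArg (fun Φ : Per k E' => Φ.1 a) (LinearMap.mem_ker.1 hG)
          rw [← ha, h2, mul_zero]
        · rw [zero_mul]
      rw [hν]
      change μ (ind t1 t2 j * cmp k _ (lip_mob r (-((j : ℤ_[p]) • c1))) G) = 0
      rw [e, map_zero]
    rw [← LinearMap.range_dualMap_eq_dualAnnihilator_ker] at hker
    obtain ⟨μ', hμ'⟩ := hker
    refine ⟨μ', by rw [Submodule.mem_comap, hμ']; exact hνN,
      cmp k _ (lip_mob r ((j : ℤ_[p]) • c1)) F, hm _ s F hF, ?_⟩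
    have e : cmp k _ (lip_mob r (-((j : ℤ_[p]) • c1)))
        (cmp k _ (lip_mob r ((j : ℤ_[p]) • c1)) F) = F :=
      per_ext fun x => by rw [cmp_apply, cmp_apply, mob_mob_neg]
    change (cmp k f (lip_lin f)).dualMap μ' _ ≠ 0
    rw [hμ', hν]
    change μ (ind t1 t2 j * cmp k _ (lip_mob r (-((j : ℤ_[p]) • c1)))
      (cmp k _ (lip_mob r ((j : ℤ_[p]) • c1)) F)) ≠ 0
    rwa [e]

theorem kill_span (hS : SpanStmt p k) {ω s : ℕ} (hω : 1 ≤ ω) {μ : Dual k (Per k E)}
    (h : ∀ i j, i + ω * j < s → μ (Bf k E i j) = 0) {F : Per k E} (hF : F ∈ Pol k E ω s) :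
    μ F = 0 := by
  rw [(hS E ω hω).1] at hF
  have h1 : Submodule.span k {F | ∃ i j : ℕ, i + ω * j < s ∧ F = Bf k E i j} ≤ LinearMap.ker μ := by
    rw [Submodule.span_le]
    rintro _ ⟨i, j, hij, rfl⟩
    exact h i j hij
  exact h1 hF

theorem x0_zero (hS : SpanStmt p k) {ω P d : ℕ} (hd : d < ω) (hP : ω ≤ P)
    {N : Submodule k (Dual k (Per k E))} {x0 y0 : AlgebraicClosure k} (hv : Van P x0 y0 N)
    {μ : Dual k (Per k E)} (hμ : μ ∈ N) {F : Per k E} (hF : F ∈ Pol k E ω (d + 1))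
    (h0 : μ F ≠ 0) : x0 = 0 ∧ 1 ≤ d := by
  classical
  have hj : ∀ (Q i j s : ℕ), i + Q * j < s → s ≤ Q → j = 0 := by
    intro Q i j s h1 h2
    rcases j with _ | j
    · rfl
    · rw [Nat.mul_succ] at h1; omega
  have h1 : ∃ i, i ≤ d ∧ μ (Bf k E i 0) ≠ 0 := by
    by_contra h
    push Not at h
    refine h0 (kill_span hS (by omega) (fun i j hij => ?_) hF)
    obtain rfl := hj ω i j _ hij (by omega)
    exact h i (by omega)
  obtain ⟨he, hne⟩ := Nat.find_spec h1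
  have hmin := fun i => Nat.find_min h1 (m := i)
  generalize Nat.find h1 = e at he hne hmin
  have h2 : μ ∈ Fil k E P e := by
    unfold Fil
    rw [Submodule.mem_dualAnnihilator]
    refine fun G hG => kill_span hS (by omega) (fun i j hij => ?_) hG
    obtain rfl := hj P i j _ hij (by omega)
    by_contra h
    exact hmin i (by omega) ⟨by omega, h⟩
  have h3 := hv e μ hμ h2
  unfold ev at h3
  rw [Finset.sum_eq_single (e, 0)] at h3
  · simp only [pow_zero, mul_one, mul_eq_zero, map_eq_zero, hne, false_or] at h3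
    refine ⟨pow_eq_zero_iff' |>.1 h3 |>.1, ?_⟩
    rcases e with _ | e
    · rw [pow_zero] at h3
      exact absurd h3 one_ne_zero
    · omega
  · rintro ⟨i, j⟩ hij hne'
    exfalso
    simp only [Sl, Finset.mem_filter] at hij
    obtain rfl := hj P i j (e + 1) (by omega) (by omega)
    exact hne' (by rw [← hij.2]; simp)
  · intro h
    exact absurd (by simp [Sl]) h

theorem unit_up {D : ℤ_[p]} (hD : ∀ t : ℤ_[p], IsUnit (t ^ 2 - D)) (c : ℕ) (t : ℤ_[p]) :
    IsUnit (1 - t ^ 2 * ((p : ℤ_[p]) ^ (2 * c) * D)) := by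
  by_cases h : IsUnit (t * (p : ℤ_[p]) ^ c)
  · obtain ⟨s, hs⟩ := h.exists_left_inv
    have e : 1 - t ^ 2 * ((p : ℤ_[p]) ^ (2 * c) * D) = (t * (p : ℤ_[p]) ^ c) ^ 2 * (s ^ 2 - D) := by
      linear_combination (-(1 + s * (t * (p : ℤ_[p]) ^ c))) * hs
    rw [e]
    exact (h.pow 2).mul (hD s)
  · apply IsLocalRing.isUnit_one_sub_self_of_mem_nonunits
    rw [show t ^ 2 * ((p : ℤ_[p]) ^ (2 * c) * D) =
      (t * (p : ℤ_[p]) ^ c) * (t * (p : ℤ_[p]) ^ c * D) by ring]
    exact mul_mem_nonunits_left h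

theorem main (hM : MobStmt p k) (hS : SpanStmt p k) (hV : VanStmt p k) (hT : StepStmt p k)
    (h5 : 5 ≤ p) {D : ℤ_[p]} (hD : ∀ t : ℤ_[p], IsUnit (t ^ 2 - D)) (d : ℕ) :
    ∀ (n c : ℕ) (E r : ℤ_[p]) (N : Submodule k (Dual k (Per k E))), d ≤ c + n →
      E = (p : ℤ_[p]) ^ (2 * c) * D → Stab k r N → ¬ Big N → ∀ μ ∈ N,
      ∀ F ∈ Pol k E (p ^ c) (d + 1), μ F = 0 := by
  have hDu : IsUnit D := by
    have h := hD 0
    rwa [zero_pow two_ne_zero, zero_sub, IsUnit.neg_iff] at h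
  have hp1 := hp.out.one_lt
  induction d using Nat.strong_induction_on with
  | _ d ihd =>
  intro n
  induction n using Nat.strong_induction_on with
  | _ n ihn =>
  intro c E r N hn hE hN hb μ hμ F hF
  by_contra h0
  obtain ⟨m1, m2, m3, -⟩ := hM h5 c D E hE
  have hω : 1 ≤ p ^ c := Nat.one_le_pow _ _ hp.out.pos
  have hP : p ^ c ≤ p ^ (2 * c) := Nat.pow_le_pow_right hp.out.pos (by omega)
  have hcm : ∀ (b : Lam p E), ∀ ν ∈ N, ν ∘ₗ (cmp k _ (lip_mob r b) - 1) ∈ N := by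
    intro b ν hν
    rw [LinearMap.comp_sub]
    exact N.sub_mem (hN.mob b ν hν) hν
  have hX := m2 r 0
  have hY := m3 r 0
  simp only [pow_zero, one_smul, mul_one, pow_one] at hX hY
  obtain ⟨x0, y0, hxy, hv⟩ := (hV E (p ^ (2 * c)) (by omega) N).2 _ _ (hcm 1) (hcm (om E)) hX
    (low_mono hY (by omega)) hb
  obtain ⟨t1, t2, N1, ht, hle, hN1, hv1, hl⟩ := hT h5 c D E r hDu hE N x0 y0 hxy hN hv
  have hb1 := (hV E (p ^ (2 * c)) (by omega) N1).1 x0 y0 hxy hv1
  have hm := m1 (p ^ c) hω hP r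
  have hup : ∀ u : Lam p E, IsUnit u → ∀ c1 : Lam p E, t1 * c1.re + t2 * c1.im = 1 →
      (∀ x : Lam p E, (p : ℤ_[p]) ∣ t1 * x.re + t2 * x.im → (p : ℤ_[p]) ∣ (star u * x).im) →
      (p : ℤ_[p]) ^ c ∣ (u * om E).re → p ^ c ≤ d → False := by
    intro u hu c1 hc1 hs hdv hcd
    have hE' : (p : ℤ_[p]) ^ (2 * (c + 1)) * D = (p : ℤ_[p]) ^ 2 * E := by rw [hE]; ring
    obtain ⟨N', hN', hb', μ', hμ', G, hG, hne⟩ :=
      walk (emb_up hE' hu r t1 t2 hs) c1 hc1 hN1 hb1 hl hm (hle hμ) hF h0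
    have hc : c < p ^ c := lt_p_pow c
    refine hne (ihn (n - 1) (by omega) (c + 1) _ _ N' (by omega) rfl hN' hb' μ' hμ' _ ?_)
    refine cmp_Pol (q := 1) _ ?_ ?_ (by rwa [one_mul])
    · exact low_Dp (n1 := 0) (n2 := 0) (by simp) (by simp) (by simp) (by simpa using hω)
    · refine low_Dp (n1 := c + 1) (n2 := 1) ?_ ?_ (by simp) (by rw [one_mul, pow_one, pow_succ])
      · rw [up_apply, jm_om, mul_smul_comm, QuadraticAlgebra.re_smul, smul_eq_mul, pow_succ']
        exact mul_dvd_mul_left _ hdv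
      · rw [up_apply, jm_om, mul_smul_comm, QuadraticAlgebra.im_smul, smul_eq_mul, pow_one]
        exact dvd_mul_right _ _
  have hx0 : d < p ^ c → x0 = 0 ∧ 1 ≤ d := fun h => x0_zero hS h hP hv hμ hF h0
  rcases ht with ⟨rfl, rfl⟩ | ⟨hx, rfl⟩
  · rcases c with _ | c
    · rw [pow_zero] at hx0
      refine hup (om E) ?_ 1 (by simp [QuadraticAlgebra.re_one]) (fun x hx => ?_) (by simp)
        (by rw [pow_zero]; omega)
      · rw [QuadraticAlgebra.isUnit_iff_norm_isUnit, QuadraticAlgebra.norm_def]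
        simpa [om, hE] using hDu
      · simpa [om] using hx
    · have hd1 : 1 ≤ d := by
        by_contra h
        have := hx0 (by omega)
        omega
      have hE' : E = (p : ℤ_[p]) ^ 2 * ((p : ℤ_[p]) ^ (2 * c) * D) := by rw [hE]; ring
      obtain ⟨N', hN', hb', μ', hμ', G, hG, hne⟩ :=
        walk (emb_down hE' r) 1 (by simp [QuadraticAlgebra.re_one]) hN1 hb1 hl hm (hle hμ) hF h0
      refine hne (ihd (d / p) (Nat.div_lt_self hd1 hp1) (d / p) c _ _ N' (by omega) rfl hN' hb'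
        μ' hμ' _ ?_)
      refine cmp_Pol (q := p) _ ?_ ?_ (Pol_mono ?_ hG)
      · refine low_Dp (n1 := 1) (n2 := 1) ?_ ?_ (by simp) ?_
        · simp [down]
        · simp [down, QuadraticAlgebra.im_one]
        · rw [pow_one]; exact Nat.le_mul_of_pos_left _ hω
      · refine low_Dp (n1 := c + 1) (n2 := 0) ?_ ?_ (by rw [pow_succ']) ?_
        · simp [down, om]
        · simp
        · rw [pow_zero, mul_one, pow_succ']
      · exact Nat.lt_mul_div_succ d hp.out.pos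
  · refine hup ⟨1, -t1⟩ ?_ (om E) (by simp [om]) (fun x hx => ?_) ?_ ?_
    · rw [QuadraticAlgebra.isUnit_iff_norm_isUnit, QuadraticAlgebra.norm_def]
      have h := unit_up hD c t1
      rw [← hE] at h
      convert h using 1
      ring
    · simpa [add_comm] using hx
    · refine ⟨-((p : ℤ_[p]) ^ c * D * t1), ?_⟩
      simp only [om, QuadraticAlgebra.re_mul]
      rw [hE]
      ring
    · by_contra h
      exact hx (hx0 (by omega)).1

end Desc

/-- row DESC. -/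
theorem descStmt {p : ℕ} [hp : Fact p.Prime] {k : Type*} [Field k] [CharP k p] :
    DescStmt p k := by
  intro hM hS _ hV hT h5 D r hD N hN hne
  by_contra hb
  apply hne
  rw [eq_bot_iff]
  intro μ hμ
  refine (Submodule.mem_bot k).2 (LinearMap.ext fun F => ?_)
  obtain ⟨s, hs⟩ := (hS D 1 le_rfl).2 F
  exact Desc.main hM hS hV hT h5 hD s s 0 D r N (by omega) (by simp) hN hb μ hμ F
    (by rw [pow_zero]; exact Desc.Pol_mono (by omega) hs)

end

end Vale.Agent.P221X.RIG
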