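import Vale.Agent.P221X.RIG.Spec

/-!
# P221X, block RIG, row DESC: operators which lower the degree, linear pull backs
-/

namespace Vale.Agent.P221X.RIG.Desc

open Module

noncomputable section

variable {p : ℕ} [hp : Fact p.Prime] {k : Type*} [Field k] [CharP k p] {E E' : ℤ_[p]}

omit [CharP k p] in
theorem per_ext {F G : Per k E} (h : ∀ a, F.1 a = G.1 a) : F = G := Subtype.ext (funext h)

omit [CharP k p] in
theorem Dp_apply (v : Lam p E) (F : Per k E) (a : Lam p E) :
    (Dp k v F).1 a = F.1 (a + v) - F.1 a := rfl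

omit [CharP k p] in
theorem Dp_pow_val (v : Lam p E) (i : ℕ) (F : Per k E) :
    ((Dp k v ^ i) F).1 = (dif k v ^ i) F.1 := by
  induction i with
  | zero => rfl
  | succ i ih =>
    rw [pow_succ', pow_succ', Module.End.mul_apply, Module.End.mul_apply, ← ih]
    rfl

omit [CharP k p] in
theorem mem_Pol {ω r : ℕ} {F : Per k E} : F ∈ Pol k E ω r ↔
    ∀ i j : ℕ, r ≤ i + ω * j → (Dp k (1 : Lam p E) ^ i * Dp k (om E) ^ j) F = 0 := by
  refine forall_congr' fun i => forall_congr' fun j => imp_congr_right fun _ => ?_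
  rw [Module.End.mul_apply, Module.End.mul_apply, Subtype.ext_iff, Dp_pow_val, Dp_pow_val]
  rfl

omit [CharP k p] in
theorem Dp_comm (v w : Lam p E) : Commute (Dp k v) (Dp k w) := by
  refine LinearMap.ext fun F => per_ext fun a => ?_
  simp only [Module.End.mul_apply, Dp_apply]
  rw [add_right_comm a w v]
  ring

omit [CharP k p] in
theorem Pol_mono {ω r s : ℕ} (h : r ≤ s) : Pol k E ω r ≤ Pol k E ω s := fun _ hF =>
  mem_Pol.2 fun i j hij => mem_Pol.1 hF i j (h.trans hij)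

omit [CharP k p] in
theorem eq_zero_of_Pol {ω : ℕ} {F : Per k E} (h : F ∈ Pol k E ω 0) : F = 0 := by
  simpa using mem_Pol.1 h 0 0 le_rfl

omit [CharP k p] in
theorem low_mono {ω m m' : ℕ} {T : Module.End k (Per k E)} (h : Low k ω m T) (hm : m' ≤ m) :
    Low k ω m' T := fun r F hF => h r F (Pol_mono (by omega) hF)

omit [CharP k p] in
theorem low_mul {ω m m' : ℕ} {T T' : Module.End k (Per k E)} (h : Low k ω m T)
    (h' : Low k ω m' T') : Low k ω (m + m') (T * T') := fun r F hF =>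
  h r _ (h' (r + m) F (by rwa [add_assoc]))

omit [CharP k p] in
theorem low_add {ω m : ℕ} {T T' : Module.End k (Per k E)} (h : Low k ω m T)
    (h' : Low k ω m T') : Low k ω m (T + T') := fun r F hF =>
  Submodule.add_mem _ (h r F hF) (h' r F hF)

omit [CharP k p] in
theorem low_pow {ω m : ℕ} {T : Module.End k (Per k E)} (h : Low k ω m T) (i : ℕ) :
    Low k ω (m * i) (T ^ i) := by
  induction i with
  | zero => exact fun r F hF => hF
  | succ i ih => rw [pow_succ, Nat.mul_succ]; exact low_mul ih h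

omit [CharP k p] in
theorem low_D1 (ω : ℕ) : Low k ω 1 (Dp k (1 : Lam p E)) := fun r F hF =>
  mem_Pol.2 fun i j hij => by
    have h := mem_Pol.1 hF (i + 1) j (by omega)
    rw [pow_succ, mul_assoc, ((Dp_comm _ _).pow_right j).eq, ← mul_assoc] at h
    exact h

omit [CharP k p] in
theorem low_D2 (ω : ℕ) : Low k ω ω (Dp k (om E)) := fun r F hF =>
  mem_Pol.2 fun i j hij => by
    have h := mem_Pol.1 hF i (j + 1) (by rw [Nat.mul_succ]; omega)
    rw [pow_succ, ← mul_assoc] at h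
    exact h

omit [CharP k p] in
theorem Dp_add (v w : Lam p E) : Dp k (v + w) = Dp k v + Dp k w + Dp k v * Dp k w := by
  refine LinearMap.ext fun F => per_ext fun a => ?_
  change F.1 (a + (v + w)) - F.1 a = F.1 (a + v) - F.1 a + (F.1 (a + w) - F.1 a) +
    (F.1 (a + v + w) - F.1 (a + v) - (F.1 (a + w) - F.1 a))
  rw [add_assoc a v w]
  ring

omit [CharP k p] in
theorem Dp_zero : Dp k (0 : Lam p E) = 0 := by
  refine LinearMap.ext fun F => per_ext fun a => ?_
  rw [Dp_apply, add_zero, sub_self]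
  rfl

omit [CharP k p] in
theorem low_Dp_add {ω m : ℕ} {v w : Lam p E} (h : Low k ω m (Dp k v)) (h' : Low k ω m (Dp k w)) :
    Low k ω m (Dp k (v + w)) := by
  rw [Dp_add]
  exact low_add (low_add h h') (low_mono (low_mul h h') (by omega))

omit [CharP k p] in
theorem low_Dp_nat {ω m : ℕ} {v : Lam p E} (h : Low k ω m (Dp k v)) (n : ℕ) :
    Low k ω m (Dp k ((n : ℤ_[p]) • v)) := by
  induction n with
  | zero =>
    rw [Nat.cast_zero, zero_smul, Dp_zero]
    exact fun r F _ => Submodule.zero_mem _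
  | succ n ih =>
    rw [Nat.cast_succ, add_smul, one_smul]
    exact low_Dp_add ih h

omit [CharP k p] in
theorem low_Dp_smul {ω m : ℕ} {v : Lam p E} (h : Low k ω m (Dp k v)) (y : ℤ_[p]) :
    Low k ω m (Dp k (y • v)) := by
  intro r F hF
  obtain ⟨n, hn⟩ := F.2
  obtain ⟨y0, z, -, rfl⟩ := exists_nat_lt y n
  have e : Dp k (((y0 : ℤ_[p]) + (p : ℤ_[p]) ^ n * z) • v) F = Dp k ((y0 : ℤ_[p]) • v) F := by
    refine per_ext fun a => ?_
    rw [Dp_apply, Dp_apply, add_smul, mul_smul, ← add_assoc, hn]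
  rw [e]
  exact low_Dp_nat h y0 r F hF

omit [CharP k p] in
theorem one_add_Dp_nat (v : Lam p E) (n : ℕ) :
    1 + Dp k ((n : ℤ_[p]) • v) = (1 + Dp k v) ^ n := by
  induction n with
  | zero => rw [Nat.cast_zero, zero_smul, Dp_zero, add_zero, pow_zero]
  | succ n ih =>
    rw [Nat.cast_succ, add_smul, one_smul, Dp_add, pow_succ, ← ih]
    noncomm_ring

theorem Dp_p (v : Lam p E) : Dp k ((p : ℤ_[p]) • v) = Dp k v ^ p := by
  have h := one_add_Dp_nat (k := k) v p
  obtain ⟨r, hr⟩ := (Commute.one_left (Dp k v)).exists_add_pow_prime_eq hp.out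
  have h0 : (p : Module.End k (Per k E)) = 0 := by
    rw [← map_natCast (algebraMap k (Module.End k (Per k E))), CharP.cast_eq_zero, map_zero]
  rw [hr, h0, one_pow, zero_mul, zero_mul, zero_mul, add_zero] at h
  refine LinearMap.ext fun F => per_ext fun a => ?_
  have h2 : F.1 a + (Dp k ((p : ℤ_[p]) • v) F).1 a = F.1 a + ((Dp k v ^ p) F).1 a :=
    congrArg (fun T : Module.End k (Per k E) => (T F).1 a) h
  exact add_left_cancel h2

theorem low_Dp_pow {ω m : ℕ} {v : Lam p E} (h : Low k ω m (Dp k v)) (n : ℕ) :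
    Low k ω (m * p ^ n) (Dp k ((p : ℤ_[p]) ^ n • v)) := by
  induction n with
  | zero => rwa [pow_zero, pow_zero, mul_one, one_smul]
  | succ n ih =>
    rw [pow_succ' (p : ℤ_[p]), mul_smul, Dp_p, pow_succ, ← mul_assoc]
    exact low_pow ih p

theorem low_Dp {ω m n1 n2 : ℕ} {v : Lam p E} (h1 : (p : ℤ_[p]) ^ n1 ∣ v.re)
    (h2 : (p : ℤ_[p]) ^ n2 ∣ v.im) (hm1 : m ≤ p ^ n1) (hm2 : m ≤ ω * p ^ n2) :
    Low k ω m (Dp k v) := by
  obtain ⟨y1, h1⟩ := h1
  obtain ⟨y2, h2⟩ := h2
  have e : v = y1 • ((p : ℤ_[p]) ^ n1 • (1 : Lam p E)) + y2 • ((p : ℤ_[p]) ^ n2 • om E) := by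
    ext
    · simp [om, h1, QuadraticAlgebra.re_one, mul_comm]
    · simp [om, h2, QuadraticAlgebra.im_one, mul_comm]
  rw [e]
  exact low_Dp_add (low_Dp_smul (low_mono (low_Dp_pow (low_D1 ω) n1) (by omega)) _)
    (low_Dp_smul (low_mono (low_Dp_pow (low_D2 ω) n2) hm2) _)

theorem lip_lin (f : Lam p E' →ₗ[ℤ_[p]] Lam p E) : Lip f := fun n a v =>
  ⟨f v, by rw [map_add, map_smul]⟩

omit [CharP k p] in
theorem Dp_pow_cmp (f : Lam p E' →ₗ[ℤ_[p]] Lam p E) (v : Lam p E') (i : ℕ) (F : Per k E) :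
    (Dp k v ^ i) (cmp k f (lip_lin f) F) = cmp k f (lip_lin f) ((Dp k (f v) ^ i) F) := by
  induction i with
  | zero => rfl
  | succ i ih =>
    rw [pow_succ', pow_succ', Module.End.mul_apply, Module.End.mul_apply, ih]
    refine per_ext fun a => ?_
    rw [Dp_apply, cmp_apply, cmp_apply, cmp_apply, Dp_apply, map_add]

omit [CharP k p] in
/-- linear pull backs and the degree. -/
theorem cmp_Pol (f : Lam p E' →ₗ[ℤ_[p]] Lam p E) {ω ω' q s : ℕ}
    (h1 : Low k ω q (Dp k (f 1))) (h2 : Low k ω (q * ω') (Dp k (f (om E'))))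
    {F : Per k E} (hF : F ∈ Pol k E ω (q * s)) : cmp k f (lip_lin f) F ∈ Pol k E' ω' s := by
  refine mem_Pol.2 fun i j hij => ?_
  rw [Module.End.mul_apply, Dp_pow_cmp, Dp_pow_cmp]
  have h := low_mul (low_pow h1 i) (low_pow h2 j) 0 F (Pol_mono (by
    rw [zero_add, mul_assoc, ← mul_add]
    exact Nat.mul_le_mul_left q hij) hF)
  have h3 := eq_zero_of_Pol h
  rw [Module.End.mul_apply] at h3
  rw [h3, map_zero]

end

end Vale.Agent.P221X.RIG.Desc
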