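import Vale.Agent.P221X.RIG.DescA

/-!
# P221X, block RIG, row DESC: embeddings of lattices
-/

namespace Vale.Agent.P221X.RIG.Desc

open Module

noncomputable section

variable {p : ℕ} [hp : Fact p.Prime] {E E' : ℤ_[p]}

/-- a linear map onto the kernel of `t1 a1 + t2 a2` modulo `p`, compatible with the Moebius maps
and the rotations. -/
structure Emb (r r' t1 t2 : ℤ_[p]) (f : Lam p E' →ₗ[ℤ_[p]] Lam p E) : Prop where
  mob : ∀ c a, f (mob r' c a) = mob r (f c) (f a)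
  rot : ∀ m, 1 ≤ m → ∃ m', m ≤ m' + 1 ∧ ∀ a, f (rot m a) = rot m' (f a)
  sur : ∀ x : Lam p E, (p : ℤ_[p]) ∣ t1 * x.re + t2 * x.im → ∃ a, f a = x

/-- the order of index `p`. -/
def jm (h : E' = (p : ℤ_[p]) ^ 2 * E) : Lam p E' →ₐ[ℤ_[p]] Lam p E :=
  QuadraticAlgebra.lift ⟨(p : ℤ_[p]) • om E, by
    ext
    · simp [om, h, QuadraticAlgebra.re_one]; ring
    · simp [om, QuadraticAlgebra.im_one]⟩

theorem jm_re (h : E' = (p : ℤ_[p]) ^ 2 * E) (a : Lam p E') : (jm h a).re = a.re := by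
  simp [jm, QuadraticAlgebra.lift, om, QuadraticAlgebra.re_one]

theorem jm_im (h : E' = (p : ℤ_[p]) ^ 2 * E) (a : Lam p E') : (jm h a).im = p * a.im := by
  simp [jm, QuadraticAlgebra.lift, om, QuadraticAlgebra.im_one, mul_comm]

theorem jm_star (h : E' = (p : ℤ_[p]) ^ 2 * E) (a : Lam p E') : jm h (star a) = star (jm h a) := by
  ext
  · simp [jm_re]
  · simp [jm_im]

theorem jm_om (h : E' = (p : ℤ_[p]) ^ 2 * E) : jm h (om E') = (p : ℤ_[p]) • om E := by
  ext
  · simp [jm_re, om]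
  · simp [jm_im, om]

theorem p_ne : (p : ℤ_[p]) ≠ 0 := Nat.cast_ne_zero.2 hp.out.ne_zero

theorem jm_inj (h : E' = (p : ℤ_[p]) ^ 2 * E) {a b : Lam p E'} (e : jm h a = jm h b) : a = b := by
  ext
  · rw [← jm_re h, e, jm_re]
  · apply mul_left_cancel₀ p_ne
    rw [← jm_im h, e, jm_im]

theorem jm_inv (h : E' = (p : ℤ_[p]) ^ 2 * E) (x : Lam p E') :
    jm h (Ring.inverse (1 + (p : ℤ_[p]) • x)) = Ring.inverse (1 + (p : ℤ_[p]) • jm h x) := by
  have h1 := congrArg (jm h) (Ring.mul_inverse_cancel _ (isUnit_one_add x))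
  have h2 := Ring.mul_inverse_cancel _ (isUnit_one_add (jm h x))
  rw [map_mul, map_add, map_one, map_smul] at h1
  linear_combination (Ring.inverse (1 + (p : ℤ_[p]) • jm h x)) * h1 -
    jm h (Ring.inverse (1 + (p : ℤ_[p]) • x)) * h2

theorem jm_rot (h : E' = (p : ℤ_[p]) ^ 2 * E) (m : ℕ) (a : Lam p E') :
    jm h (rot m a) = rot (m + 1) (jm h a) := by
  have e : jm h ((p : ℤ_[p]) ^ m • om E') = (p : ℤ_[p]) ^ (m + 1) • om E := by
    rw [map_smul, jm_om, smul_smul, pow_succ]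
  unfold rot
  rw [map_mul, map_mul, jm_inv, map_add, map_one, map_smul, map_neg, e]

theorem jm_mob (h : E' = (p : ℤ_[p]) ^ 2 * E) (r : ℤ_[p]) (c a : Lam p E') :
    jm h (mob r c a) = mob r (jm h c) (jm h a) := by
  unfold mob
  rw [map_mul, jm_inv, map_add, map_mul, map_smul, jm_star]

theorem mob_mul (r : ℤ_[p]) (u c a : Lam p E) :
    mob r (u * c) (u * a) = u * mob (r * QuadraticAlgebra.norm u) c a := by
  have e : r • star (u * c) * (u * a) = (r * QuadraticAlgebra.norm u) • star c * a := by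
    rw [mul_smul, Algebra.smul_def (QuadraticAlgebra.norm u),
      QuadraticAlgebra.algebraMap_norm_eq_mul_star, star_mul, smul_mul_assoc, smul_mul_assoc]
    congr 1
    ring
  unfold mob
  rw [e]
  ring

theorem rot_mul (m : ℕ) (u a : Lam p E) : rot m (u * a) = u * rot m a := by
  unfold rot
  ring

/-- the embedding `a -> u j(a)`. -/
def up (h : E' = (p : ℤ_[p]) ^ 2 * E) (u : Lam p E) : Lam p E' →ₗ[ℤ_[p]] Lam p E :=
  LinearMap.mulLeft ℤ_[p] u ∘ₗ (jm h).toLinearMap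

theorem up_apply (h : E' = (p : ℤ_[p]) ^ 2 * E) (u : Lam p E) (a : Lam p E') :
    up h u a = u * jm h a := rfl

theorem emb_up (h : E' = (p : ℤ_[p]) ^ 2 * E) {u : Lam p E} (hu : IsUnit u) (r t1 t2 : ℤ_[p])
    (hs : ∀ x : Lam p E, (p : ℤ_[p]) ∣ t1 * x.re + t2 * x.im →
      (p : ℤ_[p]) ∣ (star u * x).im) :
    Emb r (r * QuadraticAlgebra.norm u) t1 t2 (up h u) where
  mob c a := by rw [up_apply, up_apply, up_apply, mob_mul, jm_mob]
  rot m _ := ⟨m + 1, by omega, fun a => by rw [up_apply, up_apply, jm_rot, rot_mul]⟩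
  sur x hx := by
    obtain ⟨y, hy⟩ := hs x hx
    obtain ⟨n, hn⟩ := (QuadraticAlgebra.isUnit_iff_norm_isUnit.1 hu).exists_left_inv
    refine ⟨n • ⟨(star u * x).re, y⟩, ?_⟩
    have e : jm h ⟨(star u * x).re, y⟩ = star u * x := by
      ext
      · rw [jm_re]
      · rw [jm_im, hy]
    rw [map_smul, up_apply, e, ← mul_assoc, ← QuadraticAlgebra.algebraMap_norm_eq_mul_star,
      ← Algebra.smul_def, smul_smul, hn, one_smul]

/-- the embedding `a -> p a`. -/
def down (E E' : ℤ_[p]) : Lam p E' →ₗ[ℤ_[p]] Lam p E where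
  toFun a := ⟨p * a.re, a.im⟩
  map_add' a b := by ext <;> simp [mul_add]
  map_smul' c a := by ext <;> simp [mul_left_comm]

theorem jm_down (h : E = (p : ℤ_[p]) ^ 2 * E') (a : Lam p E') :
    jm h (down E E' a) = algebraMap ℤ_[p] (Lam p E') p * a := by
  rw [← Algebra.smul_def]
  ext
  · rw [jm_re]; rfl
  · rw [jm_im]; rfl

theorem emb_down (h : E = (p : ℤ_[p]) ^ 2 * E') (r : ℤ_[p]) :
    Emb r (r * (p : ℤ_[p]) ^ 2) 1 0 (down E E') where
  mob c a := by
    apply jm_inj h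
    rw [jm_mob, jm_down, jm_down, jm_down, mob_mul, QuadraticAlgebra.norm_algebraMap]
  rot m hm := ⟨m - 1, by omega, fun a => by
    apply jm_inj h
    rw [jm_rot, jm_down, jm_down, rot_mul, Nat.sub_add_cancel hm]⟩
  sur x hx := by
    obtain ⟨y, hy⟩ := hx
    refine ⟨⟨y, x.im⟩, ?_⟩
    ext
    · change p * y = x.re
      rw [← hy]; ring
    · rfl

theorem mob_mob_neg (r : ℤ_[p]) (c x : Lam p E) : mob r c (mob r (-c) x) = x := by
  obtain ⟨π, hπ⟩ : ∃ π : Lam p E, π = (p : ℤ_[p]) • (1 : Lam p E) := ⟨_, rfl⟩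
  have e2 : ∀ y : Lam p E, (p : ℤ_[p]) • y = π * y := fun y => by
    rw [hπ, smul_mul_assoc, one_mul]
  obtain ⟨y, hy⟩ : ∃ y, y = mob r (-c) x := ⟨_, rfl⟩
  have h1 := Ring.mul_inverse_cancel _ (isUnit_one_add (r • star (-c) * x))
  have h2 := Ring.mul_inverse_cancel _ (isUnit_one_add (r • star c * y))
  rw [← hy]
  unfold mob at hy ⊢
  generalize Ring.inverse (1 + (p : ℤ_[p]) • (r • star (-c) * x)) = i1 at h1 hy
  generalize Ring.inverse (1 + (p : ℤ_[p]) • (r • star c * y)) = i2 at h2 ⊢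
  rw [star_neg, smul_neg, e2] at h1
  rw [e2] at h2
  generalize r • star c = z at h1 h2
  linear_combination x * h2 + i2 * (1 - π * z * x) * hy + i2 * (x - c) * h1

theorem mob_eq (r : ℤ_[p]) (c x : Lam p E) : ∃ z, mob r c x = x + c + (p : ℤ_[p]) • z := by
  have h1 := Ring.mul_inverse_cancel _ (isUnit_one_add (r • star c * x))
  unfold mob
  generalize Ring.inverse (1 + (p : ℤ_[p]) • (r • star c * x)) = i1 at h1
  refine ⟨-((x + c) * (r • star c * x) * i1), ?_⟩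
  rw [Algebra.smul_def (p : ℤ_[p])] at h1 ⊢
  linear_combination (x + c) * h1

end

end Vale.Agent.P221X.RIG.Desc
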