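import Vale.Agent.P221X.RIG.Pol

/-!
# P221X, block RIG: the growth calculus
-/

namespace Vale.Agent.P221X.RIG

open Module

noncomputable section

variable {p : ℕ} [hp : Fact p.Prime] {k : Type*} [Field k] [CharP k p] {E : ℤ_[p]} {ω : ℕ}

namespace LipZ

variable {φ ψ : Lam p E → ℤ_[p]}

theorem const (c : ℤ_[p]) : LipZ (fun _ : Lam p E => c) := fun _ _ _ => by simp

theorem add (h : LipZ φ) (h' : LipZ ψ) : LipZ (fun a => φ a + ψ a) := fun n a v => by
  have := dvd_add (h n a v) (h' n a v)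
  rwa [sub_add_sub_comm] at this

theorem mul (h : LipZ φ) (h' : LipZ ψ) : LipZ (fun a => φ a * ψ a) := fun n a v => by
  have := dvd_add ((h n a v).mul_right (ψ (a + (p : ℤ_[p]) ^ n • v))) ((h' n a v).mul_left (φ a))
  convert this using 1
  ring

theorem lim (h : ∀ n : ℕ, ∃ φ' : Lam p E → ℤ_[p], LipZ φ' ∧ ∀ a, (p : ℤ_[p]) ^ n ∣ φ a - φ' a) :
    LipZ φ := fun n a v => by
  obtain ⟨φ', h1, h2⟩ := h n
  have := dvd_sub (dvd_add (h2 (a + (p : ℤ_[p]) ^ n • v)) (h1 n a v)) (h2 a)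
  convert this using 1
  ring

end LipZ

omit [CharP k p] in
theorem sum_mem_PolF {ι : Type*} {s : Finset ι} {f : ι → Lam p E → k} {r : ℕ}
    (h : ∀ i ∈ s, f i ∈ PolF k E ω r) : (fun a => ∑ i ∈ s, f i a) ∈ PolF k E ω r := by
  have h1 : (fun a => ∑ i ∈ s, f i a) = ∑ i ∈ s, f i := by
    funext a
    rw [Finset.sum_apply]
  rw [h1]
  exact Submodule.sum_mem _ h

namespace Gr

variable {e e' : ℕ} {φ ψ : Lam p E → ℤ_[p]}

theorem mono (h : Gr k ω e φ) (he : e ≤ e') : Gr k ω e' φ :=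
  ⟨h.1, fun j => PolF_mono (Nat.succ_le_succ (Nat.mul_le_mul_right j he)) (h.2 j)⟩

theorem congr (h : Gr k ω e φ) (h' : ∀ a, ψ a = φ a) : Gr k ω e ψ := by
  rwa [show ψ = φ from funext h']

theorem const (hω : 1 ≤ ω) (c : ℤ_[p]) : Gr k ω e (fun _ : Lam p E => c) :=
  ⟨LipZ.const c, fun j => PolF_mono (by omega) (const_mem_PolF hω (ch k c j))⟩

theorem re (hω : 1 ≤ ω) : Gr k ω 1 (fun a : Lam p E => a.re) := by
  refine ⟨lipZ_re, fun j => ?_⟩
  induction j with
  | zero => simpa only [ch_zero_right] using const_mem_PolF hω (1 : k)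
  | succ j ih =>
    refine mem_PolF_of_dif (by omega) ?_ ?_
    · have h1 : dif k (1 : Lam p E) (fun a : Lam p E => ch k a.re (j + 1)) =
          fun a : Lam p E => ch k a.re j := by
        funext a
        rw [dif_apply, QuadraticAlgebra.re_add, QuadraticAlgebra.re_one, ch_add_one]
        ring
      rw [h1]
      exact PolF_mono (by omega) ih
    · have h1 : dif k (om E) (fun a : Lam p E => ch k a.re (j + 1)) = 0 := by
        funext a
        rw [dif_apply, QuadraticAlgebra.re_add, om_re, add_zero, sub_self]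
        rfl
      rw [h1]
      exact zero_mem _

theorem im (hω : 1 ≤ ω) : Gr k ω ω (fun a : Lam p E => a.im) := by
  refine ⟨lipZ_im, fun j => ?_⟩
  induction j with
  | zero => simpa only [ch_zero_right, mul_zero, zero_add] using const_mem_PolF hω (1 : k)
  | succ j ih =>
    refine mem_PolF_of_dif (by omega) ?_ ?_
    · have h1 : dif k (1 : Lam p E) (fun a : Lam p E => ch k a.im (j + 1)) = 0 := by
        funext a
        rw [dif_apply, QuadraticAlgebra.im_add, QuadraticAlgebra.im_one, add_zero, sub_self]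
        rfl
      rw [h1]
      exact zero_mem _
    · have h1 : dif k (om E) (fun a : Lam p E => ch k a.im (j + 1)) =
          fun a : Lam p E => ch k a.im j := by
        funext a
        rw [dif_apply, QuadraticAlgebra.im_add, om_im, ch_add_one]
        ring
      rw [h1]
      exact PolF_mono (by rw [Nat.mul_succ]; omega) ih

theorem add (hω : 1 ≤ ω) (h : Gr k ω e φ) (h' : Gr k ω e ψ) :
    Gr k ω e (fun a => φ a + ψ a) := by
  refine ⟨h.1.add h'.1, fun j => ?_⟩
  simp only [ch_add]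
  refine sum_mem_PolF fun ij hij => ?_
  rw [Finset.mem_antidiagonal] at hij
  refine PolF_mono ?_ (mul_mem_PolF' hω (h.2 ij.1) (h'.2 ij.2))
  rw [← hij, mul_add]
  omega

theorem coeff_pow (hω : 1 ≤ ω) (h : Gr k ω e φ) (j : ℕ) : ∀ n : ℕ,
    (fun a => PowerSeries.coeff n ((Bs k (φ a) - 1) ^ j)) ∈ PolF k E ω (e * n + 1) := by
  induction j with
  | zero =>
    intro n
    simp only [pow_zero]
    exact PolF_mono (by omega) (const_mem_PolF hω _)
  | succ j ih =>
    intro n
    simp only [pow_succ, PowerSeries.coeff_mul]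
    refine sum_mem_PolF fun ij hij => ?_
    rw [Finset.mem_antidiagonal] at hij
    have h1 : (fun a => PowerSeries.coeff ij.2 (Bs k (φ a) - 1)) ∈ PolF k E ω (e * ij.2 + 1) := by
      simp only [map_sub, coeff_Bs]
      exact sub_mem (h.2 _) (PolF_mono (by omega) (const_mem_PolF hω _))
    refine PolF_mono ?_ (mul_mem_PolF' hω (ih ij.1) h1)
    rw [← hij, mul_add]
    omega

theorem mul (hω : 1 ≤ ω) (h : Gr k ω e φ) (h' : Gr k ω e' ψ) :
    Gr k ω (e + e') (fun a => φ a * ψ a) := by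
  refine ⟨h.1.mul h'.1, fun n => ?_⟩
  simp only [ch_mul]
  refine sum_mem_PolF fun j hj => ?_
  rw [Finset.mem_range] at hj
  refine PolF_mono ?_ (mul_mem_PolF' hω (h'.2 j) (h.coeff_pow hω j n))
  have := Nat.mul_le_mul_left e' (show j ≤ n by omega)
  rw [add_mul]
  omega

theorem const_mul (hω : 1 ≤ ω) (c : ℤ_[p]) (h : Gr k ω e φ) : Gr k ω e (fun a => c * φ a) := by
  simpa using (const (k := k) (e := 0) hω c).mul hω h

theorem neg (hω : 1 ≤ ω) (h : Gr k ω e φ) : Gr k ω e (fun a => -φ a) := by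
  simpa using h.const_mul hω (-1)

theorem sub (hω : 1 ≤ ω) (h : Gr k ω e φ) (h' : Gr k ω e ψ) :
    Gr k ω e (fun a => φ a - ψ a) := by
  simpa only [sub_eq_add_neg] using h.add hω (h'.neg hω)

theorem pow_mul (v : ℕ) (h : Gr k ω e φ) (he : e ≤ p ^ v * e') :
    Gr k ω e' (fun a => (p : ℤ_[p]) ^ v * φ a) := by
  refine ⟨(LipZ.const _).mul h.1, fun j => ?_⟩
  simp only [ch_pow_mul]
  by_cases hj : p ^ v ∣ j
  · simp only [if_pos hj]
    obtain ⟨j, rfl⟩ := hj
    rw [Nat.mul_div_cancel_left _ (pow_pos hp.out.pos v)]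
    refine PolF_mono ?_ (h.2 j)
    have := Nat.mul_le_mul_right j he
    rw [mul_comm (p ^ v) e', mul_assoc] at this
    omega
  · simp only [if_neg hj]
    exact zero_mem _

theorem p_mul (h : Gr k ω e φ) (he : e ≤ p * e') :
    Gr k ω e' (fun a => (p : ℤ_[p]) * φ a) := by
  simpa only [pow_one] using h.pow_mul 1 (by rwa [pow_one])

theorem lim (h : ∀ n : ℕ, ∃ φ' : Lam p E → ℤ_[p], Gr k ω e φ' ∧
    ∀ a, (p : ℤ_[p]) ^ n ∣ φ a - φ' a) : Gr k ω e φ := by
  refine ⟨LipZ.lim fun n => ?_, fun j => ?_⟩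
  · obtain ⟨φ', h1, h2⟩ := h n
    exact ⟨φ', h1.1, h2⟩
  · obtain ⟨φ', h1, h2⟩ := h j
    have h3 : (fun a => ch k (φ a) j) = fun a => ch k (φ' a) j :=
      funext fun a => ch_congr (lt_p_pow j) (h2 a)
    rw [h3]
    exact h1.2 j

/-- the reduction of a function of growth `e` has degree at most `e`. -/
theorem red_mem (h : Gr k ω e φ) : (fun a => rho k (φ a)) ∈ PolF k E ω (e + 1) := by
  simpa only [ch_one_right, mul_one] using h.2 1

end Gr

theorem Bf_mem (hω : 1 ≤ ω) (i j : ℕ) : Bf k E i j ∈ Pol k E ω (i + ω * j + 1) := by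
  have h := mul_mem_PolF' hω ((Gr.re (k := k) (E := E) hω).2 i) ((Gr.im (k := k) (E := E) hω).2 j)
  rw [one_mul] at h
  exact h

/-- pull back of the Mahler basis along a map with coordinates of controlled growth. -/
theorem comp_Bf_mem {E' : ℤ_[p]} (hω : 1 ≤ ω) {γ : Lam p E → Lam p E'} {e1 e2 : ℕ}
    (h1 : Gr k ω e1 fun a => (γ a).re) (h2 : Gr k ω e2 fun a => (γ a).im) (i j : ℕ) :
    (fun a => (Bf k E' i j).1 (γ a)) ∈ PolF k E ω (e1 * i + e2 * j + 1) :=
  PolF_mono (by omega) (mul_mem_PolF' hω (h1.2 i) (h2.2 j))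

end

end Vale.Agent.P221X.RIG
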