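import Vale.Agent.P221X.RIG.Spec2

/-!
# P221X: the invariants of the stabiliser group in `K`
-/

noncomputable section

namespace Vale.Agent.P221X.RIG

open PowerSeries KK

variable {p : ℕ} [hp : Fact p.Prime] {F : Type} [Field F]

/-- the invariants of `G` in `K` -/
theorem kfixStmt (D : GD p F) : KFixStmt D := fun dep z hz => by
  classical
  by_contra c
  have h1 : ∃ i, 1 ≤ i ∧ eul i z ≠ 0 := by
    by_contra! H
    refine c ⟨cf 0 z, (KK.ext fun n => ?_ : _ = z).symm⟩
    rw [Algebra.algebraMap_eq_smul_one, map_smul, ← uz_zero, cf_uz]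
    split_ifs with e
    · simp [e]
    rw [smul_zero, eq_comm]
    by_contra c'
    have h2 : ∀ i, 1 ≤ i → ((Ring.choose n i : ℤ) : F) = 0 := fun i hi => by
      have := congrArg (cf n) (H i hi)
      rw [cf_eul, map_zero] at this
      exact (mul_eq_zero.1 this).resolve_right c'
    obtain ⟨m, rfl | rfl⟩ := Int.eq_nat_or_neg n
    · simpa [Ring.choose_natCast] using h2 m (by omega)
    · have h3 := congrArg (Int.cast : ℤ → F) (Ring.add_choose_eq m (Commute.all (-(m : ℤ)) m))
      rw [neg_add_cancel, Ring.choose_zero_pos ℤ (by omega), Int.cast_sum,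
        Finset.sum_eq_single (0, m) (fun x hx hx' => ?_) (by simp)] at h3
      · simp [Ring.choose_natCast] at h3
      · rw [Int.cast_mul, h2 x.1 (Nat.pos_of_ne_zero fun h0 => hx' ?_), zero_mul]
        exact Prod.ext h0 (by simpa [h0] using hx)
  obtain ⟨m, hm⟩ := exists_ge z
  obtain ⟨i1, i2⟩ := Nat.find_spec h1
  set i := Nat.find h1
  obtain ⟨k, hk⟩ : ∃ k, cf k (eul i z) ≠ 0 := by
    by_contra! H
    exact i2 (KK.ext fun n => by rw [H, map_zero])
  obtain ⟨N, hN⟩ := D.cont (k - m + 1).toNat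
  have h2 : ∀ l, D.γ₁ ^ p ^ l ∈ D.Gf (2 * l + 1) := fun l => by
    induction l with
    | zero => exact D.Gf_one _
    | succ l ih => rw [pow_succ, pow_mul]; exact D.Gf_pow (by omega) ih
  set a := D.γ₁ ^ p ^ N
  set ε := D.actK a (uz 1) * uz (-1) - 1 with hε
  have e1 : ε = (D.actK a (uz 1) - uz 1) * uz (-1) := by rw [sub_mul, ← uz_add]; rfl
  have e2 : ε ∈ ge ((k - m + 1).toNat : ℤ) := by
    have := mul_mem_ge (dep.gain a _ (hN a (D.Gf_anti (by omega) (h2 N))) 1 _ (uz_mem_ge 1))
      (uz_mem_ge (-1))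
    rw [show 1 + ((k - m + 1).toNat : ℤ) + -1 = (k - m + 1).toNat by ring] at this
    exact e1 ▸ this
  have e3 : ε ≠ 0 := fun h0 => by
    refine D.keat_odd N a (h2 N) (fun h => hp.out.one_lt.ne' ?_) ?_
    · have := (D.odd_ind N 1 0 (by simpa using h)).1
      exact_mod_cast Int.eq_one_of_dvd_one (by positivity) this
    · rw [e1, mul_eq_zero] at h0
      have h3 := h0.resolve_right fun h => by simpa [h, ← uz_add] using uz_add (F := F) 1 (-1)
      rw [← algebraMap_X, D.actK_alg, ← map_sub] at h3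
      rw [Dep, IsFractionRing.injective _ (KK F) (h3.trans (map_zero _).symm)]
      exact dvd_zero _
  obtain ⟨δ, hδ⟩ := exists_ge (ε ^ i)⁻¹
  have eg : ∀ j, eul j z ∈ ge m := fun j n hn => by rw [cf_eul, hm n hn, mul_zero]
  have ep : ∀ j : ℕ, ε ^ j ∈ ge 0 := fun j => by
    induction j with
    | zero => exact uz_mem_ge 0
    | succ j ih => rw [pow_succ]; exact mul_mem_ge ih (ge_mono (m := 0) (by omega) e2)
  have h3 := dep.expand a z m (i + (1 + (k - m - δ).toNat)) hm
  rw [hz, ← hε, Finset.sum_range_add, Finset.sum_range_add, Finset.sum_range_one,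
    Finset.sum_eq_single 0 (fun j hj h0 => ?_) (by simp; omega)] at h3
  swap
  · rw [not_not.1 (not_and.1 (Nat.find_min h1 (Finset.mem_range.1 hj)) (by omega)), mul_zero]
  have h4 := mul_mem_ge hδ (neg_mem h3)
  have h5 : ε * ∑ j ∈ Finset.range (k - m - δ).toNat, ε ^ j * eul (i + (1 + j)) z ∈
      ge (((k - m + 1).toNat : ℤ) + m) := mul_mem_ge e2 (sum_mem fun j _ => by
    simpa using mul_mem_ge (ep j) (eg _))
  have h6 := sub_mem (ge_mono (show k + 1 ≤ _ by omega) h4) (ge_mono (show k + 1 ≤ _ by omega) h5)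
  have h7 : eul 0 z = z := KK.ext fun n => by simp [cf_eul]
  refine hk ((congrArg (cf k) ?_).trans (h6 k (by omega)))
  have h8 : ∑ j ∈ Finset.range (k - m - δ).toNat, ε ^ (i + (1 + j)) * eul (i + (1 + j)) z =
      ε ^ i * (ε * ∑ j ∈ Finset.range (k - m - δ).toNat, ε ^ j * eul (i + (1 + j)) z) := by
    simp only [Finset.mul_sum]
    exact Finset.sum_congr rfl fun j _ => by ring
  rw [h7, h8, add_zero]
  field_simp
  ring


end Vale.Agent.P221X.RIG
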