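import Vale.Agent.P221X.RIG.Red
import Vale.Agent.P221X.RIG.KFix

/-!
# P221X: the rows RIGL and RIGR
-/

noncomputable section

namespace Vale.Agent.P221X.RIG

open PowerSeries KK MulOpposite

variable {p : ℕ} [hp : Fact p.Prime] {F : Type} [Field F] {D : GD p F}

theorem jg_of [CharP F p] (h5 : 5 ≤ p) (hJ : JStmt p F) (X : GDX D) : JG D := fun U h1 h2 => by
  let pb : Per F X.Dd →ₗ[F] D.G → F := (LinearMap.funLeft F F X.π).comp (Per F X.Dd).val.toLinearMap
  have ds : ∀ φ, LCi D φ → ∃ f, pb f = φ := fun φ ⟨⟨n, a1⟩, a2, a3⟩ => by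
    obtain ⟨f, hf, e⟩ := X.desc n φ a2 a3 a1
    exact ⟨⟨f, hf⟩, funext fun a => (e a).symm⟩
  have st : ∀ (γ : Lam p X.Dd → Lam p X.Dd) (h : Lip γ), (∃ a, ∀ b, X.π (a * b) = γ (X.π b)) →
      ∀ μ ∈ (U.comap pb).dualAnnihilator, μ ∘ₗ cmp F γ h ∈ (U.comap pb).dualAnnihilator := by
    rintro γ h ⟨a, ha⟩ μ hμ
    rw [Submodule.mem_dualAnnihilator] at hμ ⊢
    refine fun f hf => hμ _ ?_
    have e : pb (cmp F γ h f) = fun b => pb f (a * b) := funext fun b => congrArg f.1 (ha b).symm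
    exact Submodule.mem_comap.2 (e ▸ h2 _ hf a)
  by_cases h0 : (U.comap pb).dualAnnihilator = ⊥
  · refine .inr fun φ hφ => ?_
    obtain ⟨f, rfl⟩ := ds φ hφ
    exact ((Submodule.dualAnnihilator_eq_bot_iff.1 h0).ge trivial : f ∈ U.comap pb)
  have h3 := hJ h5 X.Dd 1 X.nonsq _ ⟨fun c => st _ _ (X.mob c), 0, fun m _ => st _ _ (X.rot m)⟩ h0
  rw [Big, Subspace.dualAnnihilator_dualCoannihilator_eq] at h3
  refine .inl (Submodule.finiteDimensional_of_le (S₂ := (U.comap pb).map pb) fun φ hφ => ?_)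
  obtain ⟨f, rfl⟩ := ds φ (h1 φ hφ)
  exact ⟨f, hφ, rfl⟩

/-! ### continuous functionals -/

theorem eq_zero_of_uz {l : KK F →ₗ[F] F} {n : ℤ} (h : ∀ z ∈ ge n, l z = 0) (h' : ∀ j, l (uz j) = 0)
    (z : KK F) : l z = 0 := by
  have key : ∀ d : ℕ, ∀ z ∈ ge (n - d), l z = 0 := fun d => by
    induction d with
    | zero => simpa using h
    | succ d ih =>
      intro z hz
      have := ih (z - cf (n - d - 1) z • uz (n - d - 1)) fun m hm => by
        rw [map_sub, map_smul, cf_uz]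
        split_ifs with e
        · simp [e]
        · simp [hz m (by omega)]
      simpa [h'] using this
  obtain ⟨m, hm⟩ := exists_ge z
  exact key (n - m).toNat z (ge_mono (by omega) hm)

theorem cf_mul_uz (w : KK F) (j : ℤ) : cf 0 (w * uz (-j)) = cf j w := by
  rw [mul_comm, ← cf_uz_mul j (-j), add_neg_cancel]

theorem pair_ext {w w' : KK F} (h : ∀ z, cf 0 (w * z) = cf 0 (w' * z)) : w = w' :=
  KK.ext fun j => by rw [← cf_mul_uz, h, cf_mul_uz]

theorem exists_rep {l : KK F →ₗ[F] F} (h : ∃ n, ∀ z ∈ ge n, l z = 0) :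
    ∃ w : KK F, ∀ z, cf 0 (w * z) = l z := by
  obtain ⟨n, h⟩ := h
  let w : KK F := KK.mk (fun j => l (uz (-j))) (1 - n) fun m hm =>
    h _ (ge_mono (by omega) (uz_mem_ge _))
  have hw : w ∈ ge (1 - n) := fun m hm => h _ (ge_mono (by omega) (uz_mem_ge _))
  refine ⟨w, fun z => sub_eq_zero.1 (eq_zero_of_uz
    (l := (cf 0).comp (LinearMap.mulLeft F w) - l) (n := n) (fun z hz => ?_) (fun j => ?_) z)⟩
  · simp [h z hz, mul_mem_ge hw hz 0 (by omega)]
  · simpa [w, sub_eq_zero] using cf_mul_uz w (-j)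

variable {R : Type} [Ring R] [Algebra F R] (S : RD D R)

omit hp

theorem gain0 (r : R) {m : ℤ} {z : KK F} (hz : z ∈ ge m) : S.op r z ∈ ge m := by
  simpa using S.gain (n := 0) (S.fil_zero r) hz

theorem exists_tp (r : R) (w : KK F) : ∃ w' : KK F, ∀ z, cf 0 (w' * z) = cf 0 (w * S.op r z) := by
  obtain ⟨m, hm⟩ := exists_ge w
  exact exists_rep (l := (cf 0).comp ((LinearMap.mulLeft F w).comp (S.op r)))
    ⟨1 - m, fun z hz => mul_mem_ge hm (gain0 S r hz) 0 (by omega)⟩

/-- the transposed operator -/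
def tp (r : R) : Module.End F (KK F) where
  toFun w := (exists_tp S r w).choose
  map_add' w w' := pair_ext fun z => by
    rw [(exists_tp S r _).choose_spec, add_mul, add_mul, map_add, map_add,
      (exists_tp S r _).choose_spec, (exists_tp S r _).choose_spec]
  map_smul' c w := pair_ext fun z => by
    rw [(exists_tp S r _).choose_spec, smul_mul_assoc, smul_mul_assoc, map_smul, map_smul,
      (exists_tp S r _).choose_spec, RingHom.id_apply]

theorem tp_spec (r : R) (w z : KK F) : cf 0 (tp S r w * z) = cf 0 (w * S.op r z) :=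
  (exists_tp S r w).choose_spec z

/-- the transposed action -/
def tpA : Rᵐᵒᵖ →ₐ[F] Module.End F (KK F) where
  toFun r := tp S r.unop
  map_one' := LinearMap.ext fun w => pair_ext fun z => by simp [tp_spec]
  map_mul' a b := LinearMap.ext fun w => pair_ext fun z => by simp [tp_spec]
  map_zero' := LinearMap.ext fun w => pair_ext fun z => by simp [tp_spec]
  map_add' a b := LinearMap.ext fun w => pair_ext fun z => by simp [tp_spec, mul_add, add_mul]
  commutes' c := LinearMap.ext fun w => pair_ext fun z => by simp [tp_spec]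

theorem u_pow (n : ℕ) : S.sc X ^ n ∈ S.fil (4 * n) := by
  induction n with
  | zero => exact S.fil_zero _
  | succ n ih => rw [pow_succ]; exact S.mul_mem ih S.u_mem

include hp

theorem gr_cont (w : ℕ) : ∃ N, ∀ a ∈ D.Gf N, S.gr a - 1 ∈ S.fil w :=
  ⟨2 * w + 1, fun a ha => S.anti (Nat.lt_pow_self hp.out.one_lt).le (S.wt_odd w a ha)⟩

/-- the left version -/
def rgL (dep : RowDEP D) (sb : RowSB S.toFRing) : RG D R where
  fil := S.fil
  anti := S.anti
  lmul a b h := by simpa using S.mul_mem (S.fil_zero a) h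
  closed := sb.closed
  sc := S.sc
  gr := S.gr
  gr_ψ := S.gr_ψ
  upow n r := S.anti (by omega) (S.mul_mem (u_pow S n) (S.fil_zero r))
  cont := gr_cont S
  dense r w := (S.dense r w).elim fun c h =>
    ⟨_, Submodule.sum_mem _ fun a _ => Submodule.subset_span ⟨_, _, rfl⟩, h⟩
  nrm := S.u_normal'
  nrm' := S.u_normal
  op := S.op
  op_sc := S.op_sc
  op_gr a x z := by simp only [S.op_gr, map_mul]
  red a z hz := by
    have := dep.gain a 1 (D.dep_one a) 0 z hz 0 (by omega)
    simpa [S.op_gr, sub_eq_zero] using this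
  gain := S.gain
  gain0 := gain0 S

/-- the right version -/
def rgR (sb : RowSB S.toFRing.opp) : RG D Rᵐᵒᵖ where
  fil := S.toFRing.opp.fil
  anti := S.toFRing.opp.anti
  lmul a b h := by simpa using S.toFRing.opp.mul_mem (S.toFRing.opp.fil_zero a) h
  closed := sb.closed
  sc := S.sc.toOpposite fun a b => (Commute.all a b).map S.sc
  gr := { toFun := fun a => op (S.gr a⁻¹), map_one' := by simp, map_mul' := by simp }
  gr_ψ := congrArg op (by simpa [S.gr_ψ] using (map_mul S.gr D.ψ⁻¹ D.ψ).symm)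
  upow n r := by
    have := S.mul_mem (S.fil_zero r.unop) (u_pow S n)
    exact S.anti (by omega) this
  cont w := (gr_cont S w).imp fun N h a ha => h _ (inv_mem ha)
  dense r w := (S.dense r.unop w).elim fun c h => ⟨op (∑ a ∈ c.support, S.sc (c a) * S.gr a), by
    rw [Finset.op_sum]
    refine Submodule.sum_mem _ fun a _ => Submodule.subset_span ⟨D.act a⁻¹ (c a), a⁻¹, ?_⟩
    refine unop_injective ?_
    simp [S.skew], h⟩
  nrm r := (S.u_normal r.unop).elim fun r' h => ⟨op r', unop_injective h⟩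
  nrm' r := (S.u_normal' r.unop).elim fun r' h => ⟨op r', unop_injective h⟩
  op := tpA S
  op_sc f w := pair_ext fun z => (tp_spec S (S.sc f) w z).trans (by
    rw [S.op_sc]; congr 1; ring)
  op_gr a x w := pair_ext fun z => (tp_spec S (S.gr a⁻¹) _ z).trans (by
    rw [mul_comm (D.actK a x), mul_assoc _ (D.actK a x)]
    refine Eq.trans ?_ (tp_spec S (S.gr a⁻¹) _ _).symm
    simp only [S.op_gr, map_mul, ← AlgEquiv.mul_apply, ← map_mul D.actK, inv_mul_cancel, map_one,
      AlgEquiv.one_apply]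
    congr 1; ring)
  red a w _ := by
    have := tp_spec S (S.gr a⁻¹) w 1
    rw [S.op_gr, map_one, mul_one, mul_one] at this
    exact this
  gain := fun {n r m w} hr hw j hj => by
    rw [← cf_mul_uz]
    exact (tp_spec S r.unop w _).trans (mul_mem_ge hw (S.gain hr (uz_mem_ge _)) 0 (by omega))
  gain0 := fun r {m w} hw j hj => by
    rw [← cf_mul_uz]
    exact (tp_spec S r.unop w _).trans (mul_mem_ge hw (gain0 S _ (uz_mem_ge _)) 0 (by omega))

theorem rigL (hJ : JG D) (dep : RowDEP D) (sb : RowSB S.toFRing) : RowRIGL S := fun θ s hθ hs => by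
  obtain ⟨r, e⟩ := hθ.modu
  exact ⟨_, (rgL S dep sb).rig hJ (kfixStmt D dep) ⟨_, r, .inl rfl, e⟩
    (fun x => by simpa using hs 0 x), fun z a b => ⟨a, b⟩⟩

theorem rigR (hJ : JG D) (dep : RowDEP D) (sb : RowSB S.toFRing.opp) : RowRIGR S :=
  fun θ s hθ hs => by
  obtain ⟨r, e⟩ := hθ.modu
  obtain ⟨r', e'⟩ := S.u_normal' r
  have h := (rgR S sb).rig hJ (kfixStmt D dep) (θ := op θ) (s := op s)
    ⟨D.g⁻¹, op r', .inr rfl, unop_injective (by
      change θ = S.gr D.g⁻¹⁻¹ - 1 + r' * S.sc X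
      rw [inv_inv, ← e', e])⟩
    fun x c => hs 0 x.unop (by simpa using congrArg unop c)
  let B : KK F →ₗ[F] KK F →ₗ[F] F := (LinearMap.mul F (KK F)).compr₂ (cf 0)
  refine ⟨Submodule.map B _, @Module.Finite.map _ _ _ _ _ _ _ _ _ h B, fun l h0 h1 h2 => ?_⟩
  obtain ⟨w, hw⟩ := exists_rep h0
  exact ⟨w, ⟨pair_ext fun z => (tp_spec S θ w z).trans (by simp [hw, h1]),
    pair_ext fun z => (tp_spec S s w z).trans (by simp [hw, h2])⟩, LinearMap.ext hw⟩

/-- **rows RIGL and RIGR from the theorem (J)** -/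
theorem rigLR [CharP F p] (h5 : 5 ≤ p) (hJ : JStmt p F) (X : GDX D) (dep : RowDEP D)
    (sb : RowSB S.toFRing) (sb' : RowSB S.toFRing.opp) : RowRIGL S ∧ RowRIGR S :=
  ⟨rigL S (jg_of h5 hJ X) dep sb, rigR S (jg_of h5 hJ X) dep sb'⟩

end Vale.Agent.P221X.RIG
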