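import Vale.Agent.P221X.RIG.Spec

/-!
# P221X, block RIG: the Mahler basis and the formal properties of the symbols
-/

namespace Vale.Agent.P221X.RIG

open Module

noncomputable section

variable {p : ℕ} [hp : Fact p.Prime] {k : Type*} [Field k] [CharP k p] {E : ℤ_[p]}

namespace Sp

omit [CharP k p] in
theorem Dp_apply (v : Lam p E) (F : Per k E) (a : Lam p E) :
    (Dp k v F).1 a = F.1 (a + v) - F.1 a := rfl

omit [CharP k p] in
theorem Dp_comm (v w : Lam p E) : Commute (Dp k v) (Dp k w) := by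
  ext F a
  simp only [End.mul_apply, Dp_apply, add_right_comm a v w]
  ring

omit [CharP k p] in
theorem Dp_pow_val (v : Lam p E) (i : ℕ) (F : Per k E) :
    ((Dp k v ^ i) F).1 = (dif k v ^ i) F.1 := by
  induction i with
  | zero => rfl
  | succ i ih => rw [pow_succ', pow_succ', End.mul_apply, End.mul_apply, ← ih]; rfl

variable (k E) in
/-- the mixed differences. -/
def DD (i j : ℕ) : End k (Per k E) := Dp k (1 : Lam p E) ^ i * Dp k (om E) ^ j

omit [CharP k p] in
theorem mem_Pol {ω r : ℕ} {F : Per k E} :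
    F ∈ Pol k E ω r ↔ ∀ i j, r ≤ i + ω * j → DD k E i j F = 0 :=
  forall₃_congr fun i j _ => by
    rw [Subtype.ext_iff, DD, End.mul_apply, End.mul_apply, Dp_pow_val, Dp_pow_val]
    rfl

omit [CharP k p] in
theorem DD_one (i j : ℕ) (F : Per k E) : DD k E i j (Dp k 1 F) = DD k E (i + 1) j F := by
  rw [← End.mul_apply, DD, DD, pow_succ, mul_assoc, mul_assoc,
    ((Dp_comm 1 (om E)).pow_right j).eq]

omit [CharP k p] in
theorem DD_om (i j : ℕ) (F : Per k E) : DD k E i j (Dp k (om E) F) = DD k E i (j + 1) F := by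
  rw [← End.mul_apply, DD, DD, pow_succ, mul_assoc]

omit [CharP k p] in
/-- a periodic function all of whose differences vanish at the origin is zero. -/
theorem eq_zero {F : Per k E} (h : ∀ i j, (DD k E i j F).1 0 = 0) : F = 0 := by
  have key : ∀ (m n : ℕ) (G : Per k E), (∀ i j, (DD k E i j G).1 0 = 0) →
      G.1 (m • 1 + n • om E) = 0 := fun m n => by
    induction m with
    | zero =>
      induction n with
      | zero => exact fun G h => by simpa [DD] using h 0 0
      | succ n ih =>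
        intro G h
        have h1 := ih _ fun i j => (DD_om i j G).symm ▸ h i (j + 1)
        rwa [Dp_apply, ih G h, sub_zero, add_assoc, ← succ_nsmul] at h1
    | succ m ih =>
      intro G h
      have h1 := ih _ fun i j => (DD_one i j G).symm ▸ h (i + 1) j
      rwa [Dp_apply, ih G h, sub_zero, add_right_comm, ← succ_nsmul] at h1
  obtain ⟨n, hn⟩ := F.2
  ext a
  obtain ⟨x, x', -, hx⟩ := exists_nat_lt a.re n
  obtain ⟨y, y', -, hy⟩ := exists_nat_lt a.im n
  have e : a = (x • 1 + y • om E) + (p : ℤ_[p]) ^ n • (⟨x', y'⟩ : Lam p E) := by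
    ext <;> simp [om, ← hx, ← hy]
  rw [e, hn, key x y F h]
  rfl

theorem Dp_one_zero (j : ℕ) : Dp k 1 (Bf k E 0 j) = 0 := by
  ext a
  simp [Dp_apply, Bf_apply, QuadraticAlgebra.im_one]

theorem Dp_one_succ (i j : ℕ) : Dp k 1 (Bf k E (i + 1) j) = Bf k E i j := by
  ext a
  simp [Dp_apply, Bf_apply, QuadraticAlgebra.im_one, QuadraticAlgebra.re_one, ch_add_one, add_mul]

theorem Dp_om_zero (i : ℕ) : Dp k (om E) (Bf k E i 0) = 0 := by
  ext a
  simp [Dp_apply, Bf_apply, om]

theorem Dp_om_succ (i j : ℕ) : Dp k (om E) (Bf k E i (j + 1)) = Bf k E i j := by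
  ext a
  simp [Dp_apply, Bf_apply, om, ch_add_one, mul_add]

theorem DD_Bf (i j a b : ℕ) :
    DD k E i j (Bf k E a b) = if i ≤ a ∧ j ≤ b then Bf k E (a - i) (b - j) else 0 := by
  induction j generalizing b with
  | zero =>
    induction i generalizing a with
    | zero => simp [DD]
    | succ i ih =>
      rw [← DD_one]
      rcases a with _ | a
      · simp [Dp_one_zero]
      · simp [Dp_one_succ, ih]
  | succ j ih =>
    rw [← DD_om]
    rcases b with _ | b
    · simp [Dp_om_zero]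
    · simp [Dp_om_succ, ih]

theorem DD_Bf_zero (i j a b : ℕ) :
    (DD k E i j (Bf k E a b)).1 0 = if (a, b) = (i, j) then 1 else 0 := by
  rw [DD_Bf]
  split_ifs with h1 h2 h2
  · simp_all [Bf_apply]
  · rw [Prod.mk.injEq] at h2
    simp only [Bf_apply, QuadraticAlgebra.re_zero, QuadraticAlgebra.im_zero, ch_zero_left,
      mul_ite, mul_one, mul_zero, ite_eq_right_iff]
    omega
  · rw [Prod.mk.injEq] at h2
    omega
  · rfl

theorem Bf_mem {ω r i j : ℕ} (h : i + ω * j < r) : Bf k E i j ∈ Pol k E ω r :=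
  mem_Pol.2 fun a b e => by
    rw [DD_Bf, if_neg]
    rintro ⟨h1, h2⟩
    have := Nat.mul_le_mul_left ω h2
    omega

/-- the expansion of Newton. -/
theorem newton {ω r : ℕ} {F : Per k E} (h : F ∈ Pol k E ω r) {s : Finset (ℕ × ℕ)}
    (hs : ∀ i j, i + ω * j < r → (i, j) ∈ s) :
    F = ∑ x ∈ s, (DD k E x.1 x.2 F).1 0 • Bf k E x.1 x.2 := by
  refine sub_eq_zero.1 (eq_zero fun i j => ?_)
  simp only [map_sub, map_sum, map_smul, AddSubgroupClass.coe_sub, AddSubmonoidClass.coe_finsetSum,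
    SetLike.val_smul, Pi.sub_apply, Finset.sum_apply, Pi.smul_apply, DD_Bf_zero, smul_eq_mul,
    mul_ite, mul_one, mul_zero, Finset.sum_ite_eq']
  split_ifs with e
  · exact sub_self _
  · rw [mem_Pol.1 h i j (not_lt.1 (mt (hs i j) e)), sub_zero]
    rfl

theorem Dp_pow_char (v : Lam p E) (n : ℕ) (F : Per k E) (a : Lam p E) :
    ((Dp k v ^ p ^ n) F).1 a = F.1 (a + (p : ℤ_[p]) ^ n • v) - F.1 a := by
  have : CharP (End k (Per k E)) p := charP_of_injective_algebraMap (algebraMap k _).injective p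
  have h : ∀ (m : ℕ) (a : Lam p E), ((cmp k _ (lip_add v) ^ m) F).1 a = F.1 (a + m • v) :=
    fun m => by
      induction m with
      | zero => simp
      | succ m ih => exact fun a => by rw [pow_succ', End.mul_apply, cmp_apply, ih, add_assoc, succ_nsmul']
  have e := sub_pow_char_pow_of_commute (R := End k (Per k E)) (x := cmp k _ (lip_add v)) p n
    (Commute.one_right _)
  rw [Dp, e, one_pow, ← Nat.cast_pow, Nat.cast_smul_eq_nsmul, ← h]
  rfl

theorem ex_Pol (ω : ℕ) (F : Per k E) : ∃ r, F ∈ Pol k E ω r := by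
  obtain ⟨n, hn⟩ := F.2
  have h : ∀ (v : Lam p E) (i : ℕ), p ^ n ≤ i → (Dp k v ^ i) F = 0 := fun v i e => by
    have : (Dp k v ^ p ^ n) F = 0 := by
      ext a
      rw [Dp_pow_char, hn, sub_self]
      rfl
    rw [← Nat.sub_add_cancel e, pow_add, End.mul_apply, this, map_zero]
  refine ⟨p ^ n + ω * p ^ n, mem_Pol.2 fun i j e => ?_⟩
  by_cases e' : p ^ n ≤ j
  · rw [DD, End.mul_apply, h _ j e', map_zero]
  · have := Nat.mul_le_mul_left ω (not_le.1 e').le
    rw [DD, ((Dp_comm _ _).pow_pow i j).eq, End.mul_apply, h _ i (by omega), map_zero]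

theorem mem_Sl {ω e : ℕ} (h : 1 ≤ ω) {x : ℕ × ℕ} : x ∈ Sl ω e ↔ x.1 + ω * x.2 = e := by
  have := Nat.mul_le_mul_right x.2 h
  simp only [Sl, Finset.mem_filter, Finset.mem_product, Finset.mem_range]
  omega

variable {L : Type*} [CommRing L] [Algebra k L] {ω : ℕ} (x0 y0 : L) (e : ℕ)
  (μ : Dual k (Per k E))

theorem ev_fil (h : μ ∈ Fil k E ω (e + 1)) : ev ω x0 y0 e μ = 0 :=
  Finset.sum_eq_zero fun x hx => by
    rw [(Submodule.mem_dualAnnihilator _).1 h _
      (Bf_mem (by have := (Finset.mem_filter.1 hx).2; omega)), map_zero, zero_mul, zero_mul]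

theorem ev_one (h : 1 ≤ ω) :
    ev ω x0 y0 (e + 1) (μ ∘ₗ Dp k (1 : Lam p E)) = x0 * ev ω x0 y0 e μ := by
  rw [ev, ev, Finset.mul_sum]
  refine (Finset.sum_of_injOn (fun x => (x.1 + 1, x.2)) (fun x _ y _ z => ?_) (fun x z => ?_)
    (fun x z z' => ?_) fun x _ => ?_).symm
  · simpa [Prod.ext_iff] using z
  · simp only [Finset.mem_coe, mem_Sl h] at z ⊢
    omega
  · obtain ⟨_ | i, j⟩ := x
    · simp [Dp_one_zero]
    · simp only [mem_Sl h] at z
      exact (z' ⟨(i, j), (mem_Sl h).2 (by simp only; omega), rfl⟩).elim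
  · simp only [LinearMap.comp_apply, Dp_one_succ]
    ring

theorem ev_om (h : 1 ≤ ω) :
    ev ω x0 y0 (e + ω) (μ ∘ₗ Dp k (om E)) = y0 * ev ω x0 y0 e μ := by
  rw [ev, ev, Finset.mul_sum]
  refine (Finset.sum_of_injOn (fun x => (x.1, x.2 + 1)) (fun x _ y _ z => ?_) (fun x z => ?_)
    (fun x z z' => ?_) fun x _ => ?_).symm
  · simpa [Prod.ext_iff] using z
  · simp only [Finset.mem_coe, mem_Sl h, mul_add] at z ⊢
    omega
  · obtain ⟨i, _ | j⟩ := x
    · simp [Dp_om_zero]
    · simp only [mem_Sl h, mul_add] at z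
      exact (z' ⟨(i, j), (mem_Sl h).2 (by simp only; omega), rfl⟩).elim
  · simp only [LinearMap.comp_apply, Dp_om_succ]
    ring

end Sp

variable (p k)

theorem spanStmt : SpanStmt p k := fun E ω h => ⟨fun r => le_antisymm (fun F hF => by
    classical
    rw [Sp.newton hF (s := (Finset.range r ×ˢ Finset.range r).filter fun x => x.1 + ω * x.2 < r)
      fun i j z => by
        have := Nat.mul_le_mul_right j h
        simp only [Finset.mem_filter, Finset.mem_product, Finset.mem_range]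
        omega]
    exact Submodule.sum_mem _ fun x hx => Submodule.smul_mem _ _
      (Submodule.subset_span ⟨_, _, (Finset.mem_filter.1 hx).2, rfl⟩))
  (Submodule.span_le.2 fun _ ⟨_, _, z, e⟩ => e ▸ Sp.Bf_mem z), Sp.ex_Pol ω⟩

theorem evStmt : EvStmt p k := fun _ _ h x0 y0 e μ =>
  ⟨Sp.ev_fil x0 y0 e μ, Sp.ev_one x0 y0 e μ h, Sp.ev_om x0 y0 e μ h⟩

end

end Vale.Agent.P221X.RIG
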