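import Vale.Agent.P221X.RIG.Spec
import Mathlib.FieldTheory.Finite.Basic

/-!
# P221X, block RIG: the step (b) of the theorem (J)
-/

namespace Vale.Agent.P221X.RIG

open Module

noncomputable section

variable {p : ℕ} [hp : Fact p.Prime] {k : Type*} [Field k] [CharP k p]

namespace St

variable {E : ℤ_[p]} {ω : ℕ}

omit [CharP k p] in
theorem fil_anti {e e' : ℕ} (h : e ≤ e') : Fil k E ω e' ≤ Fil k E ω e :=
  Submodule.dualAnnihilator_anti fun _ hF i j hij => hF i j (h.trans hij)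

omit [CharP k p] in
theorem fil_zero (μ : Dual k (Per k E)) : μ ∈ Fil k E ω 0 := by
  rw [Fil, Submodule.mem_dualAnnihilator]
  intro F hF
  have h := hF 0 0 le_rfl
  rw [pow_zero, pow_zero, one_mul] at h
  rw [show F = 0 from Subtype.ext h, map_zero]

omit [CharP k p] in
theorem fil_low {g e : ℕ} {T : Module.End k (Per k E)} (hT : Low k ω g T) {μ : Dual k (Per k E)}
    (h : μ ∈ Fil k E ω e) : μ ∘ₗ T ∈ Fil k E ω (e + g) := by
  rw [Fil, Submodule.mem_dualAnnihilator] at h ⊢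
  exact fun F hF => h _ (hT e F hF)

omit [CharP k p] in
theorem dif_comm (v w : Lam p E) : Commute (dif k v) (dif k w) := by
  have h : Commute (sh k v) (sh k w) := LinearMap.ext fun F => funext fun a =>
    congrArg F (add_right_comm a v w)
  exact (h.sub_right (Commute.one_right _)).sub_left (Commute.one_left _)

omit [CharP k p] in
theorem Dp_comm (v w : Lam p E) : Commute (Dp k v) (Dp k w) :=
  LinearMap.ext fun F => Subtype.ext (LinearMap.congr_fun (dif_comm (k := k) v w).eq F.1)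

omit [CharP k p] in
theorem low_one : Low k ω 1 (Dp k (1 : Lam p E)) := fun r F hF i j hij => by
  have h := hF (i + 1) j (by omega)
  rw [pow_succ, mul_assoc, ((dif_comm 1 (om E)).pow_right j).eq, ← mul_assoc] at h
  exact h

omit [CharP k p] in
theorem low_om : Low k ω ω (Dp k (om E)) := fun r F hF i j hij => by
  have h := hF i (j + 1) (by rw [mul_add, mul_one]; omega)
  rw [pow_succ, ← mul_assoc] at h
  exact h

omit [CharP k p] in
theorem low_pow {g : ℕ} {T : Module.End k (Per k E)} (hT : Low k ω g T) (n : ℕ) :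
    Low k ω (g * n) (T ^ n) := by
  induction n with
  | zero => exact fun r F hF => hF
  | succ n ih =>
    intro r F hF
    rw [pow_succ, Module.End.mul_apply]
    exact ih r _ (hT _ F (by rwa [mul_add, mul_one, ← add_assoc] at hF))

/-- the symbol as a linear map. -/
def evL {L : Type*} [CommRing L] [Algebra k L] (E : ℤ_[p]) (ω : ℕ) (x0 y0 : L) (e : ℕ) :
    Dual k (Per k E) →ₗ[k] L where
  toFun := ev ω x0 y0 e
  map_add' a b := by
    simp only [ev, LinearMap.add_apply, map_add, add_mul, Finset.sum_add_distrib]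
  map_smul' c a := by
    simp only [ev, LinearMap.smul_apply, smul_eq_mul, map_mul, RingHom.id_apply, Algebra.smul_def,
      Finset.mul_sum, mul_assoc]

/-- homogeneous operators of degree `d` with the value `v`. -/
structure Hm (ω Q : ℕ) (x0 y0 : AlgebraicClosure k) (N : Submodule k (Dual k (Per k E))) (d : ℕ)
    (T : Module.End k (Per k E)) (v : AlgebraicClosure k) : Prop where
  fil : ∀ e, ∀ ξ ∈ Fil k E ω e, ξ ∘ₗ T ∈ Fil k E ω (e + Q * d)
  sup : ∀ n n', n' ≤ n → n ≤ n' + Q → ∀ ξ ∈ N ⊔ Fil k E ω n, ξ ∈ Fil k E ω n' →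
    ξ ∘ₗ T ∈ N ⊔ Fil k E ω (n + Q * d)
  val : ∀ e μ, evL E ω x0 y0 (e + Q * d) (μ ∘ₗ T) = v * evL E ω x0 y0 e μ

variable {Q : ℕ} {x0 y0 : AlgebraicClosure k} {N : Submodule k (Dual k (Per k E))} {d d' : ℕ}
  {T T' : Module.End k (Per k E)} {v v' : AlgebraicClosure k}

theorem Hm.one : Hm ω Q x0 y0 N 0 1 1 :=
  ⟨fun _ _ h => h, fun _ _ _ _ _ h _ => h, fun _ _ => (one_mul _).symm⟩

theorem Hm.mul (h : Hm ω Q x0 y0 N d T v) (h' : Hm ω Q x0 y0 N d' T' v') :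
    Hm ω Q x0 y0 N (d + d') (T * T') (v * v') := by
  refine ⟨fun e ξ h1 => ?_, fun n n' h1 h2 ξ h3 h4 => ?_, fun e μ => ?_⟩
  · rw [mul_add, ← add_assoc]
    exact h'.fil _ _ (h.fil e ξ h1)
  · rw [mul_add, ← add_assoc]
    exact h'.sup _ (n' + Q * d) (by omega) (by omega) _ (h.sup n n' h1 h2 ξ h3 h4) (h.fil _ ξ h4)
  · rw [mul_add, ← add_assoc, mul_comm v, mul_assoc, ← h.val, ← h'.val]
    rfl

theorem Hm.pow (h : Hm ω Q x0 y0 N 1 T v) (n : ℕ) : Hm ω Q x0 y0 N n (T ^ n) (v ^ n) := by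
  induction n with
  | zero => rw [pow_zero, pow_zero]; exact Hm.one
  | succ n ih => rw [pow_succ, pow_succ]; exact ih.mul h

theorem Hm.cast (h : Hm ω Q x0 y0 N d T v) (hd : d = d') : Hm ω Q x0 y0 N d' T v := hd ▸ h

theorem Hm.sub (h : Hm ω Q x0 y0 N d T v) (h' : Hm ω Q x0 y0 N d T' v') :
    Hm ω Q x0 y0 N d (T - T') (v - v') := by
  refine ⟨fun e ξ h1 => ?_, fun n n' h1 h2 ξ h3 h4 => ?_, fun e μ => ?_⟩ <;> rw [LinearMap.comp_sub]
  · exact sub_mem (h.fil e ξ h1) (h'.fil e ξ h1)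
  · exact sub_mem (h.sup n n' h1 h2 ξ h3 h4) (h'.sup n n' h1 h2 ξ h3 h4)
  · rw [map_sub, h.val, h'.val, sub_mul]

theorem Hm.smul (h : Hm ω Q x0 y0 N d T v) (c : k) :
    Hm ω Q x0 y0 N d (c • T) (algebraMap k _ c * v) := by
  refine ⟨fun e ξ h1 => ?_, fun n n' h1 h2 ξ h3 h4 => ?_, fun e μ => ?_⟩ <;>
    rw [LinearMap.comp_smul]
  · exact Submodule.smul_mem _ _ (h.fil e ξ h1)
  · exact Submodule.smul_mem _ _ (h.sup n n' h1 h2 ξ h3 h4)
  · rw [map_smul, h.val, Algebra.smul_def, mul_assoc]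

theorem hm_of {X : Module.End k (Per k E)} (hX : ∀ μ ∈ N, μ ∘ₗ X ∈ N) (h1 : Low k ω Q T)
    (h2 : Low k ω (2 * Q) (X - 1 - T))
    (h3 : ∀ e μ, evL E ω x0 y0 (e + Q) (μ ∘ₗ T) = v * evL E ω x0 y0 e μ) :
    Hm ω Q x0 y0 N 1 T v := by
  refine ⟨fun e ξ h => ?_, fun n n' h4 h5 ξ h6 h7 => ?_, fun e μ => ?_⟩ <;> rw [mul_one]
  · exact fil_low h1 h
  · obtain ⟨η, hη, φ, hφ, rfl⟩ := Submodule.mem_sup.mp h6
    have h8 : η ∈ Fil k E ω n' := by
      simpa only [add_sub_cancel_right] using sub_mem h7 (fil_anti h4 hφ)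
    have h9 : (η + φ) ∘ₗ T = (η ∘ₗ X - η) + (φ ∘ₗ T - η ∘ₗ (X - 1 - T)) := by
      rw [LinearMap.add_comp, LinearMap.comp_sub, LinearMap.comp_sub, Module.End.one_eq_id,
        LinearMap.comp_id]
      abel
    rw [h9]
    exact Submodule.add_mem_sup (sub_mem (hX η hη) hη)
      (sub_mem (fil_low h1 hφ) (fil_anti (by omega) (fil_low h2 h8)))
  · exact h3 e μ

theorem val_pow {g : ℕ} (h : ∀ e μ, evL E ω x0 y0 (e + g) (μ ∘ₗ T) = v * evL E ω x0 y0 e μ)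
    (n e : ℕ) (μ : Dual k (Per k E)) :
    evL E ω x0 y0 (e + g * n) (μ ∘ₗ (T ^ n)) = v ^ n * evL E ω x0 y0 e μ := by
  induction n with
  | zero => rw [pow_zero, pow_zero, one_mul]; rfl
  | succ n ih =>
    rw [mul_add, mul_one, ← add_assoc, pow_succ' v, mul_assoc, ← ih, ← h, pow_succ]
    rfl

/-- the vanishing of the symbols of `N + l N`. -/
theorem van_sup (hE : ∀ e, ∀ μ ∈ Fil k E ω (e + 1), ev ω x0 y0 e μ = 0) (hN : Van ω x0 y0 N)
    (l : Module.End k (Per k E))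
    (h : ∀ e : ℕ, ∃ (Q d n : ℕ) (T : Module.End k (Per k E)) (v : AlgebraicClosure k), v ≠ 0 ∧
      Hm ω Q x0 y0 N d T v ∧ e + Q * d < n ∧ n ≤ Q + Q * d ∧
      ∀ μ ∈ N, (μ ∘ₗ l) ∘ₗ T ∈ N ⊔ Fil k E ω n) :
    Van ω x0 y0 (N ⊔ N.map l.dualMap) := by
  intro e ν hν hνe
  obtain ⟨Q, d, n, T, v, hv, hT, h1, h2, h3⟩ := h e
  have h4 : ν ∘ₗ T ∈ N ⊔ Fil k E ω n := by
    obtain ⟨η, hη, _, ⟨μ, hμ, rfl⟩, rfl⟩ := Submodule.mem_sup.mp hν
    rw [LinearMap.add_comp]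
    exact add_mem (sup_le_sup_left (fil_anti h2) N (hT.sup Q 0 (Nat.zero_le _) (by omega) η
      (Submodule.mem_sup_left hη) (fil_zero η))) (h3 μ hμ)
  obtain ⟨η, hη, φ, hφ, h5⟩ := Submodule.mem_sup.mp h4
  have h6 : η ∈ Fil k E ω (e + Q * d) := by
    have h7 := sub_mem (hT.fil e ν hνe) (fil_anti h1.le hφ)
    rwa [← h5, add_sub_cancel_right] at h7
  have h8 := hT.val e ν
  rw [← h5, map_add] at h8
  have h9 : evL E ω x0 y0 (e + Q * d) η = 0 := hN _ η hη h6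
  have h10 : evL E ω x0 y0 (e + Q * d) φ = 0 := hE _ φ (fil_anti h1 hφ)
  rw [h9, h10, add_zero] at h8
  exact (mul_eq_zero.mp h8.symm).resolve_left hv

theorem lin_congr (t1 t2 : ℤ_[p]) (a w : Lam p E) :
    (lin (k := k) t1 t2).1 (a + (p : ℤ_[p]) • w) = (lin (k := k) t1 t2).1 a := by
  change rho k t1 * rho k (a.re + p * w.re) + rho k t2 * rho k (a.im + p * w.im) =
    rho k t1 * rho k a.re + rho k t2 * rho k a.im
  rw [map_add, map_add, rho_p_mul, rho_p_mul, add_zero, add_zero]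

theorem lin_add (t1 t2 : ℤ_[p]) (a c : Lam p E) :
    (lin (k := k) t1 t2).1 (a + c) = (lin (k := k) t1 t2).1 a + (lin (k := k) t1 t2).1 c := by
  change rho k t1 * rho k (a.re + c.re) + rho k t2 * rho k (a.im + c.im) =
    (rho k t1 * rho k a.re + rho k t2 * rho k a.im) + (rho k t1 * rho k c.re + rho k t2 * rho k c.im)
  rw [map_add, map_add]
  ring

theorem mul_inv_eq (a x : Lam p E) :
    ∃ w, a * Ring.inverse (1 + (p : ℤ_[p]) • x) = a + (p : ℤ_[p]) • w := by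
  have h := Ring.mul_inverse_cancel _ (isUnit_one_add x)
  refine ⟨-(a * (x * Ring.inverse (1 + (p : ℤ_[p]) • x))), ?_⟩
  rw [add_mul, one_mul, smul_mul_assoc] at h
  rw [smul_neg, ← mul_smul_comm, ← sub_eq_add_neg, eq_sub_iff_add_eq, ← mul_add, h, mul_one]

omit [CharP k p] in
theorem stab_aux {γ : Lam p E → Lam p E} (hγ : Lip γ) (l : Per k E) (c : k)
    (hl : ∀ a, l.1 (γ a) = l.1 a + c) (hN : ∀ μ ∈ N, μ ∘ₗ cmp k γ hγ ∈ N) :
    ∀ μ ∈ N ⊔ N.map (mulF l).dualMap, μ ∘ₗ cmp k γ hγ ∈ N ⊔ N.map (mulF l).dualMap := by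
  intro ν hν
  obtain ⟨η, hη, _, ⟨μ, hμ, rfl⟩, rfl⟩ := Submodule.mem_sup.mp hν
  have h1 : mulF l ∘ₗ cmp k γ hγ = cmp k γ hγ ∘ₗ mulF l - c • cmp k γ hγ :=
    LinearMap.ext fun F => Subtype.ext (funext fun a => by
      change l.1 a * F.1 (γ a) = l.1 (γ a) * F.1 (γ a) - c * F.1 (γ a)
      rw [hl]
      ring)
  have h2 : (η + (mulF l).dualMap μ) ∘ₗ cmp k γ hγ =
      (η ∘ₗ cmp k γ hγ - c • μ ∘ₗ cmp k γ hγ) + (mulF l).dualMap (μ ∘ₗ cmp k γ hγ) := by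
    rw [LinearMap.add_comp, LinearMap.dualMap_apply', LinearMap.comp_assoc, h1,
      LinearMap.comp_sub, LinearMap.comp_smul, LinearMap.dualMap_apply', LinearMap.comp_assoc]
    abel
  rw [h2]
  exact Submodule.add_mem_sup (sub_mem (hN η hη) (N.smul_mem c (hN μ hμ)))
    (Submodule.mem_map_of_mem (hN μ hμ))

theorem stab_mob (r t1 t2 : ℤ_[p]) (c : Lam p E) (hN : ∀ μ ∈ N, μ ∘ₗ cmp k _ (lip_mob r c) ∈ N) :
    ∀ μ ∈ N ⊔ N.map (mulF (lin t1 t2)).dualMap,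
      μ ∘ₗ cmp k _ (lip_mob r c) ∈ N ⊔ N.map (mulF (lin t1 t2)).dualMap :=
  stab_aux _ _ ((lin (k := k) t1 t2).1 c) (fun a => by
    obtain ⟨w, hw⟩ := mul_inv_eq (a + c) (r • star c * a)
    rw [mob, hw, lin_congr, lin_add]) hN

theorem stab_rot (t1 t2 : ℤ_[p]) (m : ℕ) (hN : ∀ μ ∈ N, μ ∘ₗ cmp k _ (lip_rot m) ∈ N) :
    ∀ μ ∈ N ⊔ N.map (mulF (lin t1 t2)).dualMap,
      μ ∘ₗ cmp k _ (lip_rot m) ∈ N ⊔ N.map (mulF (lin t1 t2)).dualMap :=
  stab_aux _ _ 0 (fun a => by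
    obtain ⟨w, hw⟩ := mul_inv_eq (a * (1 + (p : ℤ_[p]) • ((p : ℤ_[p]) ^ m • om E)))
      (-((p : ℤ_[p]) ^ m • om E))
    rw [rot, ← mul_assoc, hw, lin_congr, mul_add, mul_one, mul_smul_comm, lin_congr, add_zero]) hN

/-- iteration of the step. -/
theorem iterate {r t1 t2 : ℤ_[p]}
    (h : ∀ N : Submodule k (Dual k (Per k E)), Stab k r N → Van ω x0 y0 N →
      Van ω x0 y0 (N ⊔ N.map (mulF (lin t1 t2)).dualMap))
    (hS : Stab k r N) (hV : Van ω x0 y0 N) : ∃ N' : Submodule k (Dual k (Per k E)), N ≤ N' ∧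
      Stab k r N' ∧ Van ω x0 y0 N' ∧ ∀ μ ∈ N', μ ∘ₗ mulF (lin t1 t2) ∈ N' := by
  obtain ⟨m0, hm0⟩ := hS.rot
  let S : ℕ → Submodule k (Dual k (Per k E)) := fun j =>
    Nat.rec N (fun _ M => M ⊔ M.map (mulF (lin t1 t2)).dualMap) j
  have hmono : Monotone S := monotone_nat_of_le_succ fun _ => le_sup_left
  have h1 : ∀ j, (∀ c, ∀ μ ∈ S j, μ ∘ₗ cmp k _ (lip_mob r c) ∈ S j) ∧
      (∀ m, m0 ≤ m → ∀ μ ∈ S j, μ ∘ₗ cmp k _ (lip_rot m) ∈ S j) ∧ Van ω x0 y0 (S j) := by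
    intro j
    induction j with
    | zero => exact ⟨hS.mob, hm0, hV⟩
    | succ j ih =>
      exact ⟨fun c => stab_mob r t1 t2 c (ih.1 c), fun m hm => stab_rot t1 t2 m (ih.2.1 m hm),
        h _ ⟨ih.1, m0, ih.2.1⟩ ih.2.2⟩
  have h2 : ∀ μ, μ ∈ ⨆ j, S j ↔ ∃ j, μ ∈ S j := fun μ =>
    Submodule.mem_iSup_of_directed S hmono.directed_le
  refine ⟨⨆ j, S j, le_iSup S 0, ⟨fun c μ hμ => ?_, m0, fun m hm μ hμ => ?_⟩,
    fun e μ hμ => ?_, fun μ hμ => ?_⟩ <;> obtain ⟨j, hj⟩ := (h2 μ).mp hμ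
  · exact (h2 _).mpr ⟨j, (h1 j).1 c μ hj⟩
  · exact (h2 _).mpr ⟨j, (h1 j).2.1 m hm μ hj⟩
  · exact (h1 j).2.2 e μ hj
  · exact (h2 _).mpr ⟨j + 1, Submodule.mem_sup_right (Submodule.mem_map_of_mem hj)⟩

theorem core (hM : MobStmt p k) (hE : EvStmt p k) (h5 : 5 ≤ p) {c : ℕ} {D r : ℤ_[p]}
    (hD : E = (p : ℤ_[p]) ^ (2 * c) * D) (hS : Stab k r N) (x0 y0 : AlgebraicClosure k) (e : ℕ) :
    ∃ (m Q n : ℕ) (x y : Module.End k (Per k E)),
      Hm (p ^ (2 * c)) Q x0 y0 N 1 x ((x0 ^ p ^ (2 * c)) ^ p ^ m) ∧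
      Hm (p ^ (2 * c)) Q x0 y0 N 1 y (y0 ^ p ^ m) ∧ Commute x y ∧ e + Q * (1 + (p - 1)) < n ∧
      n ≤ Q + Q * (1 + (p - 1)) ∧ ∀ Z w, Hm (p ^ (2 * c)) Q x0 y0 N (p - 1) Z w → ∀ μ ∈ N,
        μ ∘ₗ ((mulF (s2 k E D) * x + mulF (s1 k E) * y) * Z -
          (mulF (s2 k E D) * x ^ p + mulF (s1 k E) * y ^ p)) ∈ N ⊔ Fil k E (p ^ (2 * c)) n := by
  obtain ⟨-, m2, m3, m4⟩ := hM h5 c D E hD
  obtain ⟨m0, hm0⟩ := hS.rot
  obtain ⟨P, hP⟩ : ∃ P, P = p ^ (2 * c) := ⟨_, rfl⟩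
  have hP1 : 1 ≤ P := hP ▸ Nat.one_le_pow _ _ hp.out.pos
  have hev := hE E P hP1 x0 y0
  obtain ⟨m, hm⟩ : ∃ m, m = m0 + e + 2 := ⟨_, rfl⟩
  obtain ⟨q, hq⟩ : ∃ q, q = p ^ (m + 1) := ⟨_, rfl⟩
  have hq1 : m + 1 < q := hq ▸ lt_p_pow _
  have hQ : e + 2 * P < P * q := by nlinarith
  have hx : Hm P (P * q) x0 y0 N 1 (Dp k (1 : Lam p E) ^ (P * q)) ((x0 ^ P) ^ q) := by
    have h1 := m2 r (2 * c + (m + 1))
    rw [pow_add p, ← hP, ← hq] at h1
    refine hm_of (hS.mob _) (by simpa only [one_mul] using low_pow low_one (P * q)) h1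
      fun e μ => ?_
    have h2 := val_pow (T := Dp k (1 : Lam p E)) (g := 1) (v := x0)
      (fun e μ => (hev e μ).2.1) (P * q) e μ
    rw [one_mul, pow_mul x0] at h2
    exact h2
  have hy : Hm P (P * q) x0 y0 N 1 (Dp k (om E) ^ q) (y0 ^ q) := by
    have h1 := m3 r (m + 1)
    rw [← hP, ← hq] at h1
    exact hm_of (hS.mob _) (low_pow low_om q) h1 (val_pow (fun e μ => (hev e μ).2.2) q)
  have hR : ∀ j, m0 ≤ j → ∀ μ ∈ N, μ ∘ₗ (mulF (s2 k E D) * Dp k (1 : Lam p E) ^ (P * p ^ (j + 1)) +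
      mulF (s1 k E) * Dp k (om E) ^ p ^ (j + 1)) ∈ N ⊔ Fil k E P (2 * (P * p ^ (j + 1) - P)) := by
    intro j hj μ hμ
    have h1 := fil_low (m4 j) (fil_zero μ)
    rw [← hP, zero_add] at h1
    have h2 := Submodule.add_mem_sup (sub_mem (hm0 j hj μ hμ) hμ) (neg_mem h1)
    convert h2 using 1
    simp only [LinearMap.comp_sub, LinearMap.comp_add, Module.End.one_eq_id, LinearMap.comp_id]
    abel
  obtain ⟨p', hp'⟩ : ∃ p', p = p' + 1 := ⟨p - 1, by omega⟩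
  have e1 : p - 1 = p' := by omega
  rw [← hP, e1]
  have hR0 := hR m (by omega)
  rw [← hq] at hR0
  refine ⟨m + 1, P * q, 2 * (P * q - P) + P * q * p', Dp k (1 : Lam p E) ^ (P * q),
    Dp k (om E) ^ q, by rw [← hq]; exact hx, by rw [← hq]; exact hy,
    ((Dp_comm _ _).pow_left _).pow_right _, by rw [mul_add]; omega, by rw [mul_add]; omega,
    fun Z w hZ μ hμ => ?_⟩
  rw [LinearMap.comp_sub]
  refine sub_mem (hZ.sup _ (P * q) (by omega) (by omega) _ (hR0 μ hμ) ?_) ?_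
  · rw [LinearMap.comp_add]
    have h1 := hx.fil 0 _ (fil_zero (μ ∘ₗ mulF (s2 k E D)))
    have h2 := hy.fil 0 _ (fil_zero (μ ∘ₗ mulF (s1 k E)))
    rw [zero_add, mul_one] at h1 h2
    exact add_mem h1 h2
  · have h1 := hR (m + 1) (by omega) μ hμ
    rw [pow_succ p (m + 1), ← hq, ← mul_assoc, pow_mul _ (P * q), pow_mul _ q] at h1
    refine sup_le_sup_left (fil_anti ?_) N h1
    have h2 : P * q * p = P * q * p' + P * q := by rw [hp', mul_add, mul_one]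
    omega

theorem algA {V : Type*} [AddCommGroup V] [Module k V] (l s : Module.End k V) (t β : k)
    (hβ : β ^ p = β) {x y : Module.End k V} (hxy : Commute x y) :
    l * (t • (x * (y - β • x) ^ (p - 1) - x ^ p)) =
      ((t • l - β • s) * x + s * y) * (y - β • x) ^ (p - 1) -
        ((t • l - β • s) * x ^ p + s * y ^ p) := by
  rcases subsingleton_or_nontrivial (Module.End k V) with h | h
  · exact Subsingleton.elim _ _
  have := charP_of_injective_algebraMap (algebraMap k (Module.End k V)).injective p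
  have h10 : (y - β • x) * (y - β • x) ^ (p - 1) = y ^ p - β • x ^ p := by
    rw [← pow_succ', Nat.sub_add_cancel hp.out.pos,
      sub_pow_char_of_commute _ (hxy.symm.smul_right _), smul_pow, hβ]
  have h11 := congrArg (s * ·) h10
  simp only [mul_sub, sub_mul, add_mul, mul_smul_comm, smul_mul_assoc, smul_sub, mul_assoc]
    at h11 ⊢
  rw [sub_eq_iff_eq_add] at h11
  rw [h11]
  abel

omit hp [CharP k p] in
theorem algB {V : Type*} [AddCommGroup V] [Module k V] (l s x y : Module.End k V) (t : k)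
    (hp : 0 < p) : l * (t • (y * x ^ (p - 1) - y ^ p)) =
      (s * x + (t • l) * y) * x ^ (p - 1) - (s * x ^ p + (t • l) * y ^ p) := by
  have h10 : x * x ^ (p - 1) = x ^ p := by rw [← pow_succ', Nat.sub_add_cancel hp]
  simp only [mul_sub, add_mul, mul_smul_comm, smul_mul_assoc, smul_sub, mul_assoc, h10]
  abel

end St

open St in
/-- row STEP. -/
theorem stepStmt (hM : MobStmt p k) (hE : EvStmt p k) : StepStmt p k := by
  intro h5 c D E r hD hED N x0 y0 h0 hS hV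
  have hev : ∀ e, ∀ μ ∈ Fil k E (p ^ (2 * c)) (e + 1), ev (p ^ (2 * c)) x0 y0 e μ = 0 :=
    fun e μ => (hE E _ (Nat.one_le_pow _ _ hp.out.pos) x0 y0 e μ).1
  have h2 : (2 : k) ≠ 0 := fun h => by
    have := Nat.le_of_dvd two_pos ((CharP.cast_eq_zero_iff k p 2).mp (by exact_mod_cast h))
    omega
  have e1 : 1 + (p - 1) = p := by omega
  obtain ⟨X, hX⟩ : ∃ X, X = x0 ^ p ^ (2 * c) := ⟨_, rfl⟩
  by_cases hA : y0 * X ^ (p - 1) - y0 ^ p = 0
  · have hx0 : x0 ≠ 0 := by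
      rintro rfl
      rw [hX, zero_pow (pow_ne_zero _ hp.out.ne_zero), zero_pow (by omega), mul_zero, zero_sub,
        neg_eq_zero, pow_eq_zero_iff hp.out.ne_zero] at hA
      exact h0.elim (fun h => h rfl) fun h => h hA
    have hX0 : X ≠ 0 := hX ▸ pow_ne_zero _ hx0
    have hβ : (y0 / X) ^ p = y0 / X := by
      rw [div_pow, div_eq_div_iff (pow_ne_zero _ hX0) hX0, ← sub_eq_zero.mp hA, mul_assoc,
        ← pow_succ, Nat.sub_add_cancel hp.out.pos]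
    have hβ' : ∀ m : ℕ, (y0 / X) ^ p ^ m = y0 / X := fun m => by
      induction m with
      | zero => rw [pow_zero, pow_one]
      | succ m ih => rw [pow_succ, pow_mul, ih, hβ]
    obtain ⟨b, hb⟩ := (mem_bot_iff_intCast p _).mp
      ((Subfield.mem_bot_iff_pow_eq_self _ p).mpr hβ)
    obtain ⟨u, rfl⟩ := hD
    have hbk : algebraMap k (AlgebraicClosure k) (rho k (b : ℤ_[p])) = y0 / X := by
      rw [map_intCast, map_intCast, hb]
    have hs : mulF (s2 k E u) = (2 * rho k (u : ℤ_[p])) • mulF (lin (b * ↑u⁻¹) 1) -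
        rho k (b : ℤ_[p]) • mulF (s1 k E) := LinearMap.ext fun F => Subtype.ext (funext fun a => by
      change 2 * rho k ↑u * rho k a.im * F.1 a = 2 * rho k ↑u * ((rho k (b * ↑u⁻¹) * rho k a.re +
        rho k 1 * rho k a.im) * F.1 a) - rho k b * (2 * rho k a.re * F.1 a)
      have h1 : rho k (u : ℤ_[p]) * rho k (↑u⁻¹ : ℤ_[p]) = 1 := by
        rw [← map_mul, Units.mul_inv, map_one]
      rw [map_mul, map_one]
      linear_combination (-2 * rho k (b : ℤ_[p]) * rho k a.re * F.1 a) * h1)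
    obtain ⟨N', h⟩ := iterate (t1 := b * ↑u⁻¹) (t2 := 1) (fun N hS hV => van_sup hev hV _ fun e => by
      obtain ⟨m, Q, n, x, y, hx, hy, hxy, h3, h4, h6⟩ := core hM hE h5 hED hS x0 y0 e
      have hπ := (hy.sub (hx.smul (rho k (b : ℤ_[p])))).pow (p - 1)
      refine ⟨Q, _, n, _, _, ?_, ((hx.mul hπ).sub ((hx.pow p).cast e1.symm)).smul
        (2 * rho k (u : ℤ_[p])), h3, h4, fun μ hμ => ?_⟩
      · have h7 : y0 ^ p ^ m - algebraMap k (AlgebraicClosure k) (rho k (b : ℤ_[p])) *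
            (x0 ^ p ^ (2 * c)) ^ p ^ m = 0 := by
          have h8 := hβ' m
          rw [hbk, ← hX, ← h8, ← mul_pow, div_mul_cancel₀ _ hX0, sub_self]
        rw [h7, zero_pow (by omega), mul_zero, zero_sub]
        refine mul_ne_zero ((map_ne_zero _).mpr (mul_ne_zero h2 (u.isUnit.map _).ne_zero))
          (neg_ne_zero.mpr (pow_ne_zero _ (pow_ne_zero _ (pow_ne_zero _ hx0))))
      · convert h6 _ _ hπ μ hμ using 1
        rw [LinearMap.comp_assoc, ← Module.End.mul_eq_comp, hs]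
        exact congrArg (μ ∘ₗ ·) (algA _ _ _ _ (rho_pow_p _) hxy)) hS hV
    exact ⟨_, _, N', .inr ⟨hx0, rfl⟩, h⟩
  · have hs : mulF (s1 k E) = (2 : k) • mulF (lin 1 0) :=
      LinearMap.ext fun F => Subtype.ext (funext fun a => by
        change 2 * rho k a.re * F.1 a =
          2 * ((rho k 1 * rho k a.re + rho k 0 * rho k a.im) * F.1 a)
        rw [map_one, map_zero]
        ring)
    obtain ⟨N', h⟩ := iterate (t1 := 1) (t2 := 0) (fun N hS hV => van_sup hev hV _ fun e => by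
      obtain ⟨m, Q, n, x, y, hx, hy, -, h3, h4, h6⟩ := core hM hE h5 hED hS x0 y0 e
      refine ⟨Q, _, n, _, _, ?_, ((hy.mul (hx.pow (p - 1))).sub ((hy.pow p).cast e1.symm)).smul 2,
        h3, h4, fun μ hμ => ?_⟩
      · refine mul_ne_zero ((map_ne_zero _).mpr h2) ?_
        rw [← hX, pow_right_comm, pow_right_comm y0, ← mul_pow, ← sub_pow_char_pow]
        exact pow_ne_zero _ hA
      · convert h6 _ _ (hx.pow (p - 1)) μ hμ using 1
        rw [LinearMap.comp_assoc, ← Module.End.mul_eq_comp, hs]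
        exact congrArg (μ ∘ₗ ·) (algB _ _ _ _ _ hp.out.pos)) hS hV
    exact ⟨_, _, N', .inl ⟨rfl, rfl⟩, h⟩

end

end Vale.Agent.P221X.RIG
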