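import Vale.Agent.P221X.RIG.Spec

/-!
# P221X, block RIG: the degree filtrations on functions
-/

namespace Vale.Agent.P221X.RIG

open Module

noncomputable section

variable {p : ℕ} [hp : Fact p.Prime] {k : Type*} [Field k] {E : ℤ_[p]} {ω : ℕ}

@[simp] theorem sh_apply (v : Lam p E) (F : Lam p E → k) (a : Lam p E) :
    sh k v F a = F (a + v) := rfl

@[simp] theorem dif_apply (v : Lam p E) (F : Lam p E → k) (a : Lam p E) :
    dif k v F a = F (a + v) - F a := rfl

theorem sh_mul (v w : Lam p E) : sh k v * sh k w = sh k (v + w) := by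
  ext1 F
  funext a
  simp only [Module.End.mul_apply, sh_apply, add_assoc]

theorem sh_zero : sh k (0 : Lam p E) = 1 := by
  ext1 F
  funext a
  simp only [sh_apply, add_zero, Module.End.one_apply]

theorem commute_sh (v w : Lam p E) : Commute (sh k v) (sh k w) := by
  rw [Commute, SemiconjBy, sh_mul, sh_mul, add_comm]

theorem commute_sh_dif (v w : Lam p E) : Commute (sh k v) (dif k w) :=
  (commute_sh v w).sub_right (Commute.one_right _)

theorem commute_dif (v w : Lam p E) : Commute (dif k v) (dif k w) :=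
  (commute_sh_dif v w).sub_left (Commute.one_left _)

theorem sh_eq (v : Lam p E) : sh k v = dif k v + 1 := by rw [dif, sub_add_cancel]

theorem sh_nsmul (n : ℕ) (v : Lam p E) : sh k (n • v) = sh k v ^ n := by
  induction n with
  | zero => rw [zero_smul, sh_zero, pow_zero]
  | succ n ih => rw [succ_nsmul, ← sh_mul, ih, pow_succ]

/-- the Newton formula. -/
theorem sh_nsmul_eq (n : ℕ) (v : Lam p E) :
    sh k (n • v) = ∑ j ∈ Finset.range (n + 1), (n.choose j : k) • dif k v ^ j := by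
  rw [sh_nsmul, sh_eq, (Commute.one_right _).add_pow]
  refine Finset.sum_congr rfl fun j _ => ?_
  rw [one_pow, mul_one, ← nsmul_eq_mul', Nat.cast_smul_eq_nsmul]

theorem mem_PolF {r : ℕ} {F : Lam p E → k} : F ∈ PolF k E ω r ↔ ∀ i j : ℕ, r ≤ i + ω * j →
    (dif k (1 : Lam p E) ^ i * dif k (om E) ^ j : Module.End k (Lam p E → k)) F = 0 := Iff.rfl

theorem mem_PolF_zero {F : Lam p E → k} : F ∈ PolF k E ω 0 ↔ F = 0 :=
  ⟨fun h => by simpa using h 0 0 (Nat.zero_le _), fun h => h ▸ zero_mem _⟩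

theorem PolF_mono {r s : ℕ} (h : r ≤ s) : PolF k E ω r ≤ PolF k E ω s :=
  fun _ hF i j hij => hF i j (h.trans hij)

theorem PolF.of_commute {r : ℕ} {F : Lam p E → k} (hF : F ∈ PolF k E ω r)
    {T : Module.End k (Lam p E → k)} (h1 : Commute T (dif k (1 : Lam p E)))
    (h2 : Commute T (dif k (om E))) : T F ∈ PolF k E ω r := fun i j h => by
  rw [← Module.End.mul_apply, ← ((h1.pow_right i).mul_right (h2.pow_right j)).eq,
    Module.End.mul_apply, hF i j h, map_zero]

theorem sh_mem {r : ℕ} {F : Lam p E → k} (hF : F ∈ PolF k E ω r) (v : Lam p E) :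
    sh k v F ∈ PolF k E ω r := PolF.of_commute hF (commute_sh_dif _ _) (commute_sh_dif _ _)

theorem dif_pow_mem {r : ℕ} {F : Lam p E → k} (hF : F ∈ PolF k E ω r) (i j : ℕ) :
    (dif k (1 : Lam p E) ^ i * dif k (om E) ^ j : Module.End k (Lam p E → k)) F ∈
      PolF k E ω (r - (i + ω * j)) := fun i' j' h => by
  have h1 : (dif k (1 : Lam p E) ^ i' * dif k (om E) ^ j') *
      (dif k (1 : Lam p E) ^ i * dif k (om E) ^ j) =
      dif k (1 : Lam p E) ^ (i' + i) * dif k (om E) ^ (j' + j) := by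
    rw [pow_add, pow_add, mul_assoc, mul_assoc, ← mul_assoc (dif k (om E) ^ j'),
      (((commute_dif (om E) 1).pow_left j').pow_right i).eq, mul_assoc]
  rw [← Module.End.mul_apply, h1]
  exact hF _ _ (by rw [mul_add]; omega)

theorem dif_one_pow_mem {r : ℕ} {F : Lam p E → k} (hF : F ∈ PolF k E ω r) (i : ℕ) :
    (dif k (1 : Lam p E) ^ i) F ∈ PolF k E ω (r - i) := by
  simpa using dif_pow_mem hF i 0

theorem dif_om_pow_mem {r : ℕ} {F : Lam p E → k} (hF : F ∈ PolF k E ω r) (j : ℕ) :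
    (dif k (om E) ^ j) F ∈ PolF k E ω (r - ω * j) := by
  simpa using dif_pow_mem hF 0 j

theorem dif_one_mem {r : ℕ} {F : Lam p E → k} (hF : F ∈ PolF k E ω r) :
    dif k (1 : Lam p E) F ∈ PolF k E ω (r - 1) := by
  simpa using dif_one_pow_mem hF 1

theorem dif_om_mem {r : ℕ} {F : Lam p E → k} (hF : F ∈ PolF k E ω r) :
    dif k (om E) F ∈ PolF k E ω (r - ω) := by
  simpa using dif_om_pow_mem hF 1

theorem mem_PolF_of_dif {r : ℕ} (hr : 1 ≤ r) {F : Lam p E → k}
    (h1 : dif k (1 : Lam p E) F ∈ PolF k E ω (r - 1))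
    (h2 : dif k (om E) F ∈ PolF k E ω (r - ω)) : F ∈ PolF k E ω r := by
  intro i j h
  rcases i with _ | i
  · rcases j with _ | j
    · simp at h; omega
    · rw [pow_succ (dif k (om E)), ← mul_assoc, Module.End.mul_apply]
      exact h2 0 j (by rw [mul_add] at h; omega)
  · rw [pow_succ, mul_assoc, ((commute_dif 1 (om E)).pow_right j).eq, ← mul_assoc,
      Module.End.mul_apply]
    exact h1 i j (by omega)

theorem dif_mul (v : Lam p E) (F G : Lam p E → k) :
    dif k v (F * G) = dif k v F * sh k v G + F * dif k v G := by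
  funext a
  simp only [dif_apply, sh_apply, Pi.mul_apply, Pi.add_apply]
  ring

theorem mul_mem_PolF_aux (hω : 1 ≤ ω) (n : ℕ) : ∀ (a b : ℕ) (F G : Lam p E → k), a + b ≤ n →
    F ∈ PolF k E ω a → G ∈ PolF k E ω b → F * G ∈ PolF k E ω (a + b - 1) := by
  induction n with
  | zero =>
    intro a b F G h hF _
    obtain rfl : a = 0 := by omega
    rw [mem_PolF_zero.1 hF, zero_mul]
    exact zero_mem _
  | succ n ih =>
    intro a b F G h hF hG
    rcases Nat.eq_zero_or_pos a with rfl | ha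
    · rw [mem_PolF_zero.1 hF, zero_mul]
      exact zero_mem _
    rcases Nat.eq_zero_or_pos b with rfl | hb
    · rw [mem_PolF_zero.1 hG, mul_zero]
      exact zero_mem _
    refine mem_PolF_of_dif (by omega) ?_ ?_
    · rw [dif_mul]
      refine add_mem (PolF_mono (by omega) (ih _ _ _ _ (by omega) (dif_one_mem hF) (sh_mem hG _)))
        (PolF_mono (by omega) (ih _ _ _ _ (by omega) hF (dif_one_mem hG)))
    · rw [dif_mul]
      refine add_mem ?_ ?_
      · rcases le_total a ω with h1 | h1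
        · have h2 := dif_om_mem hF
          rw [Nat.sub_eq_zero_of_le h1, mem_PolF_zero] at h2
          rw [h2, zero_mul]
          exact zero_mem _
        · exact PolF_mono (by omega) (ih _ _ _ _ (by omega) (dif_om_mem hF) (sh_mem hG _))
      · rcases le_total b ω with h1 | h1
        · have h2 := dif_om_mem hG
          rw [Nat.sub_eq_zero_of_le h1, mem_PolF_zero] at h2
          rw [h2, mul_zero]
          exact zero_mem _
        · exact PolF_mono (by omega) (ih _ _ _ _ (by omega) hF (dif_om_mem hG))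

theorem mul_mem_PolF (hω : 1 ≤ ω) {a b : ℕ} {F G : Lam p E → k} (hF : F ∈ PolF k E ω a)
    (hG : G ∈ PolF k E ω b) : F * G ∈ PolF k E ω (a + b - 1) :=
  mul_mem_PolF_aux hω _ a b F G le_rfl hF hG

/-- degree `≤ a` times degree `< b` has degree `< a + b`. -/
theorem mul_mem_PolF' (hω : 1 ≤ ω) {a b : ℕ} {F G : Lam p E → k} (hF : F ∈ PolF k E ω (a + 1))
    (hG : G ∈ PolF k E ω b) : F * G ∈ PolF k E ω (a + b) :=
  PolF_mono (by omega) (mul_mem_PolF hω hF hG)

theorem const_mem_PolF (hω : 1 ≤ ω) (c : k) : (fun _ : Lam p E => c) ∈ PolF k E ω 1 := by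
  refine mem_PolF_of_dif le_rfl ?_ ?_
  · rw [Nat.sub_self, mem_PolF_zero]
    funext a
    simp
  · rw [Nat.sub_eq_zero_of_le hω, mem_PolF_zero]
    funext a
    simp

/-! ### Periodic functions -/

theorem mem_Pol {r : ℕ} {F : Per k E} : F ∈ Pol k E ω r ↔ F.1 ∈ PolF k E ω r := Iff.rfl

theorem Pol_mono {r s : ℕ} (h : r ≤ s) : Pol k E ω r ≤ Pol k E ω s :=
  fun _ hF => PolF_mono h hF

theorem mem_Pol_zero {F : Per k E} : F ∈ Pol k E ω 0 ↔ F = 0 := by
  rw [mem_Pol, mem_PolF_zero]
  exact ⟨fun h => Subtype.ext h, fun h => h ▸ rfl⟩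

theorem Dp_val (v : Lam p E) (F : Per k E) : (Dp k v F).1 = dif k v F.1 := rfl

theorem Dp_pow_val (v : Lam p E) (n : ℕ) (F : Per k E) :
    ((Dp k v ^ n) F).1 = (dif k v ^ n) F.1 := by
  induction n with
  | zero => rfl
  | succ n ih => rw [pow_succ', pow_succ', Module.End.mul_apply, Module.End.mul_apply, Dp_val, ih]

theorem commute_Dp (v w : Lam p E) : Commute (Dp k v) (Dp k w) := by
  refine LinearMap.ext fun F => Subtype.ext ?_
  exact LinearMap.congr_fun (commute_dif (k := k) v w).eq F.1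

theorem mem_Fil {e : ℕ} {μ : Dual k (Per k E)} :
    μ ∈ Fil k E ω e ↔ ∀ F ∈ Pol k E ω e, μ F = 0 := Submodule.mem_dualAnnihilator μ

theorem Fil_anti {e e' : ℕ} (h : e ≤ e') : Fil k E ω e' ≤ Fil k E ω e :=
  Submodule.dualAnnihilator_anti (Pol_mono h)

theorem mem_Fil_zero (μ : Dual k (Per k E)) : μ ∈ Fil k E ω 0 :=
  mem_Fil.2 fun F hF => by rw [mem_Pol_zero.1 hF, map_zero]

namespace Low

variable {m n : ℕ} {S T : Module.End k (Per k E)}

theorem apply (h : Low k ω m T) {r : ℕ} {F : Per k E} (hF : F ∈ Pol k E ω r) :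
    T F ∈ Pol k E ω (r - m) := h _ _ (Pol_mono (by omega) hF)

theorem of_apply (h : ∀ (r : ℕ) (F : Per k E), F ∈ Pol k E ω r → T F ∈ Pol k E ω (r - m)) :
    Low k ω m T := fun r F hF => by simpa using h _ F hF

theorem mono (h : Low k ω m T) (hn : n ≤ m) : Low k ω n T :=
  fun _ _ hF => Pol_mono (by omega) (h.apply hF)

theorem mul (hS : Low k ω m S) (hT : Low k ω n T) : Low k ω (m + n) (S * T) :=
  fun r F hF => hS r _ (hT _ F (by rwa [add_assoc]))

theorem add (hS : Low k ω m S) (hT : Low k ω m T) : Low k ω m (S + T) :=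
  fun r F hF => add_mem (hS r F hF) (hT r F hF)

theorem neg (hT : Low k ω m T) : Low k ω m (-T) := fun r F hF => neg_mem (hT r F hF)

theorem sub (hS : Low k ω m S) (hT : Low k ω m T) : Low k ω m (S - T) :=
  fun r F hF => sub_mem (hS r F hF) (hT r F hF)

theorem smul (c : k) (hT : Low k ω m T) : Low k ω m (c • T) :=
  fun r F hF => Submodule.smul_mem _ c (hT r F hF)

theorem zero : Low k ω m (0 : Module.End k (Per k E)) := fun _ _ _ => zero_mem _

theorem one : Low k ω 0 (1 : Module.End k (Per k E)) := fun _ _ hF => hF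

theorem pow (hT : Low k ω m T) (j : ℕ) : Low k ω (m * j) (T ^ j) := by
  induction j with
  | zero => exact one
  | succ j ih => rw [pow_succ, Nat.mul_succ]; exact ih.mul hT

/-- the dual operator raises the filtration. -/
theorem fil (hT : Low k ω m T) {e : ℕ} {μ : Dual k (Per k E)} (hμ : μ ∈ Fil k E ω e) :
    μ ∘ₗ T ∈ Fil k E ω (e + m) :=
  mem_Fil.2 fun F hF => mem_Fil.1 hμ _ (hT e F hF)

end Low

theorem low_Dp_one : Low k ω 1 (Dp k (1 : Lam p E)) :=
  Low.of_apply fun _ _ hF => dif_one_mem hF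

theorem low_Dp_om : Low k ω ω (Dp k (om E)) :=
  Low.of_apply fun _ _ hF => dif_om_mem hF

theorem low_Dp_one_pow (i : ℕ) : Low k ω i (Dp k (1 : Lam p E) ^ i) := by
  simpa using (low_Dp_one (k := k) (E := E) (ω := ω)).pow i

theorem low_Dp_om_pow (j : ℕ) : Low k ω (ω * j) (Dp k (om E) ^ j) := low_Dp_om.pow j

theorem low_shift (c : Lam p E) : Low k ω 0 (cmp k _ (lip_add c)) :=
  fun _ _ hF => sh_mem hF c

variable [CharP k p]

theorem om_re : (om E).re = 0 := rfl
theorem om_im : (om E).im = 1 := rfl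

theorem Dp_one_Bf_succ (i j : ℕ) : Dp k (1 : Lam p E) (Bf k E (i + 1) j) = Bf k E i j := by
  refine Subtype.ext (funext fun a => ?_)
  rw [Dp_val, dif_apply, Bf_apply, Bf_apply, Bf_apply, QuadraticAlgebra.re_add,
    QuadraticAlgebra.im_add, QuadraticAlgebra.re_one, QuadraticAlgebra.im_one, add_zero, ch_add_one]
  ring

theorem Dp_one_Bf_zero (j : ℕ) : Dp k (1 : Lam p E) (Bf k E 0 j) = 0 := by
  refine Subtype.ext (funext fun a => ?_)
  rw [Dp_val, dif_apply, Bf_apply, Bf_apply, QuadraticAlgebra.im_add, QuadraticAlgebra.im_one,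
    add_zero, ch_zero_right, ch_zero_right, sub_self]
  rfl

theorem Dp_om_Bf_succ (i j : ℕ) : Dp k (om E) (Bf k E i (j + 1)) = Bf k E i j := by
  refine Subtype.ext (funext fun a => ?_)
  rw [Dp_val, dif_apply, Bf_apply, Bf_apply, Bf_apply, QuadraticAlgebra.re_add,
    QuadraticAlgebra.im_add, om_re, om_im, add_zero, ch_add_one]
  ring

theorem Dp_om_Bf_zero (i : ℕ) : Dp k (om E) (Bf k E i 0) = 0 := by
  refine Subtype.ext (funext fun a => ?_)
  rw [Dp_val, dif_apply, Bf_apply, Bf_apply, QuadraticAlgebra.re_add, om_re,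
    add_zero, ch_zero_right, ch_zero_right, sub_self]
  rfl

theorem Bf_zero_apply (i j : ℕ) :
    (Bf k E i j).1 0 = if i = 0 ∧ j = 0 then 1 else 0 := by
  rw [Bf_apply, QuadraticAlgebra.re_zero, QuadraticAlgebra.im_zero, ch_zero_left, ch_zero_left]
  by_cases hi : i = 0 <;> by_cases hj : j = 0 <;> simp [hi, hj]

theorem Bf_zero_zero : Bf k E 0 0 = 1 := by
  refine Subtype.ext (funext fun a => ?_)
  rw [Bf_apply, ch_zero_right, ch_zero_right, mul_one]
  rfl

end

end Vale.Agent.P221X.RIG
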