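import Vale.Agent.P221X.RIG.Spec
import Vale.Agent.P221X.RIG.Pol

/-!
# P221X, block RIG: row VAN
-/

namespace Vale.Agent.P221X.RIG

open Module Polynomial

noncomputable section

variable {p : ℕ} [hp : Fact p.Prime] {k : Type*} [Field k] [CharP k p] {E : ℤ_[p]} {ω e : ℕ}

namespace Van

omit hp in
theorem mem_Sl (hω : 1 ≤ ω) {ij : ℕ × ℕ} : ij ∈ Sl ω e ↔ ij.1 + ω * ij.2 = e := by
  simp only [Sl, Finset.mem_filter, Finset.mem_product, Finset.mem_range, and_iff_right_iff_imp]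
  intro h
  have := Nat.le_mul_of_pos_left ij.2 hω
  omega

/-- the symbol as a linear map -/
def evL {L : Type*} [CommRing L] [Algebra k L] (ω : ℕ) (x0 y0 : L) (e : ℕ) :
    Dual k (Per k E) →ₗ[k] L where
  toFun := ev ω x0 y0 e
  map_add' μ ν := by simp [ev, add_mul, Finset.sum_add_distrib]
  map_smul' c μ := by simp [ev, Finset.mul_sum, Algebra.smul_def, mul_assoc]

theorem aeval_evL (y : AlgebraicClosure k) (μ : Dual k (Per k E)) :
    aeval y (evL ω (1 : k[X]) X e μ) = ev ω 1 y e μ := by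
  change aeval y (ev ω 1 X e μ) = _
  simp [ev]

theorem evL_eq (μ : Dual k (Per k E)) :
    evL ω (1 : k[X]) X e μ = ∑ ij ∈ Sl ω e, μ (Bf k E ij.1 ij.2) • X ^ ij.2 := by
  change ev ω 1 X e μ = _
  simp [ev, Algebra.smul_def]

theorem coeff_evL (hω : 1 ≤ ω) (μ : Dual k (Per k E)) {i j : ℕ} (h : i + ω * j = e) :
    (evL ω (1 : k[X]) X e μ).coeff j = μ (Bf k E i j) := by
  rw [evL_eq, finsetSum_coeff, Finset.sum_eq_single_of_mem (i, j) ((mem_Sl hω).2 h)]
  · simp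
  · rintro ⟨a, b⟩ h1 h2
    rw [mem_Sl hω] at h1
    rw [coeff_smul, coeff_X_pow, if_neg, smul_zero]
    rintro rfl
    exact h2 (Prod.ext (Nat.add_right_cancel (h1.trans h.symm)) rfl)

omit hp [CharP k p] in
theorem poly_ext {f g : k[X]} (h : ∀ y : AlgebraicClosure k, aeval y f = aeval y g) : f = g :=
  map_injective _ (algebraMap k (AlgebraicClosure k)).injective
    (Polynomial.funext fun y => by simpa only [eval_map_algebraMap] using h y)

omit hp [CharP k p] in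
/-- duality on a finite dimensional subspace -/
theorem mem_sup {V : Type*} [AddCommGroup V] [Module k V] (N : Submodule k (Dual k V))
    (W : Submodule k V) [FiniteDimensional k W] {l : Dual k V}
    (h : ∀ F ∈ W, F ∈ N.dualCoannihilator → l F = 0) : ∃ μ ∈ N, l - μ ∈ W.dualAnnihilator := by
  have h1 : W.dualRestrict l ∈ N.map W.dualRestrict := by
    rw [← Subspace.dualCoannihilator_dualAnnihilator_eq (W := N.map _),
      Submodule.mem_dualAnnihilator]
    exact fun w hw => h w w.2 ((Submodule.mem_dualCoannihilator _).2 fun φ hφ =>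
      (Submodule.mem_dualCoannihilator _).1 hw _ ⟨φ, hφ, rfl⟩)
  obtain ⟨μ, hμ, h2⟩ := h1
  exact ⟨μ, hμ, (Submodule.mem_dualAnnihilator _).2 fun w hw =>
    sub_eq_zero.2 (LinearMap.congr_fun h2 ⟨w, hw⟩).symm⟩

theorem fin_Pol (hS : SpanStmt p k) (hω : 1 ≤ ω) (r : ℕ) : FiniteDimensional k (Pol k E ω r) := by
  rw [(hS E ω hω).1]
  refine FiniteDimensional.span_of_finite k (((Set.finite_lt_nat r).prod
    (Set.finite_lt_nat r)).image (fun z : ℕ × ℕ => Bf k E z.1 z.2) |>.subset ?_)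
  rintro _ ⟨i, j, h, rfl⟩
  have := Nat.le_mul_of_pos_left j hω
  exact ⟨(i, j), ⟨by simp only [Set.mem_ofPred_eq]; omega, by simp only [Set.mem_ofPred_eq]; omega⟩,
    rfl⟩

theorem not_big (hS : SpanStmt p k) (hE : EvStmt p k) (hω : 1 ≤ ω)
    {N : Submodule k (Dual k (Per k E))} {x0 y0 : AlgebraicClosure k} (h0 : x0 ≠ 0 ∨ y0 ≠ 0)
    (hV : Van ω x0 y0 N) : ¬Big N := fun hB => by
  obtain ⟨r, hr⟩ : ∃ r, N.dualCoannihilator ≤ Pol k E ω r := by
    obtain ⟨s, hs⟩ := (Submodule.fg_iff_finiteDimensional _).2 hB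
    choose d hd using (hS E ω hω).2
    exact ⟨s.sup d, hs ▸ Submodule.span_le.2 fun F hF => Pol_mono (Finset.le_sup hF) (hd F)⟩
  have key : ∀ e, r ≤ e → ∀ l ∈ Fil k E ω e, ev ω x0 y0 e l = 0 := fun e he l hl => by
    have := fin_Pol (E := E) hS hω (e + 1)
    obtain ⟨μ, h1, h2⟩ := mem_sup N (Pol k E ω (e + 1)) (l := l) fun F _ hF =>
      mem_Fil.1 hl F (Pol_mono he (hr hF))
    have h3 := (evL ω x0 y0 e).map_add (l - μ) μ
    rw [sub_add_cancel] at h3
    refine h3.trans ((congrArg₂ _ ((hE E ω hω x0 y0 e _).1 h2) (hV e μ h1 ?_)).trans (add_zero _))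
    simpa using sub_mem hl (Fil_anti e.le_succ h2)
  obtain ⟨l, hl⟩ : ∃ l : Dual k (Per k E), ev ω x0 y0 0 l = 1 :=
    ⟨(LinearMap.proj 0).comp (Per k E).val.toLinearMap, by
      simp [ev, Sl, Finset.filter_singleton, Bf_zero_zero]⟩
  have step : ∀ (m : ℕ) (z : AlgebraicClosure k) (T : Module.End k (Per k E)), z ≠ 0 → 1 ≤ m →
      Low k ω m T → ¬∀ e μ, ev ω x0 y0 (e + m) (μ ∘ₗ T) = z * ev ω x0 y0 e μ :=
    fun m z T hz hm hT h => by
      have h1 : ∀ j, ∃ μ ∈ Fil k E ω (m * j), ev ω x0 y0 (m * j) μ ≠ 0 := fun j => by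
        induction j with
        | zero => exact ⟨l, mem_Fil_zero l, by rw [mul_zero, hl]; exact one_ne_zero⟩
        | succ j ih =>
          obtain ⟨μ, h2, h3⟩ := ih
          exact ⟨μ ∘ₗ T, hT.fil h2, by rw [Nat.mul_succ, h]; exact mul_ne_zero hz h3⟩
      obtain ⟨μ, h2, h3⟩ := h1 r
      exact h3 (key _ (Nat.le_mul_of_pos_left r hm) μ h2)
  rcases h0 with h0 | h0
  · exact step 1 x0 _ h0 le_rfl low_Dp_one fun e μ => (hE E ω hω x0 y0 e μ).2.1
  · exact step ω y0 _ h0 hω low_Dp_om fun e μ => (hE E ω hω x0 y0 e μ).2.2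

theorem big (hS : SpanStmt p k) (hE : EvStmt p k) (hω : 1 ≤ ω)
    {N : Submodule k (Dual k (Per k E))} {S T : Module.End k (Per k E)}
    (hX : ∀ μ ∈ N, μ ∘ₗ S ∈ N) (hY : ∀ μ ∈ N, μ ∘ₗ T ∈ N) (lX : Low k ω 2 (S - Dp k (1 : Lam p E)))
    (lY : Low k ω (ω + 1) (T - Dp k (om E))) (h1 : ∀ y, ¬Van ω (1 : AlgebraicClosure k) y N)
    (h2 : ¬Van ω (0 : AlgebraicClosure k) 1 N) : Big N := by
  obtain ⟨A, hA⟩ : ∃ A : ℕ → Submodule k k[X], ∀ e f, f ∈ A e ↔
      ∃ μ, (μ ∈ N ∧ μ ∈ Fil k E ω e) ∧ evL ω (1 : k[X]) X e μ = f :=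
    ⟨fun e => (N ⊓ Fil k E ω e).map (evL ω 1 X e), fun _ _ => Iff.rfl⟩
  have step : ∀ (m : ℕ) (z : k[X]) (S T : Module.End k (Per k E)), (∀ μ ∈ N, μ ∘ₗ S ∈ N) →
      Low k ω (m + 1) (S - T) → Low k ω m T → (∀ y : AlgebraicClosure k, ∀ e μ,
        ev ω 1 y (e + m) (μ ∘ₗ T) = aeval y z * ev ω 1 y e μ) →
      ∀ e, ∀ f ∈ A e, z * f ∈ A (e + m) := fun m z S T a1 a2 a3 a4 e f hf => by
    obtain ⟨μ, ⟨b1, b2⟩, rfl⟩ := (hA _ _).1 hf
    have b3 : μ ∘ₗ S = μ ∘ₗ (S - T) + μ ∘ₗ T := by rw [LinearMap.comp_sub, sub_add_cancel]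
    refine (hA _ _).2 ⟨μ ∘ₗ S, ⟨a1 μ b1, b3 ▸ add_mem ((a2.mono m.le_succ).fil b2) (a3.fil b2)⟩,
      poly_ext fun y => ?_⟩
    rw [b3, map_add, map_add, map_mul, aeval_evL, aeval_evL, aeval_evL, a4,
      (hE E ω hω 1 y (e + m) _).1 (a2.fil b2), zero_add]
  have mono : Monotone A := monotone_nat_of_le_succ fun e f hf => one_mul f ▸ step 1 1 S _ hX lX
    low_Dp_one (fun y e μ => by rw [map_one, (hE E ω hω 1 y e μ).2.1]) e f hf
  have mulX := step ω X T _ hY lY low_Dp_om fun y e μ => by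
    rw [aeval_X, (hE E ω hω 1 y e μ).2.2]
  have powX : ∀ l e, ∀ f ∈ A e, X ^ l * f ∈ A (e + ω * l) := fun l e f hf => by
    induction l with
    | zero => simpa using hf
    | succ l ih =>
      rw [pow_succ', mul_assoc, Nat.mul_succ, ← add_assoc]
      exact mulX _ _ ih
  obtain ⟨e0, h0⟩ : ∃ e, 1 ∈ A e := by
    let I : Ideal k[X] :=
      { carrier := {f | ∃ e, f ∈ A e}
        zero_mem' := ⟨0, zero_mem _⟩
        add_mem' := fun ⟨a, ha⟩ ⟨b, hb⟩ =>
          ⟨a + b, add_mem (mono (by omega) ha) (mono (by omega) hb)⟩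
        smul_mem' := fun c f ⟨a, ha⟩ => by
          refine ⟨a + ω * c.natDegree, ?_⟩
          rw [smul_eq_mul]
          nth_rewrite 2 [c.as_sum_range_C_mul_X_pow]
          rw [Finset.sum_mul]
          refine sum_mem fun i hi => ?_
          rw [mul_assoc, ← smul_eq_C_mul]
          exact Submodule.smul_mem _ _ (mono (Nat.add_le_add_left (Nat.mul_le_mul_left _
            (Nat.le_of_lt_succ (Finset.mem_range.1 hi))) _) (powX i a f ha)) }
    obtain ⟨g, hg⟩ := (IsPrincipalIdealRing.principal I).1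
    by_contra hc
    obtain ⟨y, hy⟩ := IsAlgClosed.exists_aeval_eq_zero (AlgebraicClosure k) g fun h => hc (by
      have := Ideal.span_singleton_eq_top.2 (isUnit_iff_degree_eq_zero.2 h)
      exact (Ideal.eq_top_iff_one I).1 (hg.trans this))
    refine h1 y fun e μ a1 a2 => ?_
    obtain ⟨c, hc⟩ := Ideal.mem_span_singleton'.1
      (hg.le (show _ ∈ I from ⟨e, (hA _ _).2 ⟨μ, ⟨a1, a2⟩, rfl⟩⟩))
    rw [← aeval_evL, ← hc, map_mul, hy, mul_zero]
  obtain ⟨j, μ, m1, m2, m3⟩ : ∃ j, ∃ μ ∈ N, μ ∈ Fil k E ω (ω * j) ∧ μ (Bf k E 0 j) ≠ 0 := by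
    simp only [Van, not_forall] at h2
    obtain ⟨e, μ, a1, a2, a3⟩ := h2
    obtain ⟨⟨i, j⟩, a4, a5⟩ := Finset.exists_ne_zero_of_sum_ne_zero a3
    rw [mem_Sl hω] at a4
    obtain rfl : i = 0 := by
      by_contra c
      simp [c] at a5
    exact ⟨j, μ, a1, by rwa [← a4, zero_add] at a2, fun c => a5 (by simp [c])⟩
  have all : ∀ e, e0 + ω * j ≤ e → ∀ l, ω * l ≤ e → X ^ l ∈ A e := fun e he l => by
    induction l using Nat.strong_induction_on with
    | _ l ih =>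
    intro hl
    rcases le_total l j with c | c
    · exact mul_one (X ^ l : k[X]) ▸ mono
        (he.trans' (Nat.add_le_add_left (Nat.mul_le_mul_left _ c) _)) (powX l _ _ h0)
    obtain ⟨d, rfl⟩ := Nat.exists_eq_add_of_le c
    have a1 := mono (mul_add ω j d ▸ hl) (powX d _ _ ((hA _ _).2 ⟨μ, ⟨m1, m2⟩, rfl⟩))
    rw [evL_eq, ← Finset.add_sum_erase _ _ ((mem_Sl (ij := (0, j)) hω).2 (zero_add _)), mul_add,
      Finset.mul_sum, Submodule.add_mem_iff_left _ (sum_mem fun z hz => ?_), mul_smul_comm,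
      Submodule.smul_mem_iff _ m3, ← pow_add, add_comm] at a1
    · exact a1
    · obtain ⟨a2, a3⟩ := Finset.mem_erase.1 hz
      replace a3 : z.1 + ω * z.2 = ω * j := (mem_Sl hω).1 a3
      have a4 : z.2 < j := lt_of_le_of_ne (Nat.le_of_mul_le_mul_left (by omega) hω) fun c =>
        a2 (Prod.ext (by rw [c] at a3; omega) c)
      rw [mul_smul_comm, ← pow_add]
      exact Submodule.smul_mem _ _ (ih _ (by omega)
        (hl.trans' (Nat.mul_le_mul_left _ (by omega))))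
  have up : ∀ e, e0 + ω * j ≤ e → Fil k E ω (e0 + ω * j) ≤ N ⊔ Fil k E ω e := fun e he => by
    induction e, he using Nat.le_induction with
    | base => exact le_sup_right
    | succ e he ih =>
      refine ih.trans (sup_le le_sup_left fun l hl => ?_)
      obtain ⟨ν, ⟨a1, a2⟩, a3⟩ := (hA e _).1 (evL_eq l ▸ sum_mem fun z hz => Submodule.smul_mem _ _
        (all e he _ ((Nat.le_add_left _ _).trans_eq ((mem_Sl hω).1 hz))))
      refine Submodule.mem_sup.2 ⟨ν, a1, l - ν, ?_, add_sub_cancel _ _⟩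
      rw [Fil, (hS E ω hω).1, Submodule.mem_dualAnnihilator]
      refine fun F hF => Submodule.span_le (p := LinearMap.ker (l - ν)).2 ?_ hF
      rintro _ ⟨a, b, a4, rfl⟩
      rcases (Nat.le_of_lt_succ a4).eq_or_lt with c | c
      · exact sub_eq_zero.2 ((coeff_evL hω l c).symm.trans (a3 ▸ coeff_evL hω ν c))
      · exact mem_Fil.1 (sub_mem hl a2) _
          ((hS E ω hω).1 e ▸ Submodule.subset_span ⟨a, b, c, rfl⟩)
  have := fin_Pol (E := E) hS hω (e0 + ω * j)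
  refine Submodule.finiteDimensional_of_le (S₂ := Pol k E ω (e0 + ω * j)) fun F hF => ?_
  rw [← Subspace.dualAnnihilator_dualCoannihilator_eq (W := Pol k E ω _),
    Submodule.mem_dualCoannihilator]
  intro l hl
  obtain ⟨r, hr⟩ := (hS E ω hω).2 F
  obtain ⟨a, a1, b, a2, rfl⟩ := Submodule.mem_sup.1 (up _ (Nat.le_add_right _ r) hl)
  rw [LinearMap.add_apply, (Submodule.mem_dualCoannihilator _).1 hF a a1,
    mem_Fil.1 a2 F (Pol_mono (Nat.le_add_left _ _) hr), add_zero]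

end Van

theorem vanStmt (hS : SpanStmt p k) (hE : EvStmt p k) : VanStmt p k := fun _ _ hω _ =>
  ⟨fun _ _ => Van.not_big hS hE hω, fun _ _ hX hY lX lY h => by
    by_contra! c
    exact h (Van.big hS hE hω hX hY lX lY (fun y => c 1 y (.inl one_ne_zero))
      (c 0 1 (.inr one_ne_zero)))⟩

end

end Vale.Agent.P221X.RIG
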