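import Vale.Agent.P221X.RIG.Mob
import Vale.Agent.P221X.RIG.Span
import Vale.Agent.P221X.RIG.Van
import Vale.Agent.P221X.RIG.Step
import Vale.Agent.P221X.RIG.Desc
import Vale.Agent.P221X.RIG.LR
import Vale.Agent.P221X.NC.SB
import Vale.Agent.P221X.DEP.Main

/-!
# P221X, block RIG: the theorem (J) and the two rigidity rows
-/

namespace Vale.Agent.P221X.RIG

/-- the theorem (J). -/
theorem jStmt (p : ℕ) [Fact p.Prime] (k : Type*) [Field k] [CharP k p] : JStmt p k :=
  descStmt mobStmt (spanStmt p k) (evStmt p k) (vanStmt (spanStmt p k) (evStmt p k))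
    (stepStmt mobStmt (evStmt p k))

variable {p : ℕ} [Fact p.Prime] {F : Type} [Field F] [CharP F p] {D : GD p F} {R : Type}
  [Ring R] [Algebra F R]

/-- rigidity on both sides. -/
theorem rowRIG (S : RD D R) (h5 : 5 ≤ p) (X : Nonempty (GDX D)) : RowRIGL S ∧ RowRIGR S :=
  X.elim fun X => rigLR S h5 (jStmt p F) X (rowDEP D) S.toFRing.rowSB S.toFRing.opp.rowSB

end Vale.Agent.P221X.RIG
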