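import Vale.Agent.P221X.RIG.Taylor

/-!
# P221X, block RIG: estimates for the Moebius maps and the rotations (row MOB)
-/

namespace Vale.Agent.P221X.RIG

open Module

noncomputable section

variable {p : ℕ} [hp : Fact p.Prime] {k : Type*} [Field k] [CharP k p] {E : ℤ_[p]} {w : ℕ}

omit [CharP k p] in
theorem Low.congr {ω m : ℕ} {S T : Module.End k (Per k E)} (h : Low k ω m T)
    (hT : ∀ F, S F = T F) : Low k ω m S := fun r F hF => by rw [hT]; exact h r F hF

variable (k) in
/-- growth of the two coordinates of a map, for the weight `w + 1`. -/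
def GrL (w e : ℕ) (f : Lam p E → Lam p E) : Prop :=
  Gr k (w + 1) e (fun a => (f a).re) ∧ Gr k (w + 1) (e + w) (fun a => (f a).im)

namespace GrL

variable {e e' : ℕ} {f f' : Lam p E → Lam p E}

theorem id : GrL k w 1 (fun a : Lam p E => a) :=
  ⟨Gr.re (by omega), (Gr.im (by omega)).mono (by omega)⟩

theorem const (b : Lam p E) : GrL k w e (fun _ : Lam p E => b) :=
  ⟨Gr.const (by omega) _, Gr.const (by omega) _⟩

theorem add (h : GrL k w e f) (h' : GrL k w e f') : GrL k w e (fun a => f a + f' a) :=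
  ⟨h.1.add (by omega) h'.1, h.2.add (by omega) h'.2⟩

theorem p_smul (h : GrL k w (e + 1) f) (he : 1 ≤ e) : GrL k w e (fun a => (p : ℤ_[p]) • f a) := by
  have h2 := hp.out.two_le
  exact ⟨h.1.p_mul (by nlinarith), h.2.p_mul (by nlinarith)⟩

theorem lim (h : ∀ n : ℕ, ∃ f' : Lam p E → Lam p E, GrL k w e f' ∧
    ∀ a, ∃ b, f a = f' a + (p : ℤ_[p]) ^ n • b) : GrL k w e f := by
  refine ⟨Gr.lim fun n => ?_, Gr.lim fun n => ?_⟩
  · obtain ⟨f', h1, h2⟩ := h n
    refine ⟨_, h1.1, fun a => ?_⟩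
    obtain ⟨b, hb⟩ := h2 a
    exact ⟨b.re, by simp [hb]⟩
  · obtain ⟨f', h1, h2⟩ := h n
    refine ⟨_, h1.2, fun a => ?_⟩
    obtain ⟨b, hb⟩ := h2 a
    exact ⟨b.im, by simp [hb]⟩

variable {c : ℕ} {D : ℤ_[p]} (hE : E = (p : ℤ_[p]) ^ (2 * c) * D) (hw : w + 1 ≤ p ^ (2 * c))

include hE hw

theorem mul (h : GrL k w e f) (h' : GrL k w e' f') (he : 2 ≤ e + e') :
    GrL k w (e + e') (fun a => f a * f' a) := by
  have hω : 1 ≤ w + 1 := by omega
  constructor
  · have h1 := ((h.2.mul hω h'.2).const_mul hω D).pow_mul (e' := e + e') (2 * c) (by nlinarith)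
    refine ((h.1.mul hω h'.1).add hω h1).congr fun a => ?_
    rw [QuadraticAlgebra.re_mul]
    linear_combination ((f a).im * (f' a).im) * hE
  · refine (((h.1.mul hω h'.2).mono (by omega)).add hω
      ((h.2.mul hω h'.1).mono (e' := e + e' + w) (by omega))).congr fun a => ?_
    rw [QuadraticAlgebra.im_mul]
    ring

theorem const_mul (b : Lam p E) (h : GrL k w e f) (he : 1 ≤ e) :
    GrL k w e (fun a => b * f a) := by
  have hω : 1 ≤ w + 1 := by omega
  constructor
  · have h1 := (h.2.const_mul hω (D * b.im)).pow_mul (e' := e) (2 * c) (by nlinarith)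
    refine ((h.1.const_mul hω b.re).add hω h1).congr fun a => ?_
    rw [QuadraticAlgebra.re_mul]
    linear_combination (b.im * (f a).im) * hE
  · refine ((h.2.const_mul hω b.re).add hω
      ((h.1.const_mul hω b.im).mono (e' := e + w) (by omega))).congr fun a => ?_
    rw [QuadraticAlgebra.im_mul]
    ring

end GrL

/-- the nonlinear part of the Moebius map. -/
def Phi (r : ℤ_[p]) (b a : Lam p E) : Lam p E :=
  a * (a + b) * Ring.inverse (1 + (p : ℤ_[p]) • (r • star b * a))

theorem mob_eq (r : ℤ_[p]) (b a : Lam p E) :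
    mob r b a = a + (p : ℤ_[p]) • (-(r • star b) * Phi r b a) + b := by
  have h1 := Ring.mul_inverse_cancel _ (isUnit_one_add (r • star b * a))
  unfold mob Phi
  generalize Ring.inverse (1 + (p : ℤ_[p]) • (r • star b * a)) = i at h1 ⊢
  generalize r • star b = x at h1 ⊢
  rw [Algebra.smul_def] at h1 ⊢
  linear_combination (a + b) * h1

theorem grL_Phi {c : ℕ} {D : ℤ_[p]} (hE : E = (p : ℤ_[p]) ^ (2 * c) * D)
    (hw : w + 1 ≤ p ^ (2 * c)) (r : ℤ_[p]) (b : Lam p E) : GrL k w 2 (Phi r b) := by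
  obtain ⟨x, hx⟩ : ∃ x, x = r • star b := ⟨_, rfl⟩
  have h0 : GrL k w 2 (fun a : Lam p E => a * (a + b)) :=
    GrL.mul hE hw GrL.id (GrL.id.add (GrL.const b)) le_rfl
  have h1 : ∀ j : ℕ, GrL k w 2
      (fun a : Lam p E => ((p : ℤ_[p]) • (-x * a)) ^ j * (a * (a + b))) := by
    intro j
    induction j with
    | zero => simpa only [pow_zero, one_mul] using h0
    | succ j ih =>
      have h2 := (GrL.mul hE hw (GrL.const_mul hE hw (-x) GrL.id le_rfl) ih (by omega)).p_smul
        (e := 2) (by omega)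
      convert h2 using 2 with a
      rw [pow_succ', mul_assoc, smul_mul_assoc]
  have h2 : ∀ n : ℕ, GrL k w 2 (fun a : Lam p E =>
      ∑ j ∈ Finset.range n, ((p : ℤ_[p]) • (-x * a)) ^ j * (a * (a + b))) := by
    intro n
    induction n with
    | zero => simpa only [Finset.sum_range_zero] using GrL.const 0
    | succ n ih => simpa only [Finset.sum_range_succ] using ih.add (h1 n)
  refine GrL.lim fun n => ⟨_, h2 n, fun a => ⟨(-x * a) ^ n * Phi r b a, ?_⟩⟩
  have h3 := Ring.mul_inverse_cancel _ (isUnit_one_add (x * a))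
  unfold Phi
  rw [← hx, ← smul_mul_assoc ((p : ℤ_[p]) ^ n), ← smul_pow, ← Finset.sum_mul]
  generalize Ring.inverse (1 + (p : ℤ_[p]) • (x * a)) = i at h3 ⊢
  have h4 : (p : ℤ_[p]) • (x * a) = -((p : ℤ_[p]) • (-x * a)) := by rw [neg_mul, smul_neg, neg_neg]
  rw [h4] at h3
  generalize (p : ℤ_[p]) • (-x * a) = y at h3 ⊢
  have h5 := mul_neg_geom_sum y n
  generalize ∑ j ∈ Finset.range n, y ^ j = σ at h5 ⊢
  linear_combination (a * (a + b) * σ) * h3 - (a * (a + b) * i) * h5

omit [CharP k p] in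
theorem cmp_mob_eq (r : ℤ_[p]) (b : Lam p E) :
    ∃ hl : Lip (fun a => a + (p : ℤ_[p]) • (-(r • star b) * Phi r b a)),
      cmp k _ (lip_mob r b) = (cmp k _ hl * cmp k _ (lip_add b) : Module.End k (Per k E)) := by
  refine ⟨fun n a v => ?_, LinearMap.ext fun F => Subtype.ext (funext fun a => ?_)⟩
  · obtain ⟨u, hu⟩ := lip_mob r b n a v
    refine ⟨u, ?_⟩
    rw [mob_eq, mob_eq] at hu
    exact add_right_cancel (hu.trans (add_right_comm _ _ _))
  · exact congrArg F.1 (mob_eq r b a)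

theorem low_mob {ω v1 v2 e1 e2 g : ℕ} {χ1 χ2 : Lam p E → ℤ_[p]} (hω : 1 ≤ ω)
    (h1 : Gr k ω e1 χ1) (h2 : Gr k ω e2 χ2) (g1 : g + e1 ≤ p ^ v1) (g2 : g + e2 ≤ ω * p ^ v2)
    (r : ℤ_[p]) (b : Lam p E) (h : ∀ a, (p : ℤ_[p]) • (-(r • star b) * Phi r b a) =
      ⟨(p : ℤ_[p]) ^ v1 * χ1 a, (p : ℤ_[p]) ^ v2 * χ2 a⟩) :
    Low k ω g (cmp k _ (lip_mob r b) - cmp k _ (lip_add b)) := by
  obtain ⟨hl, he⟩ := cmp_mob_eq (k := k) r b
  have h3 := (low_cmp_one hω h1 h2 g1 g2 hl fun a => by rw [h]).mul (low_shift b)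
  rw [he]
  exact h3.congr fun F => rfl

theorem star_om (q : ℤ_[p]) : star (q • om E) = -(q • om E) := by
  ext <;> simp [om_re, om_im]

theorem star_one' (q : ℤ_[p]) : star (q • (1 : Lam p E)) = q • (1 : Lam p E) := by
  ext <;> simp [QuadraticAlgebra.im_one]

theorem mobStmt : MobStmt p k := by
  intro h5 c D E hE
  have hP : 1 ≤ p ^ (2 * c) := Nat.one_le_pow _ _ hp.out.pos
  obtain ⟨w, hw⟩ : ∃ w, p ^ (2 * c) = w + 1 := ⟨p ^ (2 * c) - 1, by omega⟩
  refine ⟨fun ω h1 h2 r b => ?_, fun r t => ?_, fun r t => ?_, fun m => ?_⟩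
  · obtain ⟨w', rfl⟩ : ∃ w', ω = w' + 1 := ⟨ω - 1, by omega⟩
    have h3 := GrL.const_mul hE h2 (-(r • star b)) (grL_Phi (k := k) hE h2 r b) (by omega)
    have h4 := low_mob (g := 0) (v1 := 1) (v2 := 1) h1 h3.1 h3.2 (by rw [pow_one]; omega)
      (by rw [pow_one]; nlinarith) r b fun a => by ext <;> simp
    exact (h4.add (low_shift b)).congr fun F => (sub_add_cancel _ _).symm
  · have h3 := grL_Phi (k := k) hE hw.ge r ((p : ℤ_[p]) ^ t • (1 : Lam p E))
    have ht : 1 ≤ p ^ t := Nat.one_le_pow _ _ hp.out.pos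
    have h4 := low_mob (g := 2 * p ^ t) (v1 := t + 1) (v2 := t + 1) (by omega)
      (h3.1.const_mul (by omega) (-r)) (h3.2.const_mul (by omega) (-r))
      (by rw [pow_succ]; nlinarith)
      (by rw [pow_succ]; nlinarith [Nat.mul_le_mul ht h5, Nat.zero_le (w * p ^ t)]) r _ fun a => by
        rw [star_one']
        generalize Phi r ((p : ℤ_[p]) ^ t • (1 : Lam p E)) a = z
        ext <;> simp <;> ring
    rw [shift_pow, ← hw] at h4
    exact h4.congr fun F => sub_sub _ _ _
  · have h3 := grL_Phi (k := k) hE hw.ge r ((p : ℤ_[p]) ^ t • om E)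
    have ht : 1 ≤ p ^ t := Nat.one_le_pow _ _ hp.out.pos
    have hx : w + 1 ≤ (w + 1) * p ^ t := Nat.le_mul_of_pos_right _ ht
    have h4 := low_mob (g := 2 * ((w + 1) * p ^ t)) (v1 := 2 * c + t + 1) (v2 := t + 1) (by omega)
      (h3.2.const_mul (by omega) (r * D)) (h3.1.const_mul (by omega) r)
      (by rw [pow_succ, pow_add, hw]; nlinarith)
      (by rw [pow_succ, ← mul_assoc (w + 1)]; nlinarith) r _ fun a => by
        rw [star_om]
        generalize Phi r ((p : ℤ_[p]) ^ t • om E) a = z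
        ext
        · simp [om_re, om_im]
          linear_combination ((p : ℤ_[p]) * r * p ^ t * z.im) * hE
        · simp [om_re, om_im]
          ring
    rw [shift_pow, ← hw] at h4
    exact h4.congr fun F => sub_sub _ _ _
  · have hω : 1 ≤ p ^ (2 * c) := hP
    obtain ⟨q, hq⟩ : ∃ q : ℤ_[p], q = (p : ℤ_[p]) ^ (m + 1) := ⟨_, rfl⟩
    have hq0 : rho k q = 0 := by rw [hq, pow_succ', rho_p_mul]
    have hu : IsUnit (1 - q ^ 2 * E) := by
      refine IsLocalRing.isUnit_one_sub_self_of_mem_nonunits _ ?_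
      rw [hq, ← pow_mul, show (m + 1) * 2 = (2 * m + 1) + 1 by ring, pow_succ', mul_assoc]
      exact mul_mem_nonunits_left (PadicInt.irreducible_p.not_isUnit)
    obtain ⟨u, hu⟩ := hu.exists_right_inv
    have hu1 : rho k u = 1 := by
      have := congrArg (rho k) hu
      rwa [map_mul, map_sub, map_mul, map_pow, hq0, map_one, zero_pow two_ne_zero, zero_mul,
        sub_zero, one_mul] at this
    have e1 : (p : ℤ_[p]) • ((p : ℤ_[p]) ^ m • om E) = q • om E := by
      rw [smul_smul, hq, pow_succ']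
    have e2 : Ring.inverse (1 + (p : ℤ_[p]) • (-((p : ℤ_[p]) ^ m • om E))) =
        u • (1 + q • om E) := by
      have h1 := Ring.mul_inverse_cancel _ (isUnit_one_add (-((p : ℤ_[p]) ^ m • om E)))
      generalize Ring.inverse (1 + (p : ℤ_[p]) • (-((p : ℤ_[p]) ^ m • om E))) = i at h1 ⊢
      rw [smul_neg, e1] at h1
      have h2 : (1 + -(q • om E)) * (u • (1 + q • om E)) = 1 := by
        ext
        · simp [om_re, om_im, QuadraticAlgebra.re_one, QuadraticAlgebra.im_one]
          linear_combination hu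
        · simp [om_re, om_im, QuadraticAlgebra.re_one, QuadraticAlgebra.im_one]
          ring
      linear_combination (u • (1 + q • om E)) * h1 - i * h2
    have g1 : Gr k (p ^ (2 * c)) (p ^ (2 * c))
        fun a : Lam p E => 2 * u * D * (a.im + q * a.re) :=
      ((Gr.im hω).add hω (((Gr.re hω).const_mul hω q).mono hP)).const_mul hω _
    have g2 : Gr k (p ^ (2 * c)) (p ^ (2 * c))
        fun a : Lam p E => 2 * u * (a.re + q * E * a.im) :=
      (((Gr.re hω).mono hP).add hω ((Gr.im hω).const_mul hω _)).const_mul hω _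
    have hm : 1 ≤ p ^ (m + 1) := Nat.one_le_pow _ _ hp.out.pos
    have hx : p ^ (2 * c) ≤ p ^ (2 * c) * p ^ (m + 1) := Nat.le_mul_of_pos_right _ hm
    have h4 := low_cmp_two (g := p ^ (2 * c) * p ^ (m + 1) - p ^ (2 * c)) (v1 := 2 * c + (m + 1))
      (v2 := m + 1) hω g1 g2 (by rw [pow_add p (2 * c)]; omega) (by omega) (lip_rot m) fun a => by
        unfold rot
        rw [e1, e2, pow_add (p : ℤ_[p]) (2 * c), ← hq]
        ext
        · simp [om_re, om_im, QuadraticAlgebra.re_one, QuadraticAlgebra.im_one]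
          rw [← mul_assoc, mul_comm ((p : ℤ_[p]) ^ (2 * c)) q]
          linear_combination a.re * hu + (2 * u * q * (a.im + q * a.re)) * hE
        · simp [om_re, om_im, QuadraticAlgebra.re_one, QuadraticAlgebra.im_one]
          linear_combination a.im * hu
    have r1 : red k _ g1.1 = s2 k E D := by
      refine Subtype.ext (funext fun a => ?_)
      change rho k _ = (2 * rho k D) * rho k a.im
      simp only [map_mul, map_add, hq0, hu1, map_ofNat]
      ring
    have r2 : red k _ g2.1 = s1 k E := by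
      refine Subtype.ext (funext fun a => ?_)
      change rho k _ = 2 * rho k a.re
      simp only [map_mul, map_add, hq0, hu1, map_ofNat]
      ring
    rw [r1, r2, pow_add p (2 * c)] at h4
    exact h4

end

end Vale.Agent.P221X.RIG
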