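import Vale.Agent.P221X.RIG.Defs
import Vale.Agent.P251.F.PadicRing

/-!
# P221X, block RIG: quaternion coordinates

`QD C` : an element `δ` of a complete ring `O` with normal uniformizer `S`, `S ^ 2 = p`, such that
`δ ^ 2` is a `p`-adic integer, `S δ = - δ S`, and `1`, `δ` span the residue field. Then
`(b, c) ↦ b + c S` is a bijection from `W × W` onto `O`, `W = Z_p[δ]`.
-/

noncomputable section

namespace Vale.Agent.P221X.RIG

open Vale.Agent.P251.F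

variable {p : ℕ} [hp : Fact p.Prime] {O k : Type*} [Ring O] [Field k]

theorem padic_lim (a : ℕ → ℤ_[p]) (h : ∀ n, (p : ℤ_[p]) ^ n ∣ a (n + 1) - a n) :
    ∃ L, ∀ n, (p : ℤ_[p]) ^ n ∣ L - a n := by
  have h1 : ∀ m n, m ≤ n → (p : ℤ_[p]) ^ m ∣ a n - a m := by
    intro m n hmn
    induction n, hmn using Nat.le_induction with
    | base => rw [sub_self]; exact dvd_zero _
    | succ n hmn ih =>
      have h2 := dvd_add ((pow_dvd_pow (p : ℤ_[p]) hmn).trans (h n)) ih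
      rwa [sub_add_sub_cancel] at h2
  have key : ∀ (n : ℕ) (x y : ℤ_[p]),
      x ≡ y [SMOD ((IsLocalRing.maximalIdeal ℤ_[p]) ^ n • ⊤ : Submodule ℤ_[p] ℤ_[p])] ↔
        (p : ℤ_[p]) ^ n ∣ x - y := by
    intro n x y
    rw [SModEq.sub_mem, PadicInt.maximalIdeal_eq_span_p, Ideal.span_singleton_pow,
      smul_eq_mul, Ideal.mul_top, Ideal.mem_span_singleton]
  obtain ⟨L, hL⟩ := IsPrecomplete.prec (I := IsLocalRing.maximalIdeal ℤ_[p]) (M := ℤ_[p])
    inferInstance (f := a) (fun {m n} hmn => (key m _ _).2 (by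
      rw [← dvd_neg, neg_sub]; exact h1 m n hmn))
  refine ⟨L, fun n => ?_⟩
  rw [← dvd_neg, neg_sub]
  exact (key n _ _).1 (hL n)

theorem lam_lim {E : ℤ_[p]} (a : ℕ → Lam p E)
    (h : ∀ n, ∃ v, a (n + 1) - a n = (p : ℤ_[p]) ^ n • v) :
    ∃ L, ∀ n, ∃ v, L - a n = (p : ℤ_[p]) ^ n • v := by
  obtain ⟨x, hx⟩ := padic_lim (fun n => (a n).re) fun n => by
    obtain ⟨v, hv⟩ := h n
    exact ⟨v.re, by simpa using congrArg QuadraticAlgebra.re hv⟩
  obtain ⟨y, hy⟩ := padic_lim (fun n => (a n).im) fun n => by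
    obtain ⟨v, hv⟩ := h n
    exact ⟨v.im, by simpa using congrArg QuadraticAlgebra.im hv⟩
  refine ⟨⟨x, y⟩, fun n => ?_⟩
  obtain ⟨u, hu⟩ := hx n
  obtain ⟨w, hw⟩ := hy n
  exact ⟨⟨u, w⟩, QuadraticAlgebra.ext (by simpa using hu) (by simpa using hw)⟩

theorem lam_eq_zero {E : ℤ_[p]} {a : Lam p E} (h : ∀ n : ℕ, ∃ v, a = (p : ℤ_[p]) ^ n • v) :
    a = 0 := by
  refine QuadraticAlgebra.ext (padicInt_eq_zero fun n => ?_) (padicInt_eq_zero fun n => ?_)
  · obtain ⟨v, hv⟩ := h n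
    exact ⟨v.re, by simpa using congrArg QuadraticAlgebra.re hv⟩
  · obtain ⟨v, hv⟩ := h n
    exact ⟨v.im, by simpa using congrArg QuadraticAlgebra.im hv⟩

/-- the element `δ`. -/
structure QD (C : CSRing p 2 O k) where
  δ : O
  Dd : ℤ_[p]
  δ_sq : δ * δ = C.iotaHom Dd
  S_δ : C.S * δ = -(δ * C.S)
  r_δ : C.r δ ≠ 0
  span : ∀ y : k, ∃ a b : ℤ, y = a + b * C.r δ

namespace QD

variable {C : CSRing p 2 O k} (Q : QD C)

/-- the embedding of `W`. -/
def lam : Lam p Q.Dd →+* O where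
  toFun c := C.iotaHom c.re + C.iotaHom c.im * Q.δ
  map_zero' := by simp
  map_one' := by simp [QuadraticAlgebra.re_one, QuadraticAlgebra.im_one]
  map_add' a b := by
    simp only [QuadraticAlgebra.re_add, QuadraticAlgebra.im_add, map_add, add_mul]
    abel
  map_mul' a b := by
    simp only [QuadraticAlgebra.re_mul, QuadraticAlgebra.im_mul, map_add, map_mul, add_mul,
      mul_add, zero_mul, add_zero]
    have h1 : C.iotaHom a.im * Q.δ * C.iotaHom b.re = C.iotaHom a.im * C.iotaHom b.re * Q.δ := by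
      rw [mul_assoc, ← C.iota_comm, mul_assoc]
    have h2 : C.iotaHom a.im * Q.δ * (C.iotaHom b.im * Q.δ) =
        C.iotaHom Q.Dd * C.iotaHom a.im * C.iotaHom b.im := by
      rw [mul_assoc, ← mul_assoc Q.δ, ← C.iota_comm, mul_assoc _ Q.δ, Q.δ_sq, ← map_mul,
        ← map_mul, ← map_mul, ← map_mul]
      congr 1
      ring
    rw [h1, h2, mul_assoc (C.iotaHom a.re)]
    abel

theorem lam_apply (c : Lam p Q.Dd) : Q.lam c = C.iotaHom c.re + C.iotaHom c.im * Q.δ := rfl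

theorem lam_om : Q.lam (om Q.Dd) = Q.δ := by simp [lam_apply, om]

theorem lam_smul (t : ℤ_[p]) (c : Lam p Q.Dd) : Q.lam (t • c) = C.iotaHom t * Q.lam c := by
  simp only [lam_apply, QuadraticAlgebra.re_smul, QuadraticAlgebra.im_smul, smul_eq_mul, map_mul,
    mul_add, mul_assoc]

theorem lam_p (c : Lam p Q.Dd) : Q.lam ((p : ℤ_[p]) • c) = p * Q.lam c := by
  rw [lam_smul, map_natCast]

theorem lam_pow (n : ℕ) (c : Lam p Q.Dd) :
    Q.lam ((p : ℤ_[p]) ^ n • c) = (p : O) ^ n * Q.lam c := by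
  rw [lam_smul, map_pow, map_natCast]

theorem S_lam (c : Lam p Q.Dd) : C.S * Q.lam c = Q.lam (star c) * C.S := by
  simp only [lam_apply, QuadraticAlgebra.re_star, QuadraticAlgebra.im_star, zero_mul, add_zero,
    map_neg, mul_add, add_mul]
  rw [← C.iota_comm c.re, ← mul_assoc, ← C.iota_comm c.im, mul_assoc, Q.S_δ]
  simp only [mul_neg, neg_mul, mul_assoc]

theorem S_lam_S (c : Lam p Q.Dd) : C.S * Q.lam c * C.S = Q.lam ((p : ℤ_[p]) • star c) := by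
  rw [S_lam, mul_assoc, ← sq, ← C.p_eq, lam_p, (Nat.cast_commute p _).eq]

theorem lam_pow_mem (n : ℕ) (c : Lam p Q.Dd) : Q.lam ((p : ℤ_[p]) ^ n • c) ∈ C.I (2 * n) := by
  rw [lam_pow]
  exact C.natCast_pow_mul_mem n _

omit Q in
theorem r_p : C.r (p : O) = 0 := by
  rw [C.p_eq, map_pow, C.r_S, zero_pow two_ne_zero]

variable [CharP k p]

omit Q in
theorem dvd_of_r_iota {t : ℤ_[p]} (h : C.r (C.iotaHom t) = 0) : (p : ℤ_[p]) ∣ t := by
  by_contra hn
  have hu : IsUnit t := by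
    by_contra h2
    apply hn
    have h3 : t ∈ IsLocalRing.maximalIdeal ℤ_[p] := h2
    rwa [PadicInt.maximalIdeal_eq_span_p, Ideal.mem_span_singleton] at h3
  exact ((hu.map C.iotaHom).map C.r).ne_zero h

theorem dvd_of_r (h2 : p ≠ 2) {c : Lam p Q.Dd} (h : C.r (Q.lam c) = 0) :
    ∃ v, c = (p : ℤ_[p]) • v := by
  have h1 : C.r (Q.lam (star c)) = 0 := by
    rw [← C.mul_S_pow_mem_succ_iff (n := 1), pow_one, ← S_lam]
    have h3 := C.mul_mem_I (C.S_pow_mem 1) (C.mem_I_one.2 h)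
    rwa [pow_one] at h3
  have h20 : (2 : k) ≠ 0 := by
    intro h0
    have h3 : ((2 : ℕ) : k) = 0 := by exact_mod_cast h0
    rw [CharP.cast_eq_zero_iff k p] at h3
    exact h2 ((Nat.prime_dvd_prime_iff_eq hp.out Nat.prime_two).1 h3)
  simp only [lam_apply, QuadraticAlgebra.re_star, QuadraticAlgebra.im_star, zero_mul, add_zero,
    map_neg, map_add, map_mul] at h h1
  have h3 : C.r (C.iotaHom c.re) = 0 := by
    have h4 : 2 * C.r (C.iotaHom c.re) = 0 := by linear_combination h + h1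
    exact (mul_eq_zero.1 h4).resolve_left h20
  have h4 : C.r (C.iotaHom c.im) = 0 := by
    rw [h3, zero_add] at h
    exact (mul_eq_zero.1 h).resolve_right Q.r_δ
  obtain ⟨x, hx⟩ := dvd_of_r_iota h3
  obtain ⟨y, hy⟩ := dvd_of_r_iota h4
  exact ⟨⟨x, y⟩, QuadraticAlgebra.ext (by simpa using hx) (by simpa using hy)⟩

theorem nonsq (h2 : p ≠ 2) (t : ℤ_[p]) : IsUnit (t ^ 2 - Q.Dd) := by
  by_contra hn
  have h3 : t ^ 2 - Q.Dd ∈ IsLocalRing.maximalIdeal ℤ_[p] := hn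
  rw [PadicInt.maximalIdeal_eq_span_p, Ideal.mem_span_singleton] at h3
  obtain ⟨y, hy⟩ := h3
  have h4 : (⟨t, 1⟩ : Lam p Q.Dd) * ⟨t, -1⟩ = (p : ℤ_[p]) • (⟨y, 0⟩ : Lam p Q.Dd) := by
    refine QuadraticAlgebra.ext ?_ ?_
    · simp only [QuadraticAlgebra.re_mul, QuadraticAlgebra.re_smul, smul_eq_mul]
      linear_combination hy
    · simp only [QuadraticAlgebra.im_mul, QuadraticAlgebra.im_smul, smul_eq_mul]
      ring
  have h5 := congrArg (fun x => C.r (Q.lam x)) h4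
  simp only [map_mul, lam_p, r_p, zero_mul] at h5
  have h6 : ¬ (p : ℤ_[p]) ∣ 1 := fun h => PadicInt.irreducible_p.not_isUnit (isUnit_of_dvd_one h)
  rcases mul_eq_zero.1 h5 with h | h
  · obtain ⟨v, hv⟩ := Q.dvd_of_r h2 h
    exact h6 ⟨v.im, by simpa using congrArg QuadraticAlgebra.im hv⟩
  · obtain ⟨v, hv⟩ := Q.dvd_of_r h2 h
    refine h6 ⟨-v.im, ?_⟩
    have h7 : (-1 : ℤ_[p]) = p * v.im := by simpa using congrArg QuadraticAlgebra.im hv
    linear_combination -h7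

omit Q [CharP k p] in
theorem mem_of_p_mul {x : O} {m : ℕ} (h : (p : O) * x ∈ C.I (m + 2)) : x ∈ C.I m := by
  rw [(Nat.cast_commute p x).eq, C.p_eq] at h
  exact C.mul_S_pow_mem_iff.1 h

omit Q [CharP k p] in
theorem mem_of_pow_mul {x : O} {m : ℕ} (n : ℕ) (h : (p : O) ^ n * x ∈ C.I (m + 2 * n)) :
    x ∈ C.I m := by
  rw [((Nat.cast_commute p x).pow_left n).eq, C.p_eq, ← pow_mul] at h
  exact C.mul_S_pow_mem_iff.1 h

theorem dvd_of_mem (h2 : p ≠ 2) (n : ℕ) : ∀ b c : Lam p Q.Dd,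
    Q.lam b + Q.lam c * C.S ∈ C.I (2 * n) →
      (∃ v, b = (p : ℤ_[p]) ^ n • v) ∧ ∃ v, c = (p : ℤ_[p]) ^ n • v := by
  induction n with
  | zero => intro b c _; exact ⟨⟨b, by simp⟩, ⟨c, by simp⟩⟩
  | succ n ih =>
    intro b c h
    have h1 : C.r (Q.lam b) = 0 := by
      have h3 := C.mem_I_one.1 (C.I_anti (by omega : 1 ≤ 2 * (n + 1)) h)
      rwa [map_add, map_mul, C.r_S, mul_zero, add_zero] at h3
    obtain ⟨b', rfl⟩ := Q.dvd_of_r h2 h1
    have h3 : C.r (Q.lam c) = 0 := by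
      have h4 := Q.lam_pow_mem 1 b'
      rw [pow_one] at h4
      have h5 := (C.I 2).sub_mem (C.I_anti (by omega : 2 ≤ 2 * (n + 1)) h) h4
      rw [add_sub_cancel_left] at h5
      rw [← C.mul_S_pow_mem_succ_iff (n := 1), pow_one]
      exact h5
    obtain ⟨c', rfl⟩ := Q.dvd_of_r h2 h3
    rw [lam_p, lam_p, mul_assoc, ← mul_add] at h
    obtain ⟨⟨v, hv⟩, ⟨w, hw⟩⟩ := ih b' c' (mem_of_p_mul h)
    exact ⟨⟨v, by rw [hv, smul_smul, pow_succ']⟩, ⟨w, by rw [hw, smul_smul, pow_succ']⟩⟩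

theorem inj (h2 : p ≠ 2) {b c b' c' : Lam p Q.Dd}
    (h : Q.lam b + Q.lam c * C.S = Q.lam b' + Q.lam c' * C.S) : b = b' ∧ c = c' := by
  have h1 : Q.lam (b - b') + Q.lam (c - c') * C.S = 0 := by
    rw [map_sub, map_sub, sub_mul, sub_add_sub_comm, h, sub_self]
  have h3 := fun n => Q.dvd_of_mem h2 n (b - b') (c - c') (by rw [h1]; exact (C.I _).zero_mem)
  exact ⟨sub_eq_zero.1 (lam_eq_zero fun n => (h3 n).1),
    sub_eq_zero.1 (lam_eq_zero fun n => (h3 n).2)⟩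

omit [CharP k p] in
theorem step (x : O) : ∃ (b : Lam p Q.Dd) (y : O), x = Q.lam b + y * C.S := by
  obtain ⟨a, b, hab⟩ := Q.span (C.r x)
  have h1 : C.r (x - Q.lam ⟨a, b⟩) = 0 := by
    rw [map_sub, hab, lam_apply]
    simp only [map_add, map_mul, map_intCast, sub_self]
  obtain ⟨y, hy⟩ := C.exists_of_r _ h1
  exact ⟨⟨a, b⟩, y, by rw [← hy]; abel⟩

omit [CharP k p] in
theorem approx (n : ℕ) : ∀ x : O, ∃ b c : Lam p Q.Dd,
    x - (Q.lam b + Q.lam c * C.S) ∈ C.I (2 * n) := by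
  induction n with
  | zero => intro x; exact ⟨0, 0, C.mem_I_zero _⟩
  | succ n ih =>
    intro x
    obtain ⟨b, y, hy⟩ := Q.step x
    obtain ⟨c, z, hz⟩ := Q.step y
    obtain ⟨b', c', h'⟩ := ih z
    refine ⟨b + (p : ℤ_[p]) • b', c + (p : ℤ_[p]) • c', ?_⟩
    have h1 : x - (Q.lam (b + (p : ℤ_[p]) • b') + Q.lam (c + (p : ℤ_[p]) • c') * C.S) =
        (z - (Q.lam b' + Q.lam c' * C.S)) * C.S ^ 2 := by
      rw [← C.p_eq, ← (Nat.cast_commute p _).eq, map_add, map_add, lam_p, lam_p, hy, hz,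
        add_mul, add_mul, mul_assoc z, ← sq, ← C.p_eq, ← (Nat.cast_commute p z).eq, mul_sub,
        mul_add, mul_assoc]
      abel
    rw [h1, mul_add, mul_one]
    exact C.mul_S_pow_mem_iff.2 h'

theorem surj (h2 : p ≠ 2) (x : O) : ∃ b c : Lam p Q.Dd, x = Q.lam b + Q.lam c * C.S := by
  choose b c h using fun n => Q.approx n x
  have h1 : ∀ n, Q.lam (b (n + 1) - b n) + Q.lam (c (n + 1) - c n) * C.S ∈ C.I (2 * n) := by
    intro n
    have h3 := (C.I (2 * n)).sub_mem (h n) (C.I_anti (by omega : 2 * n ≤ 2 * (n + 1)) (h (n + 1)))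
    rw [map_sub, map_sub, sub_mul]
    convert h3 using 1
    abel
  obtain ⟨B, hB⟩ := lam_lim b fun n => (Q.dvd_of_mem h2 n _ _ (h1 n)).1
  obtain ⟨D, hD⟩ := lam_lim c fun n => (Q.dvd_of_mem h2 n _ _ (h1 n)).2
  refine ⟨B, D, sub_eq_zero.1 (C.eq_zero_of_forall_mem fun n => ?_)⟩
  obtain ⟨v, hv⟩ := hB n
  obtain ⟨w, hw⟩ := hD n
  have h3 := (C.I (2 * n)).sub_mem (h n) ((C.I _).add_mem (Q.lam_pow_mem n v)
    (C.mul_mem_I_right (Q.lam_pow_mem n w) C.S))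
  rw [← hv, ← hw, map_sub, map_sub, sub_mul] at h3
  refine C.I_anti (by omega : n ≤ 2 * n) ?_
  convert h3 using 1
  abel

/-- on `W` the filtration jumps only in even degrees. -/
theorem mem_succ (h2 : p ≠ 2) {n : ℕ} {w : Lam p Q.Dd} (h : Q.lam w ∈ C.I (2 * n + 1)) :
    Q.lam w ∈ C.I (2 * n + 2) := by
  obtain ⟨⟨v, rfl⟩, -⟩ := Q.dvd_of_mem h2 n w 0 (by
    rw [map_zero, zero_mul, add_zero]; exact C.I_anti (by omega) h)
  rw [lam_pow, add_comm] at h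
  obtain ⟨v', rfl⟩ := Q.dvd_of_r h2 (C.mem_I_one.1 (mem_of_pow_mul n h))
  rw [smul_smul, ← pow_succ]
  exact Q.lam_pow_mem (n + 1) v'

omit [CharP k p] in
theorem one_add_mul (x u : Lam p Q.Dd) :
    (1 + Q.lam x * C.S) * Q.lam u = Q.lam u + Q.lam (x * star u) * C.S := by
  rw [add_mul, one_mul, mul_assoc, S_lam, map_mul, mul_assoc]

theorem unique (h2 : p ≠ 2) {x u x' u' : Lam p Q.Dd} (hu : IsUnit u)
    (h : (1 + Q.lam x * C.S) * Q.lam u = (1 + Q.lam x' * C.S) * Q.lam u') : x = x' := by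
  rw [one_add_mul, one_add_mul] at h
  obtain ⟨rfl, h1⟩ := Q.inj h2 h
  exact hu.star.mul_right_cancel h1

theorem decomp (h2 : p ≠ 2) {y : O} (hy : C.r y = 1) :
    ∃ x v : Lam p Q.Dd, y = (1 + Q.lam x * C.S) * Q.lam (1 + (p : ℤ_[p]) • v) := by
  obtain ⟨b, c, rfl⟩ := Q.surj h2 y
  have h1 : C.r (Q.lam (b - 1)) = 0 := by
    rw [map_add, map_mul, C.r_S, mul_zero, add_zero] at hy
    rw [map_sub, map_sub, hy, map_one, map_one, sub_self]
  obtain ⟨v, hv⟩ := Q.dvd_of_r h2 h1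
  have h3 : b = 1 + (p : ℤ_[p]) • v := by rw [← hv]; abel
  have hu : IsUnit (star b) := by rw [h3]; exact (isUnit_one_add v).star
  refine ⟨c * Ring.inverse (star b), v, ?_⟩
  rw [← h3, one_add_mul, mul_assoc, Ring.inverse_mul_cancel _ hu, mul_one]

omit [CharP k p] in
theorem mob_mul (c x : Lam p Q.Dd) : (1 + Q.lam c * C.S) * (1 + Q.lam x * C.S) =
    (1 + Q.lam (mob 1 c x) * C.S) * Q.lam (1 + (p : ℤ_[p]) • (c * star x)) := by
  have h1 : star (1 + (p : ℤ_[p]) • (c * star x)) = 1 + (p : ℤ_[p]) • ((1 : ℤ_[p]) • star c * x) := by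
    refine QuadraticAlgebra.ext ?_ ?_ <;> simp
  rw [one_add_mul, h1, mob, mul_assoc (x + c), Ring.inverse_mul_cancel _ (isUnit_one_add _),
    mul_one, mul_add, mul_one, add_mul, one_mul, mul_assoc (Q.lam c), ← mul_assoc C.S, S_lam_S,
    ← map_mul, map_add, map_add, map_one, add_mul, mul_smul_comm]
  abel

omit [CharP k p] in
theorem rot_mul (m : ℕ) (x : Lam p Q.Dd) :
    Q.lam (1 + (p : ℤ_[p]) • ((p : ℤ_[p]) ^ m • om Q.Dd)) * (1 + Q.lam x * C.S) =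
      (1 + Q.lam (rot m x) * C.S) * Q.lam (1 + (p : ℤ_[p]) • ((p : ℤ_[p]) ^ m • om Q.Dd)) := by
  have h1 : star (1 + (p : ℤ_[p]) • ((p : ℤ_[p]) ^ m • om Q.Dd)) =
      1 + (p : ℤ_[p]) • (-((p : ℤ_[p]) ^ m • om Q.Dd)) := by
    refine QuadraticAlgebra.ext ?_ ?_ <;> simp [om]
  rw [one_add_mul, h1, rot, mul_assoc x, mul_assoc _ (Ring.inverse _),
    Ring.inverse_mul_cancel _ (isUnit_one_add _), mul_one, mul_add, mul_one, ← mul_assoc,
    ← map_mul, mul_comm x]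

end QD

end Vale.Agent.P221X.RIG
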