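import Vale.Agent.P221X.RIG.Spec2

/-!
# P221X: rigidity follows from the theorem on the stable spaces of functions
-/

noncomputable section

namespace Vale.Agent.P221X.RIG

open PowerSeries KK

variable {p : ℕ} {F : Type} [Field F]

/-- the locally constant functions on `G / ⟨g, ψ⟩` -/
def LCi (D : GD p F) (φ : D.G → F) : Prop :=
  (∃ N, ∀ a, ∀ n ∈ D.Gf N, φ (a * n) = φ a) ∧ (∀ a, φ (a * D.g) = φ a) ∧ ∀ a, φ (a * D.ψ) = φ a

/-- a stable space of functions is finite dimensional or everything -/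
def JG (D : GD p F) : Prop := ∀ U : Submodule F (D.G → F), (∀ φ ∈ U, LCi D φ) →
  (∀ φ ∈ U, ∀ b, (fun a => φ (b * a)) ∈ U) → FiniteDimensional F U ∨ ∀ φ, LCi D φ → φ ∈ U

/-- a ring which acts semilinearly on `K` -/
structure RG (D : GD p F) (A : Type) [Ring A] [Algebra F A] where
  fil : ℕ → Submodule F A
  anti : ∀ {v w : ℕ}, v ≤ w → fil w ≤ fil v
  lmul : ∀ {w : ℕ} (a : A) {b : A}, b ∈ fil w → a * b ∈ fil w
  closed : ∀ (I : Submodule A A) (a : A), (∀ w, ∃ b ∈ I, a - b ∈ fil w) → a ∈ I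
  sc : PowerSeries F →ₐ[F] A
  gr : D.G →* A
  gr_ψ : gr D.ψ = 1
  upow : ∀ n r, sc X ^ n * r ∈ fil n
  cont : ∀ w, ∃ N, ∀ a ∈ D.Gf N, gr a - 1 ∈ fil w
  dense : ∀ r w, ∃ r' ∈ Submodule.span F {x | ∃ f a, x = sc f * gr a}, r - r' ∈ fil w
  nrm : ∀ r, ∃ r', sc X * r = r' * sc X
  nrm' : ∀ r, ∃ r', r * sc X = sc X * r'
  op : A →ₐ[F] Module.End F (KK F)
  op_sc : ∀ f z, op (sc f) z = algebraMap (PowerSeries F) (KK F) f * z
  op_gr : ∀ a x z, op (gr a) (x * z) = D.actK a x * op (gr a) z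
  red : ∀ a, ∀ z ∈ ge 0, cf 0 (op (gr a) z) = cf 0 z
  gain : ∀ {n : ℕ} {r : A} {m : ℤ} {z : KK F}, r ∈ fil (4 * n) → z ∈ ge m → op r z ∈ ge (m + n)
  gain0 : ∀ (r : A) {m : ℤ} {z : KK F}, z ∈ ge m → op r z ∈ ge m

theorem exists_points {G : Type} (U : Submodule F (G → F)) [FiniteDimensional F U] :
    ∃ s : Finset G, ∀ φ ∈ U, (∀ a ∈ s, φ a = 0) → φ = 0 := by
  classical
  let ev : G → Module.Dual F U := fun a => (LinearMap.proj a).comp U.subtype
  obtain ⟨t, h1, h2⟩ := (Submodule.fg_span_iff_fg_span_finset_subset (Set.range ev)).1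
    (IsNoetherian.noetherian (Submodule.span F (Set.range ev)))
  obtain ⟨s, hs⟩ := Finset.subset_set_image_iff.1 (Set.image_univ ▸ h1 : (t : Set _) ⊆ ev '' Set.univ)
  refine ⟨s, fun φ hφ h => funext fun a => ?_⟩
  have h3 : Submodule.span F (t : Set (Module.Dual F U)) ≤
      LinearMap.ker (Module.Dual.eval F U ⟨φ, hφ⟩) := Submodule.span_le.2 fun l hl => by
    obtain ⟨b, hb, rfl⟩ := Finset.mem_image.1 (hs.2 ▸ hl :)
    exact h b hb
  exact h3 (h2.le (Submodule.subset_span ⟨a, rfl⟩))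

namespace RG

variable {D : GD p F} {A : Type} [Ring A] [Algebra F A] (T : RG D A)

theorem op_mul (a b : A) (z : KK F) : T.op (a * b) z = T.op a (T.op b z) := by
  rw [map_mul]; rfl

theorem artin (fix : KFix D) {ι : Type} {v : ι → KK F} (hv : LinearIndependent F v)
    (s : Finset ι) : ∀ c : ι → KK F, (∀ a, ∑ i ∈ s, c i * T.op (T.gr a) (v i) = 0) →
      ∀ i ∈ s, c i = 0 := by
  classical
  induction s using Finset.induction_on with
  | empty => simp
  | insert j s hj ih =>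
    intro c hc
    simp only [Finset.sum_insert hj] at hc
    by_cases h0 : c j = 0
    · exact Finset.forall_mem_insert .. |>.2 ⟨h0, ih c fun a => by simpa [h0] using hc a⟩
    have h1 : ∀ a, T.op (T.gr a) (v j) + ∑ i ∈ s, c i / c j * T.op (T.gr a) (v i) = 0 := fun a => by
      have := congrArg ((c j)⁻¹ * ·) (hc a)
      simpa [mul_add, Finset.mul_sum, h0, div_eq_inv_mul, mul_assoc] using this
    have h2 : ∀ i ∈ s, ∀ b, D.actK b (c i / c j) = c i / c j := fun i hi b =>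
      sub_eq_zero.1 (ih (fun i => D.actK b (c i / c j) - c i / c j) (fun a => by
        have h3 := congrArg (T.op (T.gr b)) (h1 (b⁻¹ * a))
        simp only [map_add, map_sum, T.op_gr, ← op_mul, ← map_mul T.gr, mul_inv_cancel_left,
          map_zero] at h3
        simp only [sub_mul, Finset.sum_sub_distrib]
        linear_combination h3 - h1 a) i hi)
    choose! d hd using fun i hi => fix _ (h2 i hi)
    have h4 := linearIndependent_iff'.1 hv (insert j s) (Function.update d j 1) (by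
      rw [Finset.sum_insert hj, Function.update_self, one_smul, ← h1 1, map_one, map_one]
      refine congrArg (_ + ·) (Finset.sum_congr rfl fun i hi => ?_)
      rw [Function.update_of_ne (ne_of_mem_of_not_mem hi hj), hd i hi, Algebra.smul_def]
      rfl) j (Finset.mem_insert_self _ _)
    simp at h4

/-- the span of the orbit maps -/
def Sp (V : Submodule F (KK F)) : Submodule (KK F) (A →ₗ[F] KK F) :=
  Submodule.span (KK F) {Ψ | ∃ v ∈ V, Ψ = (LinearMap.applyₗ v).comp T.op.toLinearMap}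

variable {T} {V : Submodule F (KK F)} {Ψ : A →ₗ[F] KK F} {θ : A}

theorem Sp.sc (h : Ψ ∈ T.Sp V) (f : PowerSeries F) (r : A) :
    Ψ (T.sc f * r) = algebraMap _ _ f * Ψ r := by
  induction h using Submodule.span_induction with
  | mem x hx => obtain ⟨v, -, rfl⟩ := hx; exact (T.op_mul _ _ _).trans (T.op_sc _ _)
  | zero => simp
  | add x y _ _ a b => simp [a, b, mul_add]
  | smul c x _ a => simp [a, mul_left_comm]

theorem Sp.kill (h : Ψ ∈ T.Sp V) {s : A} (hs : ∀ v ∈ V, T.op s v = 0) (r : A) : Ψ (r * s) = 0 := by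
  induction h using Submodule.span_induction with
  | mem x hx => obtain ⟨v, hv, rfl⟩ := hx; exact (T.op_mul _ _ _).trans (by rw [hs v hv, map_zero])
  | zero => simp
  | add x y _ _ a b => simp [a, b]
  | smul c x _ a => simp [a]

theorem Sp.bd (h : Ψ ∈ T.Sp V) : ∃ m : ℤ, (∀ r, Ψ r ∈ ge m) ∧
    ∀ (n : ℕ), ∀ r ∈ T.fil (4 * n), Ψ r ∈ ge (m + n) := by
  induction h using Submodule.span_induction with
  | mem x hx =>
    obtain ⟨v, -, rfl⟩ := hx
    obtain ⟨m, hm⟩ := exists_ge v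
    exact ⟨m, fun r => T.gain0 r hm, fun n r hr => T.gain hr hm⟩
  | zero => exact ⟨0, fun _ => zero_mem _, fun _ _ _ => zero_mem _⟩
  | add x y _ _ a b =>
    obtain ⟨m, a, a'⟩ := a
    obtain ⟨m', b, b'⟩ := b
    exact ⟨min m m', fun r => add_mem (ge_mono (by omega) (a r)) (ge_mono (by omega) (b r)),
      fun n r hr => add_mem (ge_mono (by omega) (a' n r hr)) (ge_mono (by omega) (b' n r hr))⟩
  | smul c x _ a =>
    obtain ⟨m, a, a'⟩ := a
    obtain ⟨m', b⟩ := exists_ge c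
    exact ⟨m' + m, fun r => mul_mem_ge b (a r),
      fun n r hr => add_assoc m' m n ▸ mul_mem_ge b (a' n r hr)⟩

theorem Sp.tr (h : Ψ ∈ T.Sp V) (b : D.G) :
    ∃ Ψ' ∈ T.Sp V, ∀ r, Ψ' r = T.op (T.gr b⁻¹) (Ψ (T.gr b * r)) := by
  induction h using Submodule.span_induction with
  | mem x hx =>
    refine ⟨x, Submodule.subset_span hx, fun r => ?_⟩
    obtain ⟨v, -, rfl⟩ := hx
    change T.op r v = T.op _ (T.op _ v)
    rw [← op_mul, ← mul_assoc, ← map_mul T.gr, inv_mul_cancel, map_one, one_mul]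
  | zero => exact ⟨0, zero_mem _, by simp⟩
  | add x y _ _ a b =>
    obtain ⟨x', a, a'⟩ := a
    obtain ⟨y', b, b'⟩ := b
    exact ⟨x' + y', add_mem a b, by simp [a', b']⟩
  | smul c x _ a =>
    obtain ⟨x', a, a'⟩ := a
    exact ⟨D.actK b⁻¹ c • x', Submodule.smul_mem _ _ a, by simp [a', T.op_gr]⟩

theorem Sp.int (h : Ψ ∈ T.Sp V) (h0 : ∀ a, Ψ (T.gr a) ∈ ge 0) (r : A) : Ψ r ∈ ge 0 := by
  obtain ⟨m, -, hm⟩ := Sp.bd h
  obtain ⟨r', h1, h2⟩ := T.dense r (4 * (-m).toNat)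
  have h3 : Ψ r' ∈ ge 0 := (Submodule.span_le (p := (ge 0).comap Ψ)).2 (by
    rintro _ ⟨f, a, rfl⟩
    change Ψ _ ∈ ge 0
    rw [Sp.sc h]
    exact mul_mem_ge (algebraMap_mem_ge f) (h0 a)) h1
  simpa using add_mem (ge_mono (by omega) (hm _ _ h2)) h3

theorem Sp.u (h : Ψ ∈ T.Sp V) (h0 : ∀ a, Ψ (T.gr a) ∈ ge 0) (r : A) :
    cf 0 (Ψ (T.sc X * r)) = 0 := by
  rw [Sp.sc h, algebraMap_X]
  exact mul_mem_ge (uz_mem_ge 1) (Sp.int h h0 r) 0 (by omega)

theorem gen {μ : A →ₗ[F] F} {w : ℕ} (h1 : ∀ a, μ (T.gr a) = 0) (h2 : ∀ r, μ (T.sc X * r) = 0)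
    (h3 : ∀ r ∈ T.fil w, μ r = 0) (r : A) : μ r = 0 := by
  obtain ⟨r', a1, a2⟩ := T.dense r w
  have h4 : μ r' = 0 := (Submodule.span_le (p := LinearMap.ker μ)).2 (by
    rintro _ ⟨f, a, rfl⟩
    obtain ⟨f', e⟩ : X ∣ f - C (constantCoeff f) := X_dvd_iff.2 (by simp)
    change μ _ = 0
    rw [eq_add_of_sub_eq e, map_add, map_mul T.sc, add_mul, map_add, mul_assoc, h2, zero_add,
      show T.sc (C (constantCoeff f)) = algebraMap F A _ from T.sc.commutes _, ← Algebra.smul_def,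
      map_smul, h1, smul_zero]) a1
  simpa [h4] using h3 _ a2

variable (T) in
/-- `θ` is congruent to `g ^ (± 1) - 1` -/
def Th (θ : A) : Prop := ∃ ε r, (ε = D.g ∨ ε = D.g⁻¹) ∧ θ = T.gr ε - 1 + T.sc X * r

theorem lci (hθ : T.Th θ) {μ : A →ₗ[F] F} {w : ℕ} (h1 : ∀ r, μ (r * θ) = 0)
    (h2 : ∀ r, μ (T.sc X * r) = 0) (h3 : ∀ r ∈ T.fil w, μ r = 0) : LCi D fun a => μ (T.gr a) := by
  obtain ⟨N, hN⟩ := T.cont w
  obtain ⟨ε, r, e, rfl⟩ := hθ
  have h4 : ∀ a, μ (T.gr (a * ε)) = μ (T.gr a) := fun a => by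
    obtain ⟨r', e'⟩ := T.nrm' (T.gr a)
    have := h1 (T.gr a)
    rwa [mul_add, ← mul_assoc, e', mul_assoc, map_add, h2, add_zero, mul_sub, mul_one, map_sub,
      ← map_mul, sub_eq_zero] at this
  refine ⟨⟨N, fun a n hn => ?_⟩, fun a => ?_, fun a => by simp [T.gr_ψ]⟩
  · have := h3 _ (T.lmul (T.gr a) (hN n hn))
    rwa [mul_sub, mul_one, map_sub, ← map_mul, sub_eq_zero] at this
  · rcases e with rfl | rfl
    · exact h4 a
    · simpa using (h4 (a * D.g)).symm

variable (T V) in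
/-- the reductions of the integral elements -/
def Rd : Submodule F (D.G → F) where
  carrier := {φ | ∃ Ψ ∈ T.Sp V, (∀ a, Ψ (T.gr a) ∈ ge 0) ∧ φ = fun a => cf 0 (Ψ (T.gr a))}
  zero_mem' := ⟨0, zero_mem _, fun _ => zero_mem _, by ext; simp⟩
  add_mem' := by
    rintro _ _ ⟨x, a, a', rfl⟩ ⟨y, b, b', rfl⟩
    exact ⟨x + y, add_mem a b, fun c => add_mem (a' c) (b' c), by ext; simp⟩
  smul_mem' := by
    rintro c _ ⟨x, a, a', rfl⟩
    refine ⟨algebraMap F (KK F) c • x, Submodule.smul_mem _ _ a, fun b => ?_, ?_⟩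
    · simpa [← Algebra.smul_def] using (ge 0).smul_mem c (a' b)
    · ext; simp

theorem fin_of_Rd (fix : KFix D) [FiniteDimensional F (T.Rd V)] : FiniteDimensional F V := by
  classical
  obtain ⟨s, hs⟩ := exists_points (T.Rd V)
  have h1 : ∀ Ψ ∈ T.Sp V, (∀ a ∈ s, Ψ (T.gr a) = 0) → ∀ a, Ψ (T.gr a) = 0 := fun Ψ h h0 a => by
    refine eq_zero_of_ge fun n => by_contra fun c => ?_
    obtain ⟨m, ⟨a1, -⟩, a2⟩ := Int.exists_greatest_of_bdd
      (P := fun m => (∀ a, Ψ (T.gr a) ∈ ge m) ∧ True)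
      ⟨n, fun m hm => not_lt.1 fun e => c (ge_mono e.le (hm.1 a))⟩
      ((Sp.bd h).imp fun m hm => ⟨fun a => hm.1 _, trivial⟩)
    have a3 := hs _ ⟨uz (-m) • Ψ, Submodule.smul_mem _ _ h, fun a => by
      simpa using mul_mem_ge (uz_mem_ge (-m)) (a1 a), rfl⟩ fun a ha => by simp [h0 a ha]
    have := a2 (m + 1) ⟨fun a j hj => (Int.lt_add_one_iff.1 hj).lt_or_eq.elim (a1 a j) fun e => by
      rw [e, ← cf_uz_mul m (-m), add_neg_cancel]
      exact congrFun a3 a, trivial⟩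
    omega
  let b := Module.Free.chooseBasis F V
  have h2 : LinearIndependent (KK F) fun i (a : s) => T.op (T.gr a) (b i) :=
    linearIndependent_iff'.2 fun t c hc => T.artin fix
      (b.linearIndependent.map' V.subtype V.ker_subtype) t c fun a => by
      have := h1 (∑ i ∈ t, c i • (LinearMap.applyₗ (b i : KK F)).comp T.op.toLinearMap)
        (sum_mem fun i _ => Submodule.smul_mem _ _ (Submodule.subset_span ⟨_, (b i).2, rfl⟩))
        (fun a ha => by simpa using congrFun hc ⟨a, ha⟩) a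
      simpa using this
  have := h2.finite
  exact Module.Finite.of_basis b

theorem step (hθ : T.Th θ) (hU : ∀ φ, LCi D φ → φ ∈ T.Rd V) {s : A} (hs : ∀ v ∈ V, T.op s v = 0) :
    ∃ a b, s = a * θ + T.sc X * b := by
  have h1 : s ∈ Submodule.span A {θ, T.sc X} := T.closed _ _ fun w => by_contra fun c => by
    obtain ⟨μ, m1, m2⟩ := Submodule.exists_dual_map_eq_bot_of_notMem (x := s)
      (p := (Submodule.span A {θ, T.sc X}).restrictScalars F ⊔ T.fil w) (fun h => by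
        obtain ⟨x, hx, y, hy, e⟩ := Submodule.mem_sup.1 h
        exact c ⟨x, hx, by rw [← e]; simpa using hy⟩) inferInstance
    have m3 : ∀ x ∈ (Submodule.span A {θ, T.sc X}).restrictScalars F ⊔ T.fil w, μ x = 0 :=
      fun x hx => (Submodule.mem_bot F).1 (m2 ▸ Submodule.mem_map_of_mem hx)
    have m4 : ∀ r, μ (T.sc X * r) = 0 := fun r => by
      obtain ⟨r', e⟩ := T.nrm r
      exact m3 _ (Submodule.mem_sup_left (e ▸ (Submodule.span A {θ, T.sc X}).smul_mem r'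
        (Submodule.subset_span (by simp))))
    have m5 : ∀ r ∈ T.fil w, μ r = 0 := fun r hr => m3 _ (Submodule.mem_sup_right hr)
    obtain ⟨Ψ, a1, a2, a3⟩ := hU _ (lci hθ (fun r => m3 _ (Submodule.mem_sup_left
      ((Submodule.span A {θ, T.sc X}).smul_mem r (Submodule.subset_span (by simp))))) m4 m5)
    obtain ⟨m, -, hm⟩ := Sp.bd a1
    have := gen (μ := μ - (cf 0).comp Ψ) (w := max w (4 * (1 - m).toNat))
      (fun a => sub_eq_zero.2 (congrFun a3 a)) (fun r => by simp [m4, Sp.u a1 a2])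
      (fun r hr => by
        simp [m5 r (T.anti (le_max_left _ _) hr),
          hm _ r (T.anti (le_max_right _ _) hr) 0 (by omega)]) s
    have h2 := Sp.kill a1 hs 1
    rw [one_mul] at h2
    exact m1 (by simpa [h2] using this)
  obtain ⟨a, b, e⟩ := Submodule.mem_span_pair.1 h1
  obtain ⟨b', e'⟩ := T.nrm' b
  exact ⟨a, b', by rw [← e, ← e']; rfl⟩

/-- **rigidity** -/
theorem rig (T : RG D A) (hJ : JG D) (fix : KFix D) (hθ : T.Th θ) {s : A} (hs : ∀ x, s ≠ x * θ) :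
    FiniteDimensional F (LinearMap.ker (T.op θ) ⊓ LinearMap.ker (T.op s) : Submodule F (KK F)) := by
  set V := LinearMap.ker (T.op θ) ⊓ LinearMap.ker (T.op s)
  have h1 : ∀ v ∈ V, T.op θ v = 0 := fun v hv => hv.1
  rcases hJ (T.Rd V) (by
      rintro _ ⟨Ψ, a1, a2, rfl⟩
      obtain ⟨m, -, hm⟩ := Sp.bd a1
      exact lci (μ := (cf 0).comp Ψ) (w := 4 * (1 - m).toNat) hθ
        (fun r => by simp [Sp.kill a1 h1]) (Sp.u a1 a2) fun r hr => hm _ r hr 0 (by omega)) (by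
      rintro _ ⟨Ψ, a1, a2, rfl⟩ b
      obtain ⟨Ψ', b1, b2⟩ := Sp.tr a1 b
      exact ⟨Ψ', b1, fun a => b2 _ ▸ T.gain0 _ (Sp.int a1 a2 _), funext fun a => by
        rw [b2, ← map_mul, T.red _ _ (a2 _)]⟩) with h | h
  · exact fin_of_Rd (T := T) fix
  have h2 : ∀ n : ℕ, ∃ a b, s = a * θ + T.sc X ^ n * b ∧ ∀ v ∈ V, T.op b v = 0 := fun n => by
    induction n with
    | zero => exact ⟨0, s, by simp, fun v hv => hv.2⟩
    | succ n ih =>
      obtain ⟨a, b, e, hb⟩ := ih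
      obtain ⟨a', b', e'⟩ := step hθ h hb
      refine ⟨a + T.sc X ^ n * a', b', by rw [e, e', pow_succ]; noncomm_ring, fun v hv => ?_⟩
      have := hb v hv
      rw [e', map_add, LinearMap.add_apply, op_mul, h1 v hv, map_zero, zero_add, op_mul, T.op_sc,
        mul_eq_zero] at this
      exact this.resolve_left fun c => X_ne_zero (IsFractionRing.injective F⟦X⟧ (KK F)
        (c.trans (map_zero _).symm))
  obtain ⟨x, hx⟩ := Submodule.mem_span_singleton.1 (T.closed (Submodule.span A {θ}) s fun w => by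
    obtain ⟨a, b, e, -⟩ := h2 w
    exact ⟨a * θ, Submodule.mem_span_singleton.2 ⟨a, rfl⟩, by simpa [e] using T.upow w b⟩)
  exact (hs x hx.symm).elim

end RG

end Vale.Agent.P221X.RIG
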