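import Vale.Agent.P221X.RIG.Ch
import Mathlib.FieldTheory.IsAlgClosed.AlgebraicClosure

/-!
# P221X, block RIG: statements of the steps of the theorem (J)

See notes/P221/h88-rig.md. `P = p^(2c)`, `E = P D`.
-/

namespace Vale.Agent.P221X.RIG

open Module

noncomputable section

variable {p : ℕ} [hp : Fact p.Prime] {k : Type*} [Field k] [CharP k p]

/-- pairs of weight `e`. -/
def Sl (ω e : ℕ) : Finset (ℕ × ℕ) :=
  (Finset.range (e + 1) ×ˢ Finset.range (e + 1)).filter fun ij => ij.1 + ω * ij.2 = e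

/-- the degree `e` symbol of a measure, evaluated at `(x0, y0)`. -/
def ev {E : ℤ_[p]} {L : Type*} [CommRing L] [Algebra k L] (ω : ℕ) (x0 y0 : L) (e : ℕ)
    (μ : Dual k (Per k E)) : L :=
  ∑ ij ∈ Sl ω e, algebraMap k L (μ (Bf k E ij.1 ij.2)) * x0 ^ ij.1 * y0 ^ ij.2

/-- all symbols of `N` vanish at `(x0, y0)`. -/
def Van {E : ℤ_[p]} {L : Type*} [CommRing L] [Algebra k L] (ω : ℕ) (x0 y0 : L)
    (N : Submodule k (Dual k (Per k E))) : Prop :=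
  ∀ e : ℕ, ∀ μ ∈ N, μ ∈ Fil k E ω e → ev ω x0 y0 e μ = 0

variable (k) in
/-- the function `2 a1` modulo `p`. -/
def s1 (E : ℤ_[p]) : Per k E := (2 : k) • red k (fun a : Lam p E => a.re) lipZ_re

variable (k) in
/-- the function `2 D a2` modulo `p`. -/
def s2 (E D : ℤ_[p]) : Per k E := (2 * rho k D) • red k (fun a : Lam p E => a.im) lipZ_im

/-- multiplication by a periodic function. -/
abbrev mulF {E : ℤ_[p]} (φ : Per k E) : Module.End k (Per k E) := LinearMap.mulLeft k φ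

/-- the linear form `t1 a1 + t2 a2` modulo `p`. -/
def lin {E : ℤ_[p]} (t1 t2 : ℤ_[p]) : Per k E :=
  rho k t1 • red k (fun a : Lam p E => a.re) lipZ_re +
    rho k t2 • red k (fun a : Lam p E => a.im) lipZ_im

variable (p k)

/-- row MOB: estimates for the Moebius maps and rotations. -/
def MobStmt : Prop :=
  5 ≤ p → ∀ (c : ℕ) (D E : ℤ_[p]), E = (p : ℤ_[p]) ^ (2 * c) * D →
    (∀ ω : ℕ, 1 ≤ ω → ω ≤ p ^ (2 * c) → ∀ (r : ℤ_[p]) (b : Lam p E),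
      Low k ω 0 (cmp k _ (lip_mob r b))) ∧
    (∀ (r : ℤ_[p]) (t : ℕ), Low k (p ^ (2 * c)) (2 * p ^ t)
      (cmp k _ (lip_mob r ((p : ℤ_[p]) ^ t • (1 : Lam p E))) - 1 - Dp k (1 : Lam p E) ^ p ^ t)) ∧
    (∀ (r : ℤ_[p]) (t : ℕ), Low k (p ^ (2 * c)) (2 * (p ^ (2 * c) * p ^ t))
      (cmp k _ (lip_mob r ((p : ℤ_[p]) ^ t • om E)) - 1 - Dp k (om E) ^ p ^ t)) ∧
    (∀ m : ℕ, Low k (p ^ (2 * c)) (2 * (p ^ (2 * c) * p ^ (m + 1) - p ^ (2 * c)))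
      (cmp k _ (lip_rot m) - 1 -
        mulF (s2 k E D) * Dp k (1 : Lam p E) ^ (p ^ (2 * c) * p ^ (m + 1)) -
        mulF (s1 k E) * Dp k (om E) ^ p ^ (m + 1)))

/-- row SPAN: the Mahler basis. -/
def SpanStmt : Prop :=
  ∀ (E : ℤ_[p]) (ω : ℕ), 1 ≤ ω →
    (∀ r : ℕ, Pol k E ω r =
      Submodule.span k {F | ∃ i j : ℕ, i + ω * j < r ∧ F = Bf k E i j}) ∧
    (∀ F : Per k E, ∃ r, F ∈ Pol k E ω r)

/-- row EV: formal properties of the symbols. -/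
def EvStmt : Prop :=
  ∀ (E : ℤ_[p]) (ω : ℕ), 1 ≤ ω → ∀ (x0 y0 : AlgebraicClosure k) (e : ℕ) (μ : Dual k (Per k E)),
    (μ ∈ Fil k E ω (e + 1) → ev ω x0 y0 e μ = 0) ∧
    ev ω x0 y0 (e + 1) (μ ∘ₗ Dp k (1 : Lam p E)) = x0 * ev ω x0 y0 e μ ∧
    ev ω x0 y0 (e + ω) (μ ∘ₗ Dp k (om E)) = y0 * ev ω x0 y0 e μ

/-- row VAN: not big if and only if the symbols have a common zero. -/
def VanStmt : Prop :=
  ∀ (E : ℤ_[p]) (ω : ℕ), 1 ≤ ω → ∀ N : Submodule k (Dual k (Per k E)),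
    (∀ x0 y0 : AlgebraicClosure k, (x0 ≠ 0 ∨ y0 ≠ 0) → Van ω x0 y0 N → ¬ Big N) ∧
    (∀ X Y : Module.End k (Per k E), (∀ μ ∈ N, μ ∘ₗ X ∈ N) → (∀ μ ∈ N, μ ∘ₗ Y ∈ N) →
      Low k ω 2 (X - Dp k (1 : Lam p E)) → Low k ω (ω + 1) (Y - Dp k (om E)) → ¬ Big N →
      ∃ x0 y0 : AlgebraicClosure k, (x0 ≠ 0 ∨ y0 ≠ 0) ∧ Van ω x0 y0 N)

/-- row STEP: enlarge `N` to a subspace which is stable under a linear form; the form is `a1`
or (only if `x0 ≠ 0`) `a2 - t a1` where `t^2 = D^(-1)` modulo `p` is excluded later. -/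
def StepStmt : Prop :=
  5 ≤ p → ∀ (c : ℕ) (D E r : ℤ_[p]), IsUnit D → E = (p : ℤ_[p]) ^ (2 * c) * D →
    ∀ (N : Submodule k (Dual k (Per k E))) (x0 y0 : AlgebraicClosure k), (x0 ≠ 0 ∨ y0 ≠ 0) →
      Stab k r N → Van (p ^ (2 * c)) x0 y0 N →
      ∃ (t1 t2 : ℤ_[p]) (N' : Submodule k (Dual k (Per k E))),
        ((t1 = 1 ∧ t2 = 0) ∨ (x0 ≠ 0 ∧ t2 = 1)) ∧ N ≤ N' ∧ Stab k r N' ∧
        Van (p ^ (2 * c)) x0 y0 N' ∧ ∀ μ ∈ N', μ ∘ₗ mulF (lin t1 t2) ∈ N'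

/-- the theorem (J), measure form. -/
def JStmt : Prop :=
  5 ≤ p → ∀ (D r : ℤ_[p]), (∀ t : ℤ_[p], IsUnit (t ^ 2 - D)) →
    ∀ N : Submodule k (Dual k (Per k D)), Stab k r N → N ≠ ⊥ → Big N

/-- row DESC: the descent. -/
def DescStmt : Prop :=
  MobStmt p k → SpanStmt p k → EvStmt p k → VanStmt p k → StepStmt p k → JStmt p k

end

end Vale.Agent.P221X.RIG
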