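import Vale.Agent.P221X.RIG.Gr

/-!
# P221X, block RIG: the Taylor formula for periodic functions
-/

namespace Vale.Agent.P221X.RIG

open Module

noncomputable section

variable {p : ℕ} [hp : Fact p.Prime] {k : Type*} [Field k] [CharP k p] {E : ℤ_[p]} {ω : ℕ}

/-- periodicity modulo `p^n`. -/
def PerN (n : ℕ) (F : Lam p E → k) : Prop := ∀ a v : Lam p E, F (a + (p : ℤ_[p]) ^ n • v) = F a

omit [CharP k p] [Field k] in
theorem PerN.mono {m n : ℕ} {F : Lam p E → k} (h : PerN m F) (hmn : m ≤ n) : PerN n F := by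
  intro a v
  obtain ⟨d, rfl⟩ := Nat.exists_eq_add_of_le hmn
  rw [pow_add, mul_smul, h]

omit [CharP k p] in
theorem PerN.dif_pow {n : ℕ} {F : Lam p E → k} (h : PerN n F) (w : Lam p E) (j : ℕ) :
    PerN n ((dif k w ^ j) F) := by
  induction j with
  | zero => exact h
  | succ j ih =>
    intro a v
    rw [pow_succ', Module.End.mul_apply, dif_apply, dif_apply, add_right_comm, ih, ih]

theorem PerN.taylor1 {n : ℕ} {F : Lam p E → k} (h : PerN n F) (a w : Lam p E) (x : ℤ_[p]) :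
    F (a + x • w) = ∑ j ∈ Finset.range (p ^ n), ch k x j * (dif k w ^ j) F a := by
  obtain ⟨x0, y, hx0, rfl⟩ := exists_nat_lt x n
  rw [add_smul, mul_smul, ← add_assoc, h, Nat.cast_smul_eq_nsmul, ← sh_apply (x0 • w) F a,
    sh_nsmul_eq,
    LinearMap.sum_apply, Finset.sum_apply]
  have h1 : ∀ j ∈ Finset.range (p ^ n),
      ch k ((x0 : ℤ_[p]) + (p : ℤ_[p]) ^ n * y) j * (dif k w ^ j) F a =
        (x0.choose j : k) * (dif k w ^ j) F a := fun j hj => by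
    rw [ch_add_pow_mul (Finset.mem_range.1 hj), ch_natCast]
  rw [Finset.sum_congr rfl h1]
  refine Finset.sum_subset (Finset.range_mono (by omega)) fun j _ hj => ?_
  rw [Finset.mem_range] at hj
  rw [Nat.choose_eq_zero_of_lt (by omega), Nat.cast_zero, zero_smul]
  rfl

theorem eq_re_im (b : Lam p E) : b = b.re • (1 : Lam p E) + b.im • om E := by
  ext <;> simp [om_re, om_im, QuadraticAlgebra.re_one, QuadraticAlgebra.im_one]

theorem PerN.taylor {n : ℕ} {F : Lam p E → k} (h : PerN n F) (a b : Lam p E) :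
    F (a + b) = ∑ ij ∈ Finset.range (p ^ n) ×ˢ Finset.range (p ^ n), ch k b.re ij.1 * ch k b.im ij.2 *
      (dif k (1 : Lam p E) ^ ij.1 * dif k (om E) ^ ij.2 : Module.End k (Lam p E → k)) F a := by
  conv_lhs => rw [eq_re_im b, ← add_assoc, h.taylor1]
  rw [Finset.sum_product_right]
  refine Finset.sum_congr rfl fun j _ => ?_
  rw [(h.dif_pow (om E) j).taylor1, Finset.mul_sum]
  refine Finset.sum_congr rfl fun i _ => ?_
  rw [Module.End.mul_apply]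
  ring

section

variable {v1 v2 e1 e2 g : ℕ} {χ1 χ2 : Lam p E → ℤ_[p]}

variable (k) in
/-- a term of the Taylor formula. -/
def tterm (v1 v2 : ℕ) (χ1 χ2 : Lam p E → ℤ_[p]) (F : Lam p E → k) (ij : ℕ × ℕ) : Lam p E → k :=
  fun a => ch k ((p : ℤ_[p]) ^ v1 * χ1 a) ij.1 * ch k ((p : ℤ_[p]) ^ v2 * χ2 a) ij.2 *
    (dif k (1 : Lam p E) ^ ij.1 * dif k (om E) ^ ij.2 : Module.End k (Lam p E → k)) F a

theorem tterm_mem (hω : 1 ≤ ω) (h1 : Gr k ω e1 χ1) (h2 : Gr k ω e2 χ2) (g1 : g + e1 ≤ p ^ v1)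
    (g2 : g + e2 ≤ ω * p ^ v2) {F : Lam p E → k} {s : ℕ} (hF : F ∈ PolF k E ω s) (b1 b2 : ℕ) :
    tterm k v1 v2 χ1 χ2 F (p ^ v1 * b1, p ^ v2 * b2) ∈ PolF k E ω (s - g * (b1 + b2)) := by
  have h3 := dif_pow_mem hF (p ^ v1 * b1) (p ^ v2 * b2)
  have h4 : tterm k v1 v2 χ1 χ2 F (p ^ v1 * b1, p ^ v2 * b2) =
      ((fun a => ch k (χ1 a) b1) * fun a => ch k (χ2 a) b2) *
      (dif k (1 : Lam p E) ^ (p ^ v1 * b1) * dif k (om E) ^ (p ^ v2 * b2) :
        Module.End k (Lam p E → k)) F := by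
    funext a
    simp only [tterm, ch_pow_mul_mul, Pi.mul_apply]
  rw [h4]
  have k1 := Nat.mul_le_mul_right b1 g1
  have k2 := Nat.mul_le_mul_right b2 g2
  rw [add_mul] at k1 k2
  rw [mul_assoc ω] at k2
  rcases le_total s (p ^ v1 * b1 + ω * (p ^ v2 * b2)) with h5 | h5
  · rw [Nat.sub_eq_zero_of_le h5, mem_PolF_zero] at h3
    rw [h3, mul_zero]
    exact zero_mem _
  · have h6 : ((fun a => ch k (χ1 a) b1) * fun a => ch k (χ2 a) b2) ∈
        PolF k E ω (e1 * b1 + e2 * b2 + 1) :=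
      PolF_mono (by omega) (mul_mem_PolF' hω (h1.2 b1) (h2.2 b2))
    refine PolF_mono ?_ (mul_mem_PolF' hω h6 h3)
    rw [mul_add g]
    omega

theorem tterm_cases (F : Lam p E → k) (ij : ℕ × ℕ) : tterm k v1 v2 χ1 χ2 F ij = 0 ∨
    ∃ b1 b2, ij = (p ^ v1 * b1, p ^ v2 * b2) := by
  by_cases h1 : p ^ v1 ∣ ij.1
  · by_cases h2 : p ^ v2 ∣ ij.2
    · obtain ⟨b1, h1⟩ := h1
      obtain ⟨b2, h2⟩ := h2
      exact Or.inr ⟨b1, b2, Prod.ext h1 h2⟩
    · left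
      funext a
      simp only [tterm, ch_pow_mul v2, if_neg h2, mul_zero, zero_mul, Pi.zero_apply]
  · left
    funext a
    simp only [tterm, ch_pow_mul v1, if_neg h1, zero_mul, Pi.zero_apply]

theorem taylor_sub (hω : 1 ≤ ω) (h1 : Gr k ω e1 χ1) (h2 : Gr k ω e2 χ2) (g1 : g + e1 ≤ p ^ v1)
    (g2 : g + e2 ≤ ω * p ^ v2) {γ : Lam p E → Lam p E}
    (hγ : ∀ a, γ a = a + ⟨(p : ℤ_[p]) ^ v1 * χ1 a, (p : ℤ_[p]) ^ v2 * χ2 a⟩)
    (F : Per k E) {s : ℕ} (hF : F.1 ∈ PolF k E ω s) (A : Finset (ℕ × ℕ)) (d : ℕ)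
    (hA : ∀ ij ∈ A, ij.1 ≤ p ^ v1 ∧ ij.2 ≤ p ^ v2)
    (hd : ∀ b1 b2, (p ^ v1 * b1, p ^ v2 * b2) ∉ A → d ≤ b1 + b2) :
    (fun a => F.1 (γ a)) - ∑ ij ∈ A, tterm k v1 v2 χ1 χ2 F.1 ij ∈ PolF k E ω (s - g * d) := by
  obtain ⟨n, hn⟩ := F.2
  have hn' : PerN (n + v1 + v2 + 1) F.1 := PerN.mono (m := n) hn (by omega)
  have hsub : A ⊆ Finset.range (p ^ (n + v1 + v2 + 1)) ×ˢ Finset.range (p ^ (n + v1 + v2 + 1)) := by
    intro ij hij
    rw [Finset.mem_product, Finset.mem_range, Finset.mem_range]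
    exact ⟨(hA ij hij).1.trans_lt (Nat.pow_lt_pow_right hp.out.one_lt (by omega)),
      (hA ij hij).2.trans_lt (Nat.pow_lt_pow_right hp.out.one_lt (by omega))⟩
  have h3 : (fun a => F.1 (γ a)) = ∑ ij ∈ Finset.range (p ^ (n + v1 + v2 + 1)) ×ˢ
      Finset.range (p ^ (n + v1 + v2 + 1)), tterm k v1 v2 χ1 χ2 F.1 ij := by
    funext a
    rw [hγ, hn'.taylor, Finset.sum_apply]
    rfl
  rw [h3, ← Finset.sum_sdiff hsub, add_sub_cancel_right]
  refine Submodule.sum_mem _ fun ij hij => ?_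
  rcases tterm_cases (k := k) (v1 := v1) (v2 := v2) (χ1 := χ1) (χ2 := χ2) F.1 ij with h | ⟨b1, b2, rfl⟩
  · rw [h]
    exact zero_mem _
  · refine PolF_mono ?_ (tterm_mem hω h1 h2 g1 g2 hF b1 b2)
    have := Nat.mul_le_mul_left g (hd b1 b2 (Finset.mem_sdiff.1 hij).2)
    omega

theorem tterm_zero (F : Lam p E → k) : tterm k v1 v2 χ1 χ2 F (0, 0) = F := by
  funext a
  simp [tterm]

theorem tterm_one (F : Lam p E → k) : tterm k v1 v2 χ1 χ2 F (p ^ v1, 0) =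
    (fun a => rho k (χ1 a)) * (dif k (1 : Lam p E) ^ p ^ v1) F := by
  funext a
  have h := ch_pow_mul_mul (k := k) v1 (χ1 a) 1
  rw [mul_one, ch_one_right] at h
  simp [tterm, h]

theorem tterm_two (F : Lam p E → k) : tterm k v1 v2 χ1 χ2 F (0, p ^ v2) =
    (fun a => rho k (χ2 a)) * (dif k (om E) ^ p ^ v2) F := by
  funext a
  have h := ch_pow_mul_mul (k := k) v2 (χ2 a) 1
  rw [mul_one, ch_one_right] at h
  simp [tterm, h]

/-- first order estimate. -/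
theorem low_cmp_one (hω : 1 ≤ ω) (h1 : Gr k ω e1 χ1) (h2 : Gr k ω e2 χ2) (g1 : g + e1 ≤ p ^ v1)
    (g2 : g + e2 ≤ ω * p ^ v2) {γ : Lam p E → Lam p E} (hl : Lip γ)
    (hγ : ∀ a, γ a = a + ⟨(p : ℤ_[p]) ^ v1 * χ1 a, (p : ℤ_[p]) ^ v2 * χ2 a⟩) :
    Low k ω g (cmp k γ hl - 1) := by
  refine Low.of_apply fun s F hF => ?_
  have h := taylor_sub hω h1 h2 g1 g2 hγ F hF {(0, 0)} 1 (by simp) (fun b1 b2 hb => by
    by_contra h
    obtain rfl : b1 = 0 := by omega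
    obtain rfl : b2 = 0 := by omega
    simp at hb)
  rw [Finset.sum_singleton, tterm_zero, mul_one] at h
  exact h

/-- second order estimate. -/
theorem low_cmp_two (hω : 1 ≤ ω) (h1 : Gr k ω e1 χ1) (h2 : Gr k ω e2 χ2) (g1 : g + e1 ≤ p ^ v1)
    (g2 : g + e2 ≤ ω * p ^ v2) {γ : Lam p E → Lam p E} (hl : Lip γ)
    (hγ : ∀ a, γ a = a + ⟨(p : ℤ_[p]) ^ v1 * χ1 a, (p : ℤ_[p]) ^ v2 * χ2 a⟩) :
    Low k ω (2 * g) (cmp k γ hl - 1 - mulF (red k χ1 h1.1) * Dp k (1 : Lam p E) ^ p ^ v1 -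
      mulF (red k χ2 h2.1) * Dp k (om E) ^ p ^ v2) := by
  refine Low.of_apply fun s F hF => ?_
  have q1 := pow_pos hp.out.pos v1
  have q2 := pow_pos hp.out.pos v2
  have h := taylor_sub hω h1 h2 g1 g2 hγ F hF {(0, 0), (p ^ v1, 0), (0, p ^ v2)} 2
    (by
      intro ij hij
      simp only [Finset.mem_insert, Finset.mem_singleton] at hij
      rcases hij with rfl | rfl | rfl <;> simp)
    (fun b1 b2 hb => by
      by_contra h
      have h' : (b1 = 0 ∧ b2 = 0) ∨ (b1 = 1 ∧ b2 = 0) ∨ (b1 = 0 ∧ b2 = 1) := by omega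
      rcases h' with ⟨rfl, rfl⟩ | ⟨rfl, rfl⟩ | ⟨rfl, rfl⟩ <;> simp at hb)
  rw [Finset.sum_insert (by simp; omega), Finset.sum_insert (by simp; omega), Finset.sum_singleton,
    tterm_zero, tterm_one, tterm_two, mul_comm g 2, ← sub_sub, ← sub_sub] at h
  rw [mem_Pol]
  convert h using 1
  simp only [LinearMap.sub_apply, Module.End.mul_apply, Module.End.one_apply,
    LinearMap.mulLeft_apply, AddSubgroupClass.coe_sub, MulMemClass.coe_mul, Dp_pow_val]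
  rfl

end

/-- the shift by `p^t v` in characteristic `p`. -/
theorem shift_pow (t : ℕ) (v : Lam p E) :
    cmp k _ (lip_add ((p : ℤ_[p]) ^ t • v)) = 1 + Dp k v ^ p ^ t := by
  refine LinearMap.ext fun F => Subtype.ext ?_
  have h1 : ((p : ℤ_[p]) ^ t • v) = (p ^ t : ℕ) • v := by
    rw [← Nat.cast_smul_eq_nsmul ℤ_[p], Nat.cast_pow]
  have h2 : sh k ((p ^ t : ℕ) • v) = 1 + dif k v ^ p ^ t := by
    rw [sh_nsmul_eq, Finset.sum_range_succ, Nat.choose_self, Nat.cast_one, one_smul]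
    congr 1
    rw [Finset.sum_eq_single 0]
    · simp
    · intro j hj hj0
      rw [Finset.mem_range] at hj
      rw [(CharP.cast_eq_zero_iff k p _).2 (hp.out.dvd_choose_pow hj0 hj.ne), zero_smul]
    · intro h
      exact absurd (Finset.mem_range.2 (pow_pos hp.out.pos t)) h
  change sh k ((p : ℤ_[p]) ^ t • v) F.1 = F.1 + ((Dp k v ^ p ^ t) F).1
  rw [h1, h2, Dp_pow_val]
  rfl

end

end Vale.Agent.P221X.RIG
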